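import Vale.Agent.P027M.TW.Defs
import Vale.Agent.P022.H853.L3.Dens

/-! # P027 route M, block TW: Frobenius density for elements whose order has few prime factors -/

set_option linter.all false

open NumberField IsDedekindDomain
open scoped Pointwise

noncomputable section

namespace Vale.Agent.P027M.TW

open Vale.Agent.P022 Vale.Agent.P022.H916 Vale.Agent.P022.H853

namespace DensP

variable {K L : Type} [Field K] [NumberField K] [Field L] [NumberField L] [Algebra K L]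
  {j : K →+* Qb} {jL : L →+* Qb} {ρ : GK j →* (L ≃ₐ[K] L)}

lemma step (D : Dict j jL ρ) (hn : ∀ x ∈ GK j, ∀ u ∈ GK jL, x * u * x⁻¹ ∈ GK jL)
    {P : Ideal (𝓞 Qb)} (hP : P.IsPrime) {ℓ : ℕ} (hℓ : 1 < ℓ) (hN : Ideal.absNorm (below j P) = ℓ)
    {φ : GQ} (hφ : ∀ x : 𝓞 Qb, φ • x - x ^ ℓ ∈ P) (hφL : φ ∈ GK jL) (x : GK j) :
    Ideal.absNorm (below jL ((x : GQ) • P)) = ℓ ∧
      (∀ y : 𝓞 L, ∃ a : 𝓞 K, y - algebraMap (𝓞 K) (𝓞 L) a ∈ below jL ((x : GQ) • P)) ∧
      (below jL ((x : GQ) • P)).comap (algebraMap (𝓞 K) (𝓞 L)) = below j P := by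
  have hxP : ((x : GQ) • P).IsPrime := inferInstance
  have hb : below j ((x : GQ) • P) = below j P := by
    ext a
    show RingOfIntegers.mapRingHom j a ∈ (x : GQ) • P ↔ RingOfIntegers.mapRingHom j a ∈ P
    rw [Ideal.mem_pointwise_smul_iff_inv_smul_mem]
    have : (x : GQ)⁻¹ • RingOfIntegers.mapRingHom j a = RingOfIntegers.mapRingHom j a := by
      apply RingOfIntegers.ext
      exact ((GK j).inv_mem x.2) a
    rw [this]
  have h1 : ∀ y : 𝓞 L, y ^ ℓ - y ∈ below jL ((x : GQ) • P) := by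
    intro y
    show RingOfIntegers.mapRingHom jL (y ^ ℓ - y) ∈ (x : GQ) • P
    rw [Ideal.mem_pointwise_smul_iff_inv_smul_mem, map_sub, map_pow, smul_sub, smul_pow']
    have h2 := hφ ((x : GQ)⁻¹ • RingOfIntegers.mapRingHom jL y)
    have h3 : φ • ((x : GQ)⁻¹ • RingOfIntegers.mapRingHom jL y) =
        (x : GQ)⁻¹ • RingOfIntegers.mapRingHom jL y := by
      have h4 := hn (x : GQ) x.2 _ hφL
      have h5 : ((x : GQ) * φ * (x : GQ)⁻¹) • RingOfIntegers.mapRingHom jL y =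
          RingOfIntegers.mapRingHom jL y := by
        apply RingOfIntegers.ext
        exact h4 y
      rw [smul_smul]
      have h6 : φ * (x : GQ)⁻¹ = (x : GQ)⁻¹ * ((x : GQ) * φ * (x : GQ)⁻¹) := by
        group
      rw [h6, mul_smul, h5]
    rw [h3] at h2
    have := P.neg_mem h2
    rwa [neg_sub] at this
  have h7 := no_growth D hxP hℓ (by rw [hb, hN]) h1
  exact ⟨h7.1, h7.2, by rw [D.below_comap, hb]⟩

lemma move (D : Dict j jL ρ) {t : GK j} (ht : (t : GQ) ∉ GK jL) :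
    ∃ Bad : Set (HeightOneSpectrum (𝓞 K)), Bad.Finite ∧ ∀ v ∉ Bad, ∀ Q : HeightOneSpectrum (𝓞 L),
      Q.asIdeal.comap (algebraMap (𝓞 K) (𝓞 L)) = v.asIdeal →
      (∀ y : 𝓞 L, ∃ a : 𝓞 K, y - algebraMap (𝓞 K) (𝓞 L) a ∈ Q.asIdeal) →
      ρ t • Q.asIdeal ≠ Q.asIdeal := by
  obtain ⟨θ, hθ⟩ : ∃ θ : 𝓞 L, θ - ρ t • θ ≠ 0 := by
    by_contra hcon
    push Not at hcon
    apply ht
    rw [← D.ker]
    apply AlgEquiv.ext
    intro x
    obtain ⟨a, b, hb, rfl⟩ := IsFractionRing.div_surjective (A := 𝓞 L) x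
    have ha' : ρ t (algebraMap (𝓞 L) L a) = algebraMap (𝓞 L) L a := by
      have := congrArg (fun z : 𝓞 L => (z : L)) (sub_eq_zero.1 (hcon a))
      exact this.symm
    have hb' : ρ t (algebraMap (𝓞 L) L b) = algebraMap (𝓞 L) L b := by
      have := congrArg (fun z : 𝓞 L => (z : L)) (sub_eq_zero.1 (hcon b))
      exact this.symm
    rw [map_div₀, ha', hb']
    rfl
  refine ⟨⋃ Q ∈ {Q : HeightOneSpectrum (𝓞 L) | θ - ρ t • θ ∈ Q.asIdeal},
    {v : HeightOneSpectrum (𝓞 K) | Q.asIdeal.comap (algebraMap (𝓞 K) (𝓞 L)) = v.asIdeal},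
    Set.Finite.biUnion (Cov.finite_bad L _ hθ) fun Q _ => Set.Subsingleton.finite ?_,
    fun v hv Q hQ h he => hv (Set.mem_biUnion (x := Q) ?_ hQ)⟩
  · intro v hv w hw
    apply HeightOneSpectrum.ext
    rw [← (hv : _ = _), ← (hw : _ = _)]
  · obtain ⟨a, ha⟩ := h θ
    have h2 : ρ t • (θ - algebraMap (𝓞 K) (𝓞 L) a) ∈ ρ t • Q.asIdeal :=
      Ideal.smul_mem_pointwise_smul _ _ _ ha
    rw [he, smul_sub] at h2
    have h3 : ρ t • algebraMap (𝓞 K) (𝓞 L) a = algebraMap (𝓞 K) (𝓞 L) a := by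
      apply RingOfIntegers.ext
      exact (ρ t).commutes _
    rw [h3] at h2
    have := Q.asIdeal.sub_mem ha h2
    simpa using this

lemma split (D : Dict j jL ρ) (hn : ∀ x ∈ GK j, ∀ u ∈ GK jL, x * u * x⁻¹ ∈ GK jL) {p : ℕ}
    (s : Fin p → GK j) (hs : ∀ i i', i ≠ i' → (((s i)⁻¹ * s i' : GK j) : GQ) ∉ GK jL) :
    ∃ Bad : Set (HeightOneSpectrum (𝓞 K)), Bad.Finite ∧ ∀ v ∉ Bad,
      (Ideal.absNorm v.asIdeal).Prime → ∀ P : Ideal (𝓞 Qb), P.IsPrime → below j P = v.asIdeal →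
      ∀ φ : GQ, (∀ x : 𝓞 Qb, φ • x - x ^ Ideal.absNorm v.asIdeal ∈ P) → φ ∈ GK jL →
      ∃ A : Finset (HeightOneSpectrum (𝓞 L)), p ≤ A.card ∧
        ∀ Q ∈ A, Q.asIdeal.comap (algebraMap (𝓞 K) (𝓞 L)) = v.asIdeal ∧
          Ideal.absNorm Q.asIdeal = Ideal.absNorm v.asIdeal := by
  classical
  choose B B1 B2 using fun z : {z : Fin p × Fin p // z.1 ≠ z.2} => move D (hs _ _ z.2)
  refine ⟨⋃ z, B z, Set.finite_iUnion B1, fun v hv hp P hP hPv φ hφ hφL => ?_⟩
  have st := step D hn hP hp.one_lt (by rw [hPv]) hφ hφL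
  have ne : ∀ x : GK j, below jL ((x : GQ) • P) ≠ ⊥ := by
    intro x h0
    have h1 := (st x).1
    rw [h0, Ideal.absNorm_bot] at h1
    exact hp.ne_zero h1.symm
  let Q : GK j → HeightOneSpectrum (𝓞 L) := fun x =>
    ⟨below jL ((x : GQ) • P), Ideal.IsPrime.comap _, ne x⟩
  have h1 : (Q 1).asIdeal = below jL P := congrArg (below jL) (one_smul _ _)
  have inj : Function.Injective fun i => Q (s i) := by
    intro i i' he
    by_contra hi
    have he' : below jL ((s i : GQ) • P) = below jL ((s i' : GQ) • P) :=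
      congrArg HeightOneSpectrum.asIdeal he
    rw [D.below_smul, D.below_smul] at he'
    refine B2 ⟨(i, i'), hi⟩ v (fun h => hv (Set.mem_iUnion.2 ⟨_, h⟩)) (Q 1)
      ((st 1).2.2.trans hPv) (st 1).2.1 ?_
    rw [h1, map_mul, mul_smul, ← he', map_inv, inv_smul_smul]
  refine ⟨Finset.univ.image fun i => Q (s i), by
    rw [Finset.card_image_of_injective _ inj, Finset.card_univ, Fintype.card_fin], fun R hR => ?_⟩
  obtain ⟨i, -, rfl⟩ := Finset.mem_image.1 hR
  exact ⟨(st (s i)).2.2.trans hPv, (st (s i)).1⟩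

lemma grp {G : Type} [Group G] [Finite G] (r : GQ →* G) (hr : IsOpen (r.ker : Set GQ))
    (S : Finset ℕ) : Dens r fun φ => ∃ l : ℕ, l.Prime ∧ l ∉ S ∧ IsFrob l φ := by
  classical
  intro g ps hps hsum hord
  let C : ℕ → Subgroup GQ := fun p => (Subgroup.zpowers (r g ^ p)).comap r
  have hC : ∀ p, IsOpen (C p : Set GQ) := fun p => Subgroup.isOpen_mono (fun x hx => by
    show r x ∈ Subgroup.zpowers (r g ^ p)
    rw [MonoidHom.mem_ker.1 hx]
    exact Subgroup.one_mem _) hr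
  have m1 : ∀ x, x ∈ C 1 ↔ r x ∈ Subgroup.zpowers (r g) := fun x => by
    show r x ∈ Subgroup.zpowers (r g ^ 1) ↔ _
    rw [pow_one]
  obtain ⟨F, iF, iN, jF, hGF⟩ := exists_fix (C 1) (hC 1)
  have hle : ∀ p, C p ≤ GK jF := fun p x hx => by
    rw [hGF, m1]
    exact Subgroup.zpowers_le_of_mem (Subgroup.npow_mem_zpowers (r g) p) hx
  have hcomm : ∀ p, ∀ x ∈ GK jF, ∀ u ∈ C p, x * u * x⁻¹ ∈ C p := by
    intro p x hx u hu
    have hu' := hle p hu
    rw [hGF, m1] at hx hu'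
    obtain ⟨k, hk⟩ := Subgroup.mem_zpowers_iff.1 hx
    obtain ⟨l, hl⟩ := Subgroup.mem_zpowers_iff.1 hu'
    have h2 : r (x * u * x⁻¹) = r u := by
      rw [map_mul, map_mul, map_inv, ← hk, ← hl, zpow_mul_comm, mul_inv_cancel_right]
    show r (x * u * x⁻¹) ∈ Subgroup.zpowers (r g ^ p)
    rw [h2]
    exact hu
  have hg : g ∈ GK jF := by
    rw [hGF, m1]
    exact Subgroup.mem_zpowers (r g)
  choose L iL iNL iA iG jL ρ D hGL _h using
    fun p : (ps.filter fun p => p ∣ orderOf (r g)) =>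
      exists_fld jF (C p) (hC p) (hle p) (hcomm p)
  choose B B1 B2 using fun p : (ps.filter fun p => p ∣ orderOf (r g)) =>
    split (D p) (by rw [hGL]; exact hcomm p) (p := p) (fun i => (⟨g, hg⟩ : GK jF) ^ (i : ℕ))
      (fun i i' hi h => by
        rw [hGL] at h
        obtain ⟨k, hk⟩ := Subgroup.mem_zpowers_iff.1 (Subgroup.mem_comap.1 h)
        have e : r g ^ ((p : ℕ) * k + (i : ℕ) - (i' : ℕ) : ℤ) = 1 := by
          simp only [Subgroup.coe_mul, Subgroup.coe_inv, Subgroup.coe_pow, map_mul, map_inv,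
            map_pow] at hk
          rw [zpow_sub, zpow_add, zpow_mul, zpow_natCast, zpow_natCast, zpow_natCast, hk,
            mul_inv_eq_one, mul_assoc, pow_mul_comm, inv_mul_cancel_left]
        have d1 : ((p : ℕ) : ℤ) ∣ (p : ℕ) * k + (i : ℕ) - (i' : ℕ) :=
          (Int.natCast_dvd_natCast.2 (Finset.mem_filter.1 p.2).2).trans
            (orderOf_dvd_iff_zpow_eq_one.2 e)
        rw [add_sub_assoc, dvd_add_right (dvd_mul_right _ _)] at d1
        have d2 := Int.eq_zero_of_abs_lt_dvd d1 (by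
          have := i.2
          have := i'.2
          rw [abs_lt]
          constructor <;> omega)
        exact hi (Fin.ext (by omega)))
  have hBad : ((⋃ n ∈ S.erase 0,
      {v : HeightOneSpectrum (𝓞 F) | ((n : ℕ) : 𝓞 F) ∈ v.asIdeal}) ∪ ⋃ p, B p).Finite := by
    refine Set.Finite.union (Set.Finite.biUnion (S.erase 0).finite_toSet fun n hn => ?_)
      (Set.finite_iUnion B1)
    refine Cov.finite_bad F _ ?_
    have : n ≠ 0 := (Finset.mem_erase.1 hn).1
    exact_mod_cast this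
  by_contra hcon
  have h1 := Cov.one_le_sum_of_cover_aux F L (fun p => p)
    (fun p => (hps p (Finset.mem_filter.1 p.2).1).pos) _ hBad (fun v hv hvp => by
      obtain ⟨P, hP, hPv⟩ := exists_above jF v.asIdeal v.isPrime
      have hlK : ((Ideal.absNorm v.asIdeal : ℕ) : 𝓞 F) ∈ v.asIdeal := Ideal.absNorm_mem _
      have hlP : ((Ideal.absNorm v.asIdeal : ℕ) : 𝓞 Qb) ∈ P := by
        have h1 : RingOfIntegers.mapRingHom jF ((Ideal.absNorm v.asIdeal : ℕ) : 𝓞 F) ∈ P := by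
          show _ ∈ below jF P
          rw [hPv]
          exact hlK
        rwa [map_natCast] at h1
      obtain ⟨φ, hφ⟩ := exists_frob jF hP hvp hlP
      rw [hPv] at hφ
      have h2 : r φ ∈ Subgroup.zpowers (r g) := (m1 _).1 (hGF ▸ φ.2)
      obtain ⟨m, hm⟩ := mem_powers_iff_mem_zpowers.2 h2
      have hm' : r g ^ m = r φ := hm
      by_cases hc : m.Coprime (orderOf (r g))
      · exact absurd ⟨φ, ⟨_, hvp, fun h => hv (Or.inl (Set.mem_biUnion
          (Finset.mem_coe.2 (Finset.mem_erase.2 ⟨hvp.ne_zero, h⟩)) hlK)), P, hP, hlP, hφ⟩, m, hc,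
          hm'.symm⟩ hcon
      · obtain ⟨p, p1, ⟨k, rfl⟩, p3⟩ := Nat.Prime.not_coprime_iff_dvd.1 hc
        refine ⟨⟨p, Finset.mem_filter.2 ⟨hord p p1 p3, p3⟩⟩, B2 _ v
          (fun h => hv (Or.inr (Set.mem_iUnion.2 ⟨_, h⟩))) hvp P hP hPv φ hφ ?_⟩
        rw [hGL]
        show r φ ∈ Subgroup.zpowers (r g ^ p)
        rw [← hm', pow_mul]
        exact Subgroup.npow_mem_zpowers _ _)
  rw [Finset.sum_coe_sort _ fun p : ℕ => (1 : ℝ) / p] at h1
  have h2 := Finset.sum_le_sum_of_subset_of_nonneg (f := fun p : ℕ => (1 : ℝ) / p)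
    (Finset.filter_subset (fun p => p ∣ orderOf (r g)) ps) fun p _ _ => by positivity
  linarith

end DensP

theorem dens : Spec_DENS := by
  intro Γ _ _ r hr S g ps h1 h2 h3
  have e : orderOf (r.toHomUnits g) = orderOf (r g) := orderOf_units.symm
  obtain ⟨φ, hφ, m, hm, h⟩ := DensP.grp r.toHomUnits (by
    convert hr using 1
    ext x
    exact Units.ext_iff) S g ps h1 h2 (by rw [e]; exact h3)
  exact ⟨φ, hφ, m, e ▸ hm, by simpa using congrArg Units.val h⟩

end Vale.Agent.P027M.TW
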