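import Vale.Agent.P027M.TW.Low
import Vale.Agent.P027M.K.Fun

/-! # P027 route M, block TW: Kummer classes as additive groups, descent, row LOW2 -/

set_option linter.all false

noncomputable section

namespace Vale.Agent.P027M.TW

open Vale.Agent.P019P P025H492 P025H816 P027M.K

section ha

variable {k F F' F'' : Type} [Field k] [Field F] [Algebra k F] [CFF k F] [Field F'] [Algebra k F']
  [CFF k F'] [Field F''] [Algebra k F''] [CFF k F''] {m : ℕ}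

variable (k F) in
/-- the Kummer classes of level `m` (the `m`-torsion of the class group), additively -/
abbrev HA (m : ℕ) : Type := Additive (HK k F m)

/-- the class of a function -/
def cl (x : Fˣ) (hx : x ∈ divU k F m) : HA k F m :=
  Additive.ofMul (QuotientGroup.mk ⟨x, hx⟩ : HK k F m)

theorem cl_surj (y : HA k F m) : ∃ x hx, cl x hx = y := by
  obtain ⟨⟨x, hx⟩, h⟩ := QuotientGroup.mk_surjective (Additive.toMul y)
  exact ⟨x, hx, congrArg Additive.ofMul h⟩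

theorem cl_mul {x y : Fˣ} (hx : x ∈ divU k F m) (hy : y ∈ divU k F m) :
    cl (x * y) (mul_mem hx hy) = cl x hx + cl y hy := rfl

theorem cl_one : cl (1 : Fˣ) (one_mem (divU k F m)) = 0 := rfl

theorem cl_inv {x : Fˣ} (hx : x ∈ divU k F m) : cl x⁻¹ (inv_mem hx) = -cl x hx := rfl

theorem cl_div {x y : Fˣ} (hx : x ∈ divU k F m) (hy : y ∈ divU k F m) :
    cl (x / y) (div_mem hx hy) = cl x hx - cl y hy := rfl

theorem cl_pow {x : Fˣ} (hx : x ∈ divU k F m) (n : ℕ) :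
    cl (x ^ n) (pow_mem hx n) = n • cl x hx := by
  induction n with
  | zero => simpa using cl_one
  | succ n ih =>
    rw [succ_nsmul, ← ih, ← cl_mul]
    congr 1
    exact pow_succ x n

theorem cl_eq_zero {x : Fˣ} (hx : x ∈ divU k F m) : cl x hx = 0 ↔ x ∈ powU F m :=
  (QuotientGroup.eq_one_iff (⟨x, hx⟩ : divU k F m)).trans Subgroup.mem_subgroupOf

theorem cl_eq {x y : Fˣ} (hx : x ∈ divU k F m) (hy : y ∈ divU k F m) :
    cl x hx = cl y hy ↔ x / y ∈ powU F m := by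
  rw [← sub_eq_zero, ← cl_div, cl_eq_zero]

theorem cl_prod {I : Type} (s : Finset I) (x : I → Fˣ) (hx : ∀ i, x i ∈ divU k F m) :
    cl (∏ i ∈ s, x i) (prod_mem fun i _ => hx i) = ∑ i ∈ s, cl (x i) (hx i) := by
  classical
  induction s using Finset.induction_on with
  | empty => simpa using cl_one
  | insert a s ha ih =>
    rw [Finset.sum_insert ha, ← ih, ← cl_mul]
    congr 1
    exact Finset.prod_insert ha

theorem HA_tor (y : HA k F m) : m • y = 0 := by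
  obtain ⟨x, hx, rfl⟩ := cl_surj y
  rw [← cl_pow, cl_eq_zero]
  exact ⟨x, rfl⟩

theorem HA_finite (hm : (m : k) ≠ 0) : Finite (HA k F m) := by
  have h0 : m ≠ 0 := by
    rintro rfl
    simp at hm
  have : Finite (HK k F m) := Nat.finite_of_card_ne_zero (by
    rw [card_HK hm]
    exact pow_ne_zero _ h0)
  exact Finite.of_equiv _ Additive.ofMul

/-- `f` is induced by `u` -/
def IsInd (u : Fˣ →* F'ˣ) (f : HA k F m →+ HA k F' m) : Prop :=
  ∀ x (hx : x ∈ divU k F m), ∃ hy : u x ∈ divU k F' m, f (cl x hx) = cl (u x) hy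

/-- the induced map -/
def ind (u : Fˣ →* F'ˣ) (hu : ∀ x ∈ divU k F m, u x ∈ divU k F' m) : HA k F m →+ HA k F' m :=
  MonoidHom.toAdditive (QuotientGroup.map _ _
    ((u.comp (divU k F m).subtype).codRestrict (divU k F' m) fun x => hu x x.2) (by
      rintro ⟨x, hx⟩ ⟨z, hz⟩
      refine ⟨u z, ?_⟩
      have h1 : z ^ m = x := hz
      show u z ^ m = u x
      rw [← map_pow, h1]))

theorem isInd_ind (u : Fˣ →* F'ˣ) (hu : ∀ x ∈ divU k F m, u x ∈ divU k F' m) :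
    IsInd u (ind u hu) := fun x hx => ⟨hu x hx, rfl⟩

theorem IsInd.unique {u : Fˣ →* F'ˣ} {f g : HA k F m →+ HA k F' m} (hf : IsInd u f)
    (hg : IsInd u g) : f = g := by
  ext y
  obtain ⟨x, hx, rfl⟩ := cl_surj y
  obtain ⟨_, h1⟩ := hf x hx
  obtain ⟨_, h2⟩ := hg x hx
  exact congrArg Additive.toMul (h1.trans h2.symm)

theorem IsInd.comp {u : Fˣ →* F'ˣ} {v : F'ˣ →* F''ˣ} {f : HA k F m →+ HA k F' m}
    {g : HA k F' m →+ HA k F'' m} (hg : IsInd v g) (hf : IsInd u f) :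
    IsInd (v.comp u) (g.comp f) := by
  intro x hx
  obtain ⟨h1, h2⟩ := hf x hx
  obtain ⟨h3, h4⟩ := hg _ h1
  exact ⟨h3, by rw [AddMonoidHom.comp_apply, h2, h4]; rfl⟩

theorem isInd_id : IsInd (MonoidHom.id Fˣ) (AddMonoidHom.id (HA k F m)) := fun _ hx => ⟨hx, rfl⟩

end ha

/-- descent from level `L` to level `K` up to operators `EK`, `EL` -/
structure Desc2 {Δ ι AK AL : Type} [CommGroup Δ] [Fintype Δ] [AddCommGroup AK] [AddCommGroup AL]
    (j : ℕ) (dl : Δ →* AddMonoid.End AL) (TK DK : ι → AddMonoid.End AK)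
    (TL DL : ι → AddMonoid.End AL) (io : AK →+ AL) (EK : AddMonoid.End AK)
    (EL : AddMonoid.End AL) : Prop where
  fin : Finite AK
  tor : ∀ y : AK, 3 ^ j • y = 0
  cTT : ∀ i i', Commute (TK i) (TK i')
  cTD : ∀ i i', Commute (TK i) (DK i')
  cDD : ∀ i i', Commute (DK i) (DK i')
  cTE : ∀ i, Commute (TK i) EK
  cDE : ∀ i, Commute (DK i) EK
  cTE' : ∀ i, Commute (TL i) EL
  cDE' : ∀ i, Commute (DL i) EL
  cdE : ∀ δ, Commute (dl δ) EL
  ioT : ∀ i y, io (TK i y) = TL i (io y)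
  ioD : ∀ i y, io (DK i y) = DL i (io y)
  d1 : ∀ x : AL, (∀ δ, dl δ x = x) → ∃ y, io y = EL x
  d2 : ∀ y : AK, io y = 0 → EK y = 0
  d3 : ∀ y : AK, 3 • y = 0 → ∃ w : AL, 3 ^ (j - 1) • ∑ δ, dl δ w = io (EK y)

/-- the statement proved in row LOW2 -/
def LOW2 : Prop :=
  ∀ r e v b f C : ℕ, ∃ j0 : ℕ, ∀ j, j0 ≤ j →
    ∀ (G Δ ι A0 AK AL Λ k : Type) [Group G] [CommGroup Δ] [Fintype Δ] [AddCommGroup A0]
    [AddCommGroup AK] [AddCommGroup AL] [CommRing Λ] [Field k] (red : Λ →+* k)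
    (_ : Λ ≃+ (Fin f → ZMod (3 ^ j))) (n : ℕ) (act tw : G →* AddMonoid.End AL)
    (dl : Δ →* AddMonoid.End AL) (ψ : G →* Δ) (T0 : ι → AddMonoid.End A0)
    (TK DK : ι → AddMonoid.End AK) (TL DL : ι → AddMonoid.End AL) (ρ : G →* M2 Λ) (ln : ι → ℕ)
    (a ε : ι → Λ) (Fr : ι → G → Prop) (U : Subgroup G) (io : AK →+ AL)
    (EK : AddMonoid.End AK) (EL : AddMonoid.End AL)
    (β : Fin C → AK →+ A0) (Fl : (G → ZMod 3) → Prop) (Z : Set G) (c : G) (σ : Fin r → G),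
    Coef red j → 2 * j ≤ n → Del n (fun i => ψ (σ i)) →
    GalH j act dl ψ TL DL ρ ln a ε Fr U → Desc2 j dl TK DK TL DL io EK EL →
    (∀ φ ∈ mH TK DK a ε, Hm.endo Λ AK EK φ = 0 → φ = 0) →
    (∀ φ ∈ mH TL DL a ε, Hm.endo Λ AL EL φ = 0 → φ = 0) →
    Old T0 TK DK a ε β → Nat.card {x : A0 // 3 • x = 0} ≤ 2 ^ b →
    Resid red ρ c → IsTw n act dl ψ tw → FlRaw tw ρ Fl →
    (∀ z ∈ Z, ψ z = 1 ∧ (ρ z).trace = 1 + (ρ z).det ∧ ∀ φ ∈ mH TL DL a ε,
      ((Hm.endo Λ AL (act z) - 1) * (Hm.endo Λ AL (act z) -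
        algebraMap Λ (Module.End Λ (Hm Λ AL)) (ρ z).det)) φ = 0) →
    SEL (redRep red ρ) U Fl Z r → (∀ i, ρ (σ i) = 1) →
    (∀ i, ∀ φ ∈ mH TL DL a ε, Hm.endo Λ AL
      (((act (σ i) - 1) * (act (σ i) - dl (ψ (σ i))) * (dl (ψ (σ i)) - 1)) ^ e) φ = 0) →
    ∃ φ : Λ →+ A0, (∀ i z, T0 i (φ z) = φ (a i * z)) ∧ 3 ^ v • φ ≠ 0

/-- row LOW2 -/
def Spec_LOW2 : Prop := HCH → GEN → MID → Spec_LOC → LOW2

/-- `g - 1` is injective on the `𝔪`-part if `1` is not a residual eigenvalue of `g` -/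
def CUSP2 : Prop :=
  ∀ (G Δ ι A Λ k : Type) [Group G] [CommGroup Δ] [AddCommGroup A] [CommRing Λ] [Field k]
    (red : Λ →+* k) (j n : ℕ) (act : G →* AddMonoid.End A) (dl : Δ →* AddMonoid.End A)
    (ψ : G →* Δ) (T D : ι → AddMonoid.End A) (ρ : G →* M2 Λ) (ln : ι → ℕ) (a ε : ι → Λ)
    (Fr : ι → G → Prop) (U : Subgroup G), Coef red j → (∀ δ : Δ, δ ^ 3 ^ n = 1) →
    GalH j act dl ψ T D ρ ln a ε Fr U → (∀ g, ∃ s : ℕ, redRep red ρ g ^ 2 ^ s = 1) →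
    ∀ g, ψ g = 1 → red (1 - (ρ g).trace + (ρ g).det) ≠ 0 → ∀ φ ∈ mH T D a ε,
      Hm.endo Λ A (act g - 1) φ = 0 → φ = 0

/-- row CUSP2 -/
def Spec_CUSP2 : Prop := HCH → CUSP2

/-- row DESCK: descent for Kummer classes in an unramified Galois cover, up to `g - 1`, where `g`
is a semilinear automorphism which fixes the roots of unity -/
def DESCK : Prop :=
  ∀ (k K L Δ : Type) [Field k] [CharZero k] [Field K] [Field L] [Algebra k K] [Algebra k L]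
    [Algebra K L] [IsScalarTower k K L] [CFF k K] [CFF k L] [FiniteDimensional K L] [IsGalois K L]
    [CommGroup Δ] [Fintype Δ] (j : ℕ) (θ : Δ →* (L ≃ₐ[K] L)) (g0 : k ≃+* k) (gK : K ≃+* K)
    (gL : L ≃+* L) (io : HA k K (3 ^ j) →+ HA k L (3 ^ j))
    (dl : Δ →* AddMonoid.End (HA k L (3 ^ j))) (aK : AddMonoid.End (HA k K (3 ^ j)))
    (aL : AddMonoid.End (HA k L (3 ^ j))), 1 ≤ j → Function.Bijective θ → IsUnr k K L →
    (∀ a, gK (algebraMap k K a) = algebraMap k K (g0 a)) →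
    (∀ x, gL (algebraMap K L x) = algebraMap K L (gK x)) → (∀ δ x, gL (θ δ x) = θ δ (gL x)) →
    (∀ a : k, a ^ 3 ^ j = 1 → g0 a = a) →
    IsInd (jU L) io → (∀ δ, IsInd (mU (θ δ).toRingEquiv) (dl δ)) → IsInd (mU gK) aK →
    IsInd (mU gL) aL →
    (∀ x, (∀ δ, dl δ x = x) → ∃ y, io y = aL x - x) ∧ (∀ y, io y = 0 → aK y - y = 0) ∧
      ∀ y, 3 • y = 0 → ∃ w, 3 ^ (j - 1) • ∑ δ, dl δ w = io (aK y - y)

end Vale.Agent.P027M.TW
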