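import Vale.Agent.P027M.TW.Tow
import Vale.Agent.P027M.M.Hk

/-! # P027 route M, block TW: the modular tower on Kummer classes (definitions, statements) -/

set_option linter.all false

noncomputable section

namespace Vale.Agent.P027M.TW

open NumberField Vale.Agent.P022 Vale.Agent.P022.H231.L3 Vale.Agent.P019P Vale.Agent.P027M.M

theorem Ok.lv {N : ℕ} {H : Subgroup (ZMod N)ˣ} (h : Ok N H) : Lv N := ⟨h.pos, h.four⟩

/-- the field `fl` of `Lv1` on Kummer classes -/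
def InFL (X : Mdl) : Prop := ∀ (N : ℕ) (H : Subgroup (ZMod N)ˣ) (j : ℕ), Ok N H → 1 ≤ j →
  ∀ [CFF Qb (L (GH N H))] (A : Act X N H (3 ^ j)) (P : Ideal (𝓞 Qb)) (O : ValuationSubring Qb),
  P.IsPrime → (3 : 𝓞 Qb) ∈ P → D.Over P O →
  D.Fl O (D.inr P) fun g (y : HA Qb (L (GH N H)) (3 ^ j)) => A.act g y

/-- `IGU` on Kummer classes -/
def InIGU (X : Mdl) : Prop := ∀ (M q : ℕ) (H : Subgroup (ZMod (M * q))ˣ) (j : ℕ), Ok (M * q) H →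
  1 ≤ j → GoodP M q → Split M q H → ∀ [CFF Qb (L (GH (M * q) H))] (A : Act X (M * q) H (3 ^ j))
  (P : Ideal (𝓞 Qb)), P.IsPrime → (q : 𝓞 Qb) ∈ P → ∀ σ, S.Inert P σ → ∀ s, IsCy (M * q) σ s →
  ∀ τ : (ZMod (M * q))ˣ, ZMod.unitsMap (dvd_mul_right M q) τ = 1 →
  ∀ y z w, z = A.dia τ y - y → w = A.act σ z - A.dia s z → A.act σ w = w

/-- the last clause of `DEG` on Kummer classes; the two maps are the norm `nm` and `nm ∘ W` -/
def InI2 (X : Mdl) : Prop := ∀ (M q : ℕ) (hq : q.Prime) (H : Subgroup (ZMod M)ˣ) (j : ℕ), Ok M H →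
  1 ≤ j → GoodP M q → ∀ d, IsAL M q d → ∀ (h : GH (M * q) (up H q) ≤ GH M H)
  [CFF Qb (L (GH M H))] [CFF Qb (L (GH (M * q) (up H q)))] (A : Act X (M * q) (up H q) (3 ^ j))
  (nm : HA Qb (L (GH (M * q) (up H q))) (3 ^ j) →+ HA Qb (L (GH M H)) (3 ^ j))
  (W : AddMonoid.End (HA Qb (L (GH (M * q) (up H q))) (3 ^ j))), IsNm h nm →
  Rep (X.pb (al 1 q d none) (al_pos hq.pos d none)) W → ∀ φ, IsFrob q φ →
  ∀ u : (ZMod (M * q))ˣ, ((ZMod.unitsMap (dvd_mul_right M q) u : (ZMod M)ˣ) : ZMod M) = q →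
  ∀ y, nm y = 0 → nm (W y) = 0 → ∀ z, z = A.act φ (A.act φ y) - A.dia u y →
  A.act φ (A.act φ z) = q ^ 2 • A.dia u z

/-- `THE` on Kummer classes -/
def InTHE (X : Mdl) (N : ℕ) (a : ℕ → O3) (ε : (ZMod N)ˣ →* O3) : Prop := ∀ j, 1 ≤ j →
  ∀ [CFF Qb (L (GH N (H4 N)))] (A : Act X N (H4 N) (3 ^ j)),
  ∃ φ : k9 →+ HA Qb (L (GH N (H4 N))) (3 ^ j), (∃ z, φ z ≠ 0) ∧
    (∀ l, GoodP N l → ∀ z, A.T l (φ z) = φ (res3 (a l) * z)) ∧
    ∀ u z, A.dia u (φ z) = φ (res3 (ε u) * z)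

/-- `OUT` on Kummer classes -/
def OutK (X : Mdl) (N : ℕ) (a : ℕ → O3) : Prop := ∀ (B : Finset ℕ) (v : ℕ), ∃ j, 1 ≤ j ∧
  ∃ (_ : CFF Qb (L (GH N (H4 N)))) (A : Act X N (H4 N) (3 ^ j))
    (φ : La j →+ HA Qb (L (GH N (H4 N))) (3 ^ j)),
    (∀ l ∈ B, GoodP N l → ∀ z, A.T l (φ z) = φ (toLa j (a l) * z)) ∧ ∃ z, 3 ^ v • φ z ≠ 0

/-- the statements of block M which are used -/
structure MIn (X : Mdl) : Prop where
  grp : GRP
  cffs : CFFS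
  artin : ARTIN X
  faith : M.FAITH X
  galx : GALX X
  unram : UNRAM
  hec3 : HEC3 X
  act : ACT X
  comm : COMM X
  es : ES X
  unr : M.UNR X
  opn : OPEN X
  lev : M.LEV X
  alk : ALK X

/-- the modules of `Y` are the Kummer classes -/
def Link (X : Mdl) (Y : Mods) : Prop := ∀ (N : ℕ) (H : Subgroup (ZMod N)ˣ) (j : ℕ), Ok N H →
  ∃ (_ : CFF Qb (L (GH N H))) (A : Act X N H (3 ^ j))
    (e : Y.A N H j ≃+ HA Qb (L (GH N H)) (3 ^ j)), (∀ g y, e (Y.act N H j g y) = A.act g (e y)) ∧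
    (∀ l y, e (Y.T N H j l y) = A.T l (e y)) ∧ ∀ u y, e (Y.dia N H j u y) = A.dia u (e y)

/-- **the tower exists** -/
def INST : Prop := ∀ X : Mdl, MIn X → InFL X → InIGU X → InI2 X → ∃ Y : Mods, Link X Y ∧ Tower Y

/-- **block TW on Kummer classes** -/
def TWK : Prop := TWG → FONT → OV3 → ∀ X : Mdl, MIn X → InFL X → InIGU X → InI2 X →
  ∀ (N : ℕ) (ρ : GQ →* M2 O3) (a : ℕ → O3) (ε : (ZMod N)ˣ →* O3), Rho N ρ a ε → InTHE X N a ε →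
  OutK X N a

end Vale.Agent.P027M.TW
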