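import Vale.Agent.P027M.TW.Low
import Vale.Agent.P027M.S.Defs
import Vale.Agent.P027M.D.Fl

/-! # P027 route M, block TW: glue to the blocks S and Font -/

noncomputable section

namespace Vale.Agent.P027M.TW

open NumberField Vale.Agent.P022

/-- the condition at `3` in the form used by block S -/
def FlL (P : Ideal (𝓞 Qb)) (Γ : Subgroup GQ) (w : Qb) (F : GQ → ZMod 3) : Prop :=
  ∀ y : Qb, S.Law Γ w F y → ¬ S.Lev P 4 (y ^ 3) ∧ ¬ S.Lev P 2 (y ^ 3)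

/-- the output of block Font -/
def FONT : Prop :=
  ∀ (P : Ideal (𝓞 Qb)) (O : ValuationSubring Qb) (Γ : Subgroup GQ) (w : Qb), P.IsPrime →
    (3 : 𝓞 Qb) ∈ P → D.Over P O → S.Base Γ → w ^ 2 + w + 1 = 0 → (∀ g ∈ Γ, g w = w) →
    ∀ F : GQ → ZMod 3, (fun σ : D.inr P => w ^ (F σ).val) ∈ D.Bs O (D.inr P) → FlL P Γ w F

/-- row FLG -/
def Spec_FLG : Prop :=
  FONT → ∀ (P : Ideal (𝓞 Qb)) (O : ValuationSubring Qb) (Γ : Subgroup GQ) (w : Qb), P.IsPrime →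
    (3 : 𝓞 Qb) ∈ P → D.Over P O → S.Base Γ → w ^ 2 + w + 1 = 0 → (∀ g ∈ Γ, g w = w) →
    ∀ (A Λ : Type) [AddCommGroup A] [CommRing Λ] (act tw : GQ →* AddMonoid.End A)
      (ρ : GQ →* M2 Λ), (∀ g ∈ D.inr P, tw g = act g) →
      D.Fl O (D.inr P) (fun g (x : A) => act g x) →
      D.Fl O (D.inr P) (fun g (v : Fin 2 → Λ) => (ρ g).mulVec v) → FlRaw tw ρ (FlL P Γ w)

/-- `h` lies in the decomposition group of `P` -/
def Dec (P : Ideal (𝓞 Qb)) (h : GQ) : Prop := ∀ x : 𝓞 Qb, h • x ∈ P ↔ x ∈ P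

/-- row TAME: cubic characters of inertia away from `3` are invariant under the part of the
decomposition group which fixes `w` -/
def TAME : Prop :=
  ∀ (P : Ideal (𝓞 Qb)) (l : ℕ) (Γ U : Subgroup GQ) (w : Qb) (φ : GQ → ZMod 3), P.IsPrime →
    l.Prime → l ≠ 3 → (l : 𝓞 Qb) ∈ P → S.Base Γ → w ^ 2 + w + 1 = 0 → (∀ g ∈ Γ, g w = w) →
    (∀ s ∈ Γ, ∀ t ∈ Γ, φ (s * t) = φ s + φ t) → IsOpen (U : Set GQ) → (∀ u ∈ U, φ u = 0) →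
    ∀ h s : GQ, Dec P h → h w = w → s ∈ Γ → S.Inert P s → φ (h * s * h⁻¹) = φ s

/-- the local condition at `P` is automatic -/
def LocOK {k : Type} [Field k] (ρb : GQ →* M2 k) (w : Qb) (U : Subgroup GQ) (Z : Set GQ)
    (P : Ideal (𝓞 Qb)) : Prop :=
  (∀ g, S.Inert P g → g ∈ U) ∨ ∀ X : M2 k, X.trace = 0 →
    (∀ h, Dec P h → h w = w → X * ρb h = ρb h * X) →
    ((∀ z, S.Inert P z → z ∈ Z) → ∀ z, S.Inert P z → (X * ρb z).trace = 0) → X = 0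

/-- row SELG: from the Selmer bound of block S to `SEL`; and the case of a visible prime -/
def Spec_SELG : Prop :=
  (TAME → ∀ (k : Type) [Field k] [CharP k 3] (ρb : GQ →* M2 k) (Γ U : Subgroup GQ) (w : Qb)
    (Q : Finset ℕ) (r : ℕ) (Z : Set GQ) (P3 : Ideal (𝓞 Qb)), P3.IsPrime → (3 : 𝓞 Qb) ∈ P3 →
    S.Base Γ → w ^ 2 + w + 1 = 0 → (∀ g ∈ Γ, g w = w ∧ ρb g = 1) → IsOpen (U : Set GQ) →
    (∀ l : ℕ, l.Prime → 3 < l → l ∉ Q → ∀ P : Ideal (𝓞 Qb), P.IsPrime → (l : 𝓞 Qb) ∈ P →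
      LocOK ρb w U Z P) →
    S.Sel ρb.toHomUnits Γ w Q r → SEL ρb U (FlL P3 Γ w) Z r) ∧
  ∀ (k : Type) [Field k] (ρb : GQ →* M2 k) (w : Qb) (U : Subgroup GQ) (Z : Set GQ)
    (P : Ideal (𝓞 Qb)) (l : ℕ), P.IsPrime → l.Prime → l ≠ 3 → (l : 𝓞 Qb) ∈ P →
    w ^ 2 + w + 1 = 0 → (∀ z, S.Inert P z → z ∈ Z) →
    (∃ z, S.Inert P z ∧ (ρb z).trace = 1 + (ρb z).det ∧ (ρb z).det ≠ 1) → LocOK ρb w U Z P

end Vale.Agent.P027M.TW
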