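import Vale.Agent.P027M.TW.Defs

/-! # P027 route M, block TW: conjugation, involutions, spanning families -/

set_option linter.all false

noncomputable section

namespace Vale.Agent.P027M.TW

open Vale.Agent.P022

theorem Coef.isUnit {Λ k : Type} [CommRing Λ] [Field k] {red : Λ →+* k} {j : ℕ} (h : Coef red j)
    {a : Λ} (ha : red a ≠ 0) : IsUnit a := by
  obtain ⟨b, hb⟩ := h.surj (red a)⁻¹
  have h1 := (h.nil (a * b - 1) (by rw [map_sub, map_mul, hb, mul_inv_cancel₀ ha, map_one,
    sub_self])).isUnit_add_one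
  rw [sub_add_cancel] at h1
  exact isUnit_of_mul_isUnit_left h1

theorem Coef.three_eq {Λ k : Type} [CommRing Λ] [Field k] {red : Λ →+* k} {j : ℕ}
    (h : Coef red j) : (3 : k) = 0 := by
  have h1 := congrArg red h.three
  rw [map_pow, map_zero, map_ofNat] at h1
  exact (pow_eq_zero_iff'.1 h1).1

theorem Coef.two_ne {Λ k : Type} [CommRing Λ] [Field k] {red : Λ →+* k} {j : ℕ}
    (h : Coef red j) : (2 : k) ≠ 0 := fun e =>
  one_ne_zero (α := k) (by linear_combination h.three_eq - e)

namespace Conj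

theorem sel {G k : Type} [Group G] [Field k] (ρ ρ' : G →* M2 k) (P Q : M2 k) (U : Subgroup G)
    (Fl : (G → ZMod 3) → Prop) (Z : Set G) (r : ℕ) (h : P * Q = 1) (e : ∀ g, ρ' g = Q * ρ g * P)
    (H : SEL ρ U Fl Z r) : SEL ρ' U Fl Z r := by
  have h' : Q * P = 1 := mul_eq_one_comm.1 h
  have pq : ∀ x : M2 k, P * (Q * x) = x := fun x => by rw [← mul_assoc, h, one_mul]
  have qp : ∀ x : M2 k, Q * (P * x) = x := fun x => by rw [← mul_assoc, h', one_mul]
  intro c c1 c2 c3 c4 c5
  have a1 : ∀ i g g', P * c i (g * g') * Q = P * c i g * Q + ρ g * (P * c i g' * Q) * ρ g⁻¹ := by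
    intro i g g'
    simp only [c1, e, mul_add, add_mul, mul_assoc, pq, h, mul_one]
  have a2 : ∀ i g, (P * c i g * Q).trace = 0 := by
    intro i g
    rw [Matrix.trace_mul_cycle, h', one_mul, c2]
  have a3 : ∀ i, ∀ u ∈ U, P * c i u * Q = 0 := by
    intro i u hu
    simp only [c3 i u hu, mul_zero, zero_mul]
  have a4 : ∀ i (θ : M2 k →+ ZMod 3), ∃ F, Fl F ∧ ∀ s, ρ s = 1 → θ (P * c i s * Q) = F s := by
    intro i θ
    obtain ⟨F, hF, hs⟩ := c4 i (θ.comp ((AddMonoidHom.mulRight Q).comp (AddMonoidHom.mulLeft P)))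
    exact ⟨F, hF, fun s h1 => hs s (by rw [e, h1, mul_one, h'])⟩
  have a5 : ∀ i, ∀ z ∈ Z, (P * c i z * Q * ρ z).trace = 0 := by
    intro i z hz
    have h1 := c5 i z hz
    rw [e] at h1
    rw [mul_assoc, mul_assoc, Matrix.trace_mul_comm, ← h1]
    simp only [mul_assoc]
  obtain ⟨κ, k0, m, hm⟩ := H (fun i g => P * c i g * Q) a1 a2 a3 a4 a5
  refine ⟨κ, k0, Q * m * P, fun g => ?_⟩
  have h1 := congrArg (fun x => Q * x * P) (hm g)
  simp only [Finset.mul_sum, Finset.sum_mul, mul_smul_comm, smul_mul_assoc, mul_assoc, qp, h',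
    mul_one, mul_sub, sub_mul] at h1
  rw [h1]
  simp only [e, mul_assoc, pq]

theorem of_det {Λ : Type} [CommRing Λ] (m P D : M2 Λ) (h : IsUnit P.det) (e : m * P = P * D) :
    ∃ P Q : M2 Λ, P * Q = 1 ∧ Q * P = 1 ∧ Q * m * P = D :=
  ⟨P, P⁻¹, Matrix.mul_nonsing_inv P h, Matrix.nonsing_inv_mul P h, by
    rw [mul_assoc, e, ← mul_assoc, Matrix.nonsing_inv_mul P h, one_mul]⟩

theorem diag {Λ k : Type} [CommRing Λ] [Field k] {red : Λ →+* k} {j : ℕ} (h : Coef red j)
    (m : M2 Λ) (h1 : m * m = 1) (h2 : m.det = -1) :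
    ∃ P Q : M2 Λ, P * Q = 1 ∧ Q * P = 1 ∧ Q * m * P = !![1, 0; 0, -1] := by
  have e00 := congrFun (congrFun h1 0) 0
  have e01 := congrFun (congrFun h1 0) 1
  rw [Matrix.det_fin_two] at h2
  simp only [Matrix.mul_apply, Fin.sum_univ_two, Matrix.one_apply_eq, ne_eq, zero_ne_one,
    not_false_eq_true, Matrix.one_apply_ne] at e00 e01
  have hm := Matrix.eta_fin_two m
  generalize m 0 0 = a at *
  generalize m 0 1 = b at *
  generalize m 1 0 = c at *
  generalize m 1 1 = d at *
  have hd : d = -a := by linear_combination (-(a + d)) * e00 + a * e00 + a * h2 + c * e01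
  subst hd
  have two : IsUnit (2 : Λ) := h.isUnit (by rw [map_ofNat]; exact h.two_ne)
  by_cases c1 : red (1 + a) = 0
  · have c2 : red (1 - a) ≠ 0 := fun c2 => h.two_ne (by
      rw [map_add, map_one] at c1
      rw [map_sub, map_one] at c2
      linear_combination c1 + c2)
    refine of_det m !![b, 1 - a; 1 - a, -c] _ ?_ ?_
    · rw [Matrix.det_fin_two_of, show b * -c - (1 - a) * (1 - a) = -(2 * (1 - a)) by
        linear_combination -e00]
      exact (two.mul (h.isUnit c2)).neg
    · rw [hm, Matrix.mul_fin_two, Matrix.mul_fin_two]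
      ext i j
      fin_cases i <;> fin_cases j
      · simp; ring
      · simp; linear_combination -e00
      · simp; linear_combination e00
      · simp; ring
  · refine of_det m !![1 + a, -b; c, 1 + a] _ ?_ ?_
    · rw [Matrix.det_fin_two_of, show (1 + a) * (1 + a) - -b * c = 2 * (1 + a) by
        linear_combination e00]
      exact two.mul (h.isUnit c1)
    · rw [hm, Matrix.mul_fin_two, Matrix.mul_fin_two]
      ext i j
      fin_cases i <;> fin_cases j
      · simp; linear_combination e00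
      · simp; ring
      · simp; ring
      · simp; linear_combination -e00

theorem span {X Λ k : Type} [CommRing Λ] [Field k] {red : Λ →+* k} {j : ℕ} (h : Coef red j)
    (ρ : X → M2 Λ) (H : ∀ m : M2 k, m ∈ Submodule.span k (Set.range fun g => (ρ g).map red))
    (m : M2 Λ) : m ∈ Submodule.span Λ (Set.range ρ) := by
  have lift : ∀ y ∈ Submodule.span k (Set.range fun g => (ρ g).map red),
      ∃ x ∈ Submodule.span Λ (Set.range ρ), x.map red = y := by
    intro y hy
    induction hy using Submodule.span_induction with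
    | mem y hy =>
      obtain ⟨g, rfl⟩ := hy
      exact ⟨ρ g, Submodule.subset_span ⟨g, rfl⟩, rfl⟩
    | zero => exact ⟨0, Submodule.zero_mem _, by ext; simp⟩
    | add y z _ _ a b =>
      obtain ⟨x, hx, rfl⟩ := a
      obtain ⟨x', hx', rfl⟩ := b
      exact ⟨x + x', Submodule.add_mem _ hx hx', by ext; simp⟩
    | smul t y _ a =>
      obtain ⟨x, hx, rfl⟩ := a
      obtain ⟨s, rfl⟩ := h.surj t
      exact ⟨s • x, Submodule.smul_mem _ _ hx, by ext; simp⟩
  refine Submodule.le_of_le_smul_of_le_jacobson_bot (I := RingHom.ker red) (N' := ⊤)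
    Module.Finite.fg_top (fun a ha => ?_) (fun y _ => ?_) Submodule.mem_top
  · rw [Ideal.mem_jacobson_bot]
    intro y
    refine h.isUnit ?_
    rw [map_add, map_mul, (RingHom.mem_ker).1 ha, zero_mul, zero_add, map_one]
    exact one_ne_zero
  · obtain ⟨x, hx, e⟩ := lift _ (H (y.map red))
    rw [← add_sub_cancel x y]
    refine Submodule.add_mem_sup hx ?_
    rw [Matrix.matrix_eq_sum_single (y - x)]
    refine Submodule.sum_mem _ fun a _ => Submodule.sum_mem _ fun b _ => ?_
    rw [← mul_one ((y - x) a b), ← smul_eq_mul, ← Matrix.smul_single]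
    refine Submodule.smul_mem_smul ?_ Submodule.mem_top
    rw [RingHom.mem_ker, Matrix.sub_apply, map_sub, sub_eq_zero]
    exact (congrFun (congrFun e a) b).symm

end Conj

theorem conj : Spec_CONJ :=
  ⟨fun _ _ _ _ ρ ρ' P Q U Fl Z r h e H => Conj.sel ρ ρ' P Q U Fl Z r h e H,
    fun _ _ _ _ _ _ h m h1 h2 => Conj.diag h m h1 h2, fun _ _ _ _ _ _ _ h ρ H m => Conj.span h ρ H m⟩

end Vale.Agent.P027M.TW
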