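import Vale.Agent.P027M.TW.Glue

/-! # P027 route M, block TW: from the Selmer bound of block S to `SEL` -/

set_option linter.all false

noncomputable section

namespace Vale.Agent.P027M.TW

open NumberField Vale.Agent.P022

namespace Selg

lemma sep {k : Type} [Field k] [CharP k 3] {X Y : M2 k} (h : ∀ θ : M2 k →+ ZMod 3, θ X = θ Y) :
    X = Y := by
  letI : Module (ZMod 3) (M2 k) := AddCommGroup.zmodModule fun x => by
    ext i j
    have : ((3 : ℕ) : k) = 0 := CharP.cast_eq_zero k 3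
    rw [Matrix.smul_apply, nsmul_eq_mul, this, zero_mul, Matrix.zero_apply]
  rw [← sub_eq_zero, ← Module.forall_dual_apply_eq_zero_iff (ZMod 3)]
  intro φ
  rw [map_sub, sub_eq_zero]
  exact h φ.toAddMonoidHom

lemma inert_mul {P : Ideal (𝓞 Qb)} {z s : GQ} (hz : S.Inert P z) (hs : S.Inert P s) :
    S.Inert P (z * s) := fun x => by
  have := P.add_mem (hz (s • x)) (hs x)
  rwa [sub_add_sub_cancel, ← mul_smul] at this

lemma inert_dec {P : Ideal (𝓞 Qb)} {z : GQ} (hz : S.Inert P z) : Dec P z := fun x =>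
  ⟨fun h => by simpa using P.sub_mem h (hz x), fun h => by simpa using P.add_mem (hz x) h⟩

lemma inert_w {P : Ideal (𝓞 Qb)} {l : ℕ} {w : Qb} {z : GQ} (hP : P.IsPrime) (hl : l.Prime)
    (h3 : l ≠ 3) (hm : (l : 𝓞 Qb) ∈ P) (hw : w ^ 2 + w + 1 = 0) (hz : S.Inert P z) : z w = w := by
  have hi : IsIntegral ℤ w := by
    refine IsIntegral.of_pow (n := 3) (by norm_num) ?_
    rw [show w ^ 3 = 1 by linear_combination (w - 1) * hw]
    exact isIntegral_one
  by_contra hn
  have h1 : z w ^ 2 + z w + 1 = 0 := by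
    have := congrArg z hw
    simpa using this
  have h2 : z w + w + 1 = 0 :=
    (mul_eq_zero.1 (show (z w - w) * (z w + w + 1) = 0 by linear_combination h1 - hw)).resolve_left
      (sub_ne_zero.2 hn)
  let W : 𝓞 Qb := ⟨w, hi⟩
  have h4 : -((z • W - W) * (z • W - W)) = ((3 : ℕ) : 𝓞 Qb) := by
    apply RingOfIntegers.ext
    show -((z w - w) * (z w - w)) = algebraMap (𝓞 Qb) Qb ((3 : ℕ) : 𝓞 Qb)
    rw [map_natCast, Nat.cast_ofNat]
    linear_combination (-(z w) + 3 * w + 1) * h2 - 4 * hw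
  have h5 : ((3 : ℕ) : 𝓞 Qb) ∈ P := h4 ▸ P.neg_mem (P.mul_mem_left _ (hz W))
  obtain ⟨a, b, e⟩ := Nat.Coprime.cast (R := 𝓞 Qb)
    ((Nat.coprime_primes hl Nat.prime_three).2 h3)
  exact hP.ne_top ((Ideal.eq_top_iff_one _).2
    (e ▸ P.add_mem (P.mul_mem_left _ hm) (P.mul_mem_left _ h5)))

lemma lin {k : Type} [Field k] {X M : M2 k} (h0 : X.trace = 0) (h1 : X * M = M * X)
    (h2 : (X * M).trace = 0) (h3 : M.trace = 1 + M.det) (h4 : M.det ≠ 1) : X = 0 := by
  have a := congrFun (congrFun h1 0) 0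
  have b := congrFun (congrFun h1 0) 1
  have c := congrFun (congrFun h1 1) 0
  simp only [Matrix.trace_fin_two, Matrix.mul_apply, Fin.sum_univ_two] at h0 h2 h3 a b c
  have d : (M 0 0 - M 1 1) ^ 2 + 4 * M 0 1 * M 1 0 ≠ 0 := by
    have e := Matrix.det_fin_two M
    rw [show (M 0 0 - M 1 1) ^ 2 + 4 * M 0 1 * M 1 0 = (M.det - 1) ^ 2 by
      linear_combination (M 0 0 + M 1 1 + 1 + M.det) * h3 + 4 * e]
    exact pow_ne_zero _ (sub_ne_zero.2 h4)
  have e : X 1 1 = -X 0 0 := by linear_combination h0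
  rw [e] at h2 b c
  have x : X 0 0 = 0 := (mul_eq_zero.1 (show X 0 0 * _ = 0 by
    linear_combination (M 0 0 - M 1 1) * h2 + 2 * M 1 0 * b + (M 0 0 - M 1 1) * a)).resolve_right d
  have y : X 0 1 = 0 := (mul_eq_zero.1 (show X 0 1 * _ = 0 by
    linear_combination 2 * M 0 1 * h2 - (M 0 0 - M 1 1) * b + 2 * M 0 1 * a)).resolve_right d
  have z : X 1 0 = 0 := (mul_eq_zero.1 (show X 1 0 * _ = 0 by
    linear_combination 2 * M 1 0 * h2 + (M 0 0 - M 1 1) * c - 2 * M 1 0 * a)).resolve_right d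
  ext i j
  fin_cases i <;> fin_cases j <;> simp [x, y, z, e]

end Selg

open Selg

theorem selg : Spec_SELG := by
  constructor
  · intro hT k _ _ ρb Γ U w Q r Z P3 p1 p2 hB hw hΓ hU hloc hS c c1 c2 c3 c4 c5
    refine hS c fun i => ⟨c2 i, c1 i, ⟨U, hU, c3 i⟩, fun l l1 l2 l3 P hP hl s hs hi => ?_,
      P3, p1, p2, fun Λ y hy => ?_⟩
    · rcases hloc l l1 l2 l3 P hP hl with h | h
      · exact c3 i s (h s hi)
      have inv : ∀ g, ρb g⁻¹ * ρb g = 1 := fun g => by rw [← map_mul, inv_mul_cancel, map_one]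
      have s1 := (hΓ s hs).2
      refine h _ (c2 i s) (fun g g1 g2 => ?_) fun hZ z hz => ?_
      · have e1 : c i (g * s * g⁻¹) = c i s := sep fun θ =>
          hT P l Γ U w (fun x => θ (c i x)) hP l1 l2.ne' hl hB hw (fun x hx => (hΓ x hx).1)
            (fun a ha b _ => by
              rw [c1, (hΓ a ha).2, (hΓ _ (Γ.inv_mem ha)).2, one_mul, mul_one, map_add])
            hU (fun u hu => by rw [c3 i u hu, map_zero]) g s g1 g2 hs hi
        have e2 := c1 i g g⁻¹
        rw [mul_inv_cancel, c3 i 1 U.one_mem] at e2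
        rw [c1, c1, mul_inv_rev, map_mul, map_mul, s1, (hΓ _ (Γ.inv_mem hs)).2, one_mul, mul_one,
          add_right_comm, ← e2, zero_add] at e1
        conv_lhs => rw [← e1, mul_assoc, inv, mul_one]
      · have e1 := c5 i _ (hZ _ (inert_mul hz hi))
        rw [c1, map_mul, s1, mul_one, add_mul, Matrix.trace_add, c5 i z (hZ z hz), zero_add,
          mul_assoc, inv, mul_one, Matrix.trace_mul_comm] at e1
        exact e1
    · obtain ⟨F, f1, f2⟩ := c4 i Λ
      exact f1 y fun σ hσ => by rw [← f2 σ (hΓ σ hσ).2]; exact hy σ hσ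
  · intro k _ ρb w U Z P l hP hl h3 hm hw hZ ⟨z, z1, z2, z3⟩
    exact Or.inr fun X x1 x2 x3 =>
      lin x1 (x2 z (inert_dec z1) (inert_w hP hl h3 hm hw z1)) (x3 hZ z z1) z2 z3

end Vale.Agent.P027M.TW
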