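import Vale.Agent.P027M.TW.Glue
import Vale.Agent.P027M.S.Kum

/-! # P027 route M, block TW: row TAME -/

set_option linter.all false

noncomputable section

namespace Vale.Agent.P027M.TW

open NumberField IsDedekindDomain Vale.Agent.P022

namespace TameAux

/-- the localisation of the algebraic integers at a nonzero prime is a valuation ring -/
lemma dich {P : Ideal (𝓞 Qb)} (hP : P.IsPrime) {l : ℕ} (hl0 : l ≠ 0) (hl : (l : 𝓞 Qb) ∈ P)
    (x : Qb) : ∃ n d : 𝓞 Qb, d ∉ P ∧ (x * (d : Qb) = n ∨ x * (n : Qb) = d) := by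
  haveI : Algebra.IsAlgebraic ℚ Qb := AlgebraicClosure.isAlgebraic ℚ
  let K : IntermediateField ℚ Qb := IntermediateField.adjoin ℚ {x}
  haveI : FiniteDimensional ℚ K :=
    IntermediateField.adjoin.finiteDimensional (Algebra.IsIntegral.isIntegral x)
  haveI : NumberField K := ⟨⟩
  let j : 𝓞 K →+* 𝓞 Qb := RingOfIntegers.mapRingHom (algebraMap K Qb)
  have hj : ∀ a : 𝓞 K, ((j a : 𝓞 Qb) : Qb) = algebraMap K Qb (algebraMap (𝓞 K) K a) :=
    fun a => rfl
  have hne : P.comap j ≠ ⊥ := by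
    intro h0
    have : (l : 𝓞 K) ∈ P.comap j := by
      rw [Ideal.mem_comap, map_natCast]; exact hl
    rw [h0, Ideal.mem_bot] at this
    exact hl0 (by exact_mod_cast this)
  let v : HeightOneSpectrum (𝓞 K) := ⟨P.comap j, Ideal.IsPrime.comap _, hne⟩
  let x' : K := ⟨x, IntermediateField.mem_adjoin_simple_self ℚ x⟩
  obtain ⟨n, d, h⟩ := v.exists_primeCompl_mul_eq_or_mul_eq (K := K) x'
  refine ⟨j n, j d, d.2, ?_⟩
  rw [hj, hj]
  have hx : x = algebraMap K Qb x' := rfl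
  rw [hx, ← map_mul, ← map_mul]
  exact h.imp (fun h => by rw [h]) (fun h => by rw [h])

/-- `x` lies in the maximal ideal of the localisation at `P` -/
def Mx (P : Ideal (𝓞 Qb)) (x : Qb) : Prop := ∃ n d : 𝓞 Qb, n ∈ P ∧ d ∉ P ∧ x * (d : Qb) = n

lemma coe_smul (g : GQ) (a : 𝓞 Qb) : ((g • a : 𝓞 Qb) : Qb) = g (a : Qb) := rfl

lemma Mx.mul {P : Ideal (𝓞 Qb)} (hP : P.IsPrime) {x y : Qb} (hx : Mx P x) (hy : Mx P y) :
    Mx P (x * y) := by
  obtain ⟨n, d, hn, hd, h⟩ := hx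
  obtain ⟨n', d', -, hd', h'⟩ := hy
  refine ⟨n * n', d * d', P.mul_mem_right _ hn, fun hm => (hP.mem_or_mem hm).elim hd hd', ?_⟩
  show x * y * ((d : Qb) * (d' : Qb)) = (n : Qb) * (n' : Qb)
  rw [← h, ← h']
  ring

lemma Mx.gal {P : Ideal (𝓞 Qb)} {g : GQ} (hg : Dec P g) {x : Qb} (hx : Mx P x) : Mx P (g x) := by
  obtain ⟨n, d, hn, hd, h⟩ := hx
  refine ⟨g • n, g • d, (hg n).2 hn, fun hm => hd ((hg d).1 hm), ?_⟩
  rw [coe_smul, coe_smul, ← map_mul, h]

lemma not_Mx_one {P : Ideal (𝓞 Qb)} : ¬ Mx P 1 := by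
  rintro ⟨n, d, hn, hd, h⟩
  rw [one_mul] at h
  exact hd (RingOfIntegers.ext h ▸ hn)

lemma not_Mx {P : Ideal (𝓞 Qb)} (hP : P.IsPrime) {g : GQ} (hg : Dec P g) {z : Qb} (hz : z ≠ 0) :
    ¬ Mx P (g z / z) := by
  intro h
  haveI : Algebra.IsAlgebraic ℚ Qb := AlgebraicClosure.isAlgebraic ℚ
  haveI := S.KumAux.gal
  have key : ∀ n : ℕ, Mx P ((g ^ (n + 1)) z / z) := by
    intro n
    induction n with
    | zero => simpa using h
    | succ n ih =>
      have h1 := (ih.gal hg).mul hP h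
      have hgz : g z ≠ 0 := (_root_.map_ne_zero _).mpr hz
      have e : g ((g ^ (n + 1)) z / z) * (g z / z) = (g ^ (n + 1 + 1)) z / z := by
        rw [map_div₀, pow_succ' g (n + 1), AlgEquiv.mul_apply]
        field_simp
      rwa [e] at h1
  let H : Subgroup GQ := MulAction.stabilizer GQ z
  have hH : IsOpen (H : Set GQ) := stabilizer_isOpen_of_isIntegral z
  haveI : Finite (GQ ⧸ H) := H.quotient_finite_of_isOpen hH
  haveI : H.FiniteIndex := Subgroup.finiteIndex_of_finite_quotient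
  obtain ⟨N, hN, -, hNz⟩ := H.exists_pow_mem_of_index_ne_zero Subgroup.FiniteIndex.index_ne_zero g
  obtain ⟨n, rfl⟩ : ∃ n, N = n + 1 := ⟨N - 1, by omega⟩
  have h2 : (g ^ (n + 1)) z = z := hNz
  have := key n
  rw [h2, div_self hz] at this
  exact not_Mx_one this

/-- `g z / z` is a unit at `P` -/
lemma unit {P : Ideal (𝓞 Qb)} (hP : P.IsPrime) {l : ℕ} (hl0 : l ≠ 0) (hl : (l : 𝓞 Qb) ∈ P)
    {g : GQ} (hg : Dec P g) {z : Qb} (hz : z ≠ 0) :
    ∃ n d : 𝓞 Qb, n ∉ P ∧ d ∉ P ∧ g z * (d : Qb) = z * n := by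
  obtain ⟨n, d, hd, h | h⟩ := dich hP hl0 hl (g z / z)
  · refine ⟨n, d, fun hn => not_Mx hP hg hz ⟨n, d, hn, hd, h⟩, hd, ?_⟩
    rw [← h]
    field_simp
  · have hgz : g z ≠ 0 := (_root_.map_ne_zero _).mpr hz
    refine ⟨d, n, hd, fun hn => not_Mx hP hg (inv_ne_zero hz) ⟨n, d, hn, hd, ?_⟩, ?_⟩
    · rw [← h, map_inv₀]
      field_simp
    · rw [← h]
      field_simp

lemma e_inj {w : Qb} (hw : w ^ 2 + w + 1 = 0) {a b : ZMod 3} (h : w ^ a.val = w ^ b.val) :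
    a = b := by
  have h1 : w ^ (a + -b).val = 1 := by
    rw [S.KumAux.e_add hw, S.KumAux.e_neg hw, h, ← pow_succ', S.KumAux.e_cube hw]
  have h2 : ∀ c : ZMod 3, c = 0 ∨ c.val = 1 ∨ c.val = 2 := by decide
  rcases h2 (a + -b) with h3 | h3 | h3
  · exact add_neg_eq_zero.1 h3
  · exfalso
    rw [h3, pow_one] at h1
    rw [h1] at hw
    norm_num at hw
  · exfalso
    rw [h3] at h1
    have h4 : w = 1 := by
      have := S.KumAux.w3 hw
      linear_combination this - w * h1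
    rw [h4] at hw
    norm_num at hw

end TameAux

open TameAux in
theorem tame : TAME := by
  intro P l Γ U w φ hP hl hl3 hlP hB hw hfix hadd hU hU0 h s hh hhw hs hI
  obtain ⟨y, hy0, hy⟩ := S.KumAux.gen hw hB.opn hfix hadd ⟨U, hU, hU0⟩
  by_contra hne
  set X := w ^ (φ (h * s * h⁻¹)).val with hX
  set Y := w ^ (φ s).val with hY
  have hXY : X ≠ Y := fun e => hne (e_inj hw e)
  have hX3 : X ^ 3 = 1 := S.KumAux.e_cube hw _
  have hY3 : Y ^ 3 = 1 := S.KumAux.e_cube hw _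
  have hinv : ∀ x : Qb, h⁻¹ (h x) = x := fun x => by
    rw [← AlgEquiv.mul_apply, inv_mul_cancel]; rfl
  have hinv' : ∀ x : Qb, h (h⁻¹ x) = x := fun x => by
    rw [← AlgEquiv.mul_apply, mul_inv_cancel]; rfl
  have hz0 : h⁻¹ y ≠ 0 := (_root_.map_ne_zero _).mpr hy0
  have hw' : h⁻¹ w = w := by
    conv_lhs => rw [← hhw]
    exact hinv w
  have hsy : s y = Y * y := hy s hs
  have hsz : s (h⁻¹ y) = X * h⁻¹ y := by
    have h1 := hy _ (hB.nrm.conj_mem s hs h)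
    have h2 := congrArg (fun x => h⁻¹ x) h1
    beta_reduce at h2
    rw [AlgEquiv.mul_apply, AlgEquiv.mul_apply, hinv, map_mul, map_pow, hw'] at h2
    exact h2
  obtain ⟨n, d, hn, hd, e⟩ := unit hP hl.ne_zero hlP hh hz0
  rw [hinv'] at e
  have e' := congrArg s e
  rw [map_mul, map_mul, hsy, hsz] at e'
  have hi : ∀ Z : Qb, Z ^ 3 = 1 → ∃ W : 𝓞 Qb, (W : Qb) = Z := fun Z hZ =>
    ⟨⟨Z, IsIntegral.of_pow (n := 3) (by norm_num) (by rw [hZ]; exact isIntegral_one)⟩, rfl⟩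
  obtain ⟨A, hA⟩ := hi X hX3
  obtain ⟨B, hB'⟩ := hi Y hY3
  have e1 : B * n * (s • d) = A * (s • n) * d := by
    apply RingOfIntegers.ext
    show (B : Qb) * (n : Qb) * s (d : Qb) = (A : Qb) * s (n : Qb) * (d : Qb)
    rw [hA, hB']
    apply mul_left_cancel₀ hz0
    linear_combination (d : Qb) * e' - Y * s (d : Qb) * e
  have e2 : (A - B) * (n * d) ∈ P := by
    have : (A - B) * (n * d) = B * n * (s • d - d) - A * d * (s • n - n) := by
      linear_combination -e1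
    rw [this]
    exact P.sub_mem (P.mul_mem_left _ (hI d)) (P.mul_mem_left _ (hI n))
  have e3 : A - B ∈ P :=
    (hP.mem_or_mem e2).resolve_right fun hm => (hP.mem_or_mem hm).elim hn hd
  have e4 : X ^ 2 + X * Y + Y ^ 2 = 0 := by
    apply mul_left_cancel₀ (sub_ne_zero.2 hXY)
    linear_combination hX3 - hY3
  have e5 : -((A * B) ^ 2 * (A - B)) * (A - B) = 3 := by
    apply RingOfIntegers.ext
    show -(((A : Qb) * (B : Qb)) ^ 2 * ((A : Qb) - (B : Qb))) * ((A : Qb) - (B : Qb)) = 3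
    rw [hA, hB']
    linear_combination (-(X * Y) ^ 2) * e4 + 3 * Y ^ 3 * hX3 + 3 * hY3
  have h7 : (3 : 𝓞 Qb) ∈ P := by
    rw [← e5]
    exact P.mul_mem_left _ e3
  have h8 : IsCoprime ((3 : ℕ) : 𝓞 Qb) (l : 𝓞 Qb) :=
    Nat.Coprime.cast ((Nat.coprime_primes Nat.prime_three hl).2 hl3.symm)
  obtain ⟨a, b, hab⟩ := h8
  refine hP.ne_top ((Ideal.eq_top_iff_one _).2 ?_)
  rw [← hab]
  exact P.add_mem (P.mul_mem_left _ (by exact_mod_cast h7)) (P.mul_mem_left _ hlP)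

end Vale.Agent.P027M.TW
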