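import Vale.Agent.P027M.TW.Tow
import Vale.Agent.P027M.F.Defs
import Vale.Agent.P027M.F.ChiK
import Vale.Agent.P027M.S.Tw

/-! # P027 route M: from the output of block F to the representation used by block TW -/

set_option linter.all false

noncomputable section

namespace Vale.Agent.P027M.TW

open NumberField Vale.Agent.P022

/-- the character with values in `O3` -/
def epsO {N : ℕ} (ε : ZMod N →* GaussianInt) : (ZMod N)ˣ →* O3 :=
  ((F.giH (iO : O3) iO_sq).toMonoidHom.comp ε).comp (Units.coeHom _)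

theorem epsO_apply {N : ℕ} (ε : ZMod N →* GaussianInt) (u : (ZMod N)ˣ) :
    epsO ε u = gi (iO : O3) (ε u) := rfl

theorem res3_iO : res3 iO = i9 := QO.res_iO _

theorem res3_epsO {N : ℕ} (ε : ZMod N →* GaussianInt) (u : (ZMod N)ˣ) :
    res3 (epsO ε u) = gi i9 (ε u) := by rw [epsO_apply, F.gi_map, res3_iO]

theorem opn_of {R : Type} [CommRing R] (r : GQ →* M2 R) {U : Subgroup GQ}
    (hU : IsOpen (U : Set GQ)) (h : ∀ u ∈ U, r u = 1) : IsOpen {g : GQ | r g = 1} := by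
  have : IsOpen (r.toHomUnits.ker : Set GQ) :=
    Subgroup.isOpen_mono (fun u hu => Units.ext (h u hu)) hU
  convert this using 1
  exact Set.ext fun g => (Units.ext_iff (u := r.toHomUnits g) (v := 1)).symm

variable {i : 𝓞 Qb} {N : ℕ} {ε : ZMod N →* GaussianInt} {M : GaussianInt}
  {ξ : GaussianInt →* GaussianInt} {c : ℤ} {a : ℕ → O3} {ρ : GQ →* M2 O3}

theorem ind_of (h : F.GalA i N ε M ξ c a ρ) :
    ∃ b : Qb, b ^ 4 = c ∧ S.Ind (i : Qb) b i9 (redRep res3 ρ) := by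
  obtain ⟨b, hb, rel⟩ := h.sin.rel
  obtain ⟨U, hU, e⟩ := h.opn 1
  obtain ⟨c0, hc⟩ := h.resid
  refine ⟨b, hb, opn_of _ hU fun u hu => ?_, h.shp.1, h.shp.2, rel, hc.two⟩
  have : redRep res3 ρ u = ((ρ u).map (toLa 1)).map (resL 0) := by
    ext p q <;> simp only [redRep_apply, Matrix.map_apply, resL_toLa 0]
  rw [this, e u hu, Matrix.map_one _ (map_zero _) (map_one _)]

/-- **the representation of block TW** -/
theorem rho_of (h : F.GalA i N ε M ξ c a ρ) : Rho N ρ a (epsO ε) := by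
  have hI : (i : Qb) ^ 2 = -1 := F.coe_sq h.hi
  obtain ⟨b, hb, I⟩ := ind_of h
  refine ⟨⟨h.hk.pos, Int.natCast_dvd_natCast.1 ⟨_, h.hk.lev⟩, h.hk.three, 1, Or.inr (by simp)⟩,
    fun j => ?_, fun l hl P h1 h2 => h.unr l P hl h1 h2, fun l hl φ => h.tr l φ hl,
    fun l hl φ hφ u hu => ?_, fun u => ?_, h.res.ine, h.resid,
    fun j P O h1 h2 h3 => h.flat P O h1 h2 h3 j,
    fun l l1 l2 l3 => (h.sin.val l l1 l2 l3).2.imp_right fun k => ⟨k.1, k.2, fun P h1 h2 =>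
      ⟨fun z hz => (h.vis l P l1 k.1 l3 h1 h2 z hz).1, ?_⟩⟩, ?_⟩
  · obtain ⟨U, hU, e⟩ := h.opn j
    exact opn_of _ hU e
  · rw [h.det l φ hl hφ, epsO_apply, hu]
  · rw [epsO_apply, ← F.giH_apply _ iO_sq, ← map_pow, h.hk.eps4, map_one]
  · obtain ⟨z, z1, z2⟩ := S.ram h1 l1 l2 h2 hb h.sin.neg.ne (h.sin.val l l1 l2 l3).1
    have zi := S.Loc.fix_i h1 l1 l2 h2 z1 hI
    refine ⟨z, z1, fun e => I.sep hI i9_sq hb zi z2 ?_⟩
    have t := congrArg res3 (h.vis l P l1 k.1 l3 h1 h2 z z1).1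
    rw [map_add, e, map_one, Matrix.trace_fin_two, map_add] at t
    rw [Matrix.det_fin_two, map_sub, map_mul, map_mul, (h.shp.1 z zi).1, zero_mul, sub_zero] at e
    show res3 (ρ z 0 0) = res3 (ρ z 1 1)
    refine sub_eq_zero.1 (pow_eq_zero_iff two_ne_zero |>.1 ?_)
    linear_combination (res3 (ρ z 0 0) + res3 (ρ z 1 1) + 2) * t - 4 * e
  · obtain ⟨s, hs⟩ := IsAlgClosed.exists_pow_nat_eq (-3 : Qb) (n := 2) (by norm_num)
    obtain ⟨w, hw⟩ : ∃ w : Qb, w ^ 2 + w + 1 = 0 :=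
      ⟨(s - 1) / 2, by linear_combination (1 / 4 : Qb) * hs⟩
    obtain ⟨Γ, B, hΓ, r, hr⟩ := S.selT hI hw i9_sq hb h.sin.neg h.sin.d3 h.sin.d9 h.sin.m8 I
    refine ⟨Γ, w, B, hw, hΓ, r, fun n Bd => ?_⟩
    obtain ⟨Q, q1, q2, q3⟩ := hr n Bd
    exact ⟨Q, q1, q2, fun U Z P3 hU p1 p2 hl => q3 _ 1 1 (one_mul _) (fun g => by simp) U Z P3 hU
      p1 p2 fun l l1 l2 l3 => (hl l l1 l2 l3).imp_right fun k => ⟨(h.sin.val l l1 l2 k.1).1, k.2⟩⟩

end Vale.Agent.P027M.TW
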