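import Vale.Agent.P022.H20.GalDef

/-! # P027 route M, blocks TW + P: definitions and row statements (helper5)

Paper proof: `notes/P027/TW.md`. Everything is abstract algebra at one finite level `3 ^ j`. -/

noncomputable section

namespace Vale.Agent.P027M.TW

open Vale.Agent.P022

/-- two by two matrices -/
abbrev M2 (R : Type) : Type := Matrix (Fin 2) (Fin 2) R

/-- the coefficient ring: finite, killed by `3 ^ j`, local with residue map `red` -/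
structure Coef {Λ k : Type} [CommRing Λ] [Field k] (red : Λ →+* k) (j : ℕ) : Prop where
  surj : Function.Surjective red
  nil : ∀ a, red a = 0 → IsNilpotent a
  three : (3 : Λ) ^ j = 0
  fin : Finite Λ

/-- reduction of a matrix representation -/
def redRep {G Λ k : Type} [Group G] [CommRing Λ] [CommRing k] (red : Λ →+* k) (ρ : G →* M2 Λ) :
    G →* M2 k :=
  (red.mapMatrix : M2 Λ →+* M2 k).toMonoidHom.comp ρ

theorem redRep_apply {G Λ k : Type} [Group G] [CommRing Λ] [CommRing k] (red : Λ →+* k)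
    (ρ : G →* M2 Λ) (g : G) : redRep red ρ g = (ρ g).map red := rfl

section core

variable {G Λ H : Type} [Group G] [CommRing Λ] [AddCommGroup H] [Module Λ H]

/-- the trace operator `g + det(g) g⁻¹` -/
def tau (π : G →* Module.End Λ H) (ρ : G →* M2 Λ) (g : G) : Module.End Λ H :=
  π g + (ρ g).det • π g⁻¹

/-- Cayley-Hamilton at `g`: the trace operator is central and congruent to the trace of `ρ` -/
def CHat (π : G →* Module.End Λ H) (ρ : G →* M2 Λ) (g : G) : Prop :=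
  (∀ h, Commute (tau π ρ g) (π h)) ∧
    IsNilpotent (tau π ρ g - algebraMap Λ (Module.End Λ H) (ρ g).trace)

/-- the action on a power of `H × Λ²` -/
def actW (π : G →* Module.End Λ H) (ρ : G →* M2 Λ) {I : Type} (g : G)
    (b : I → H × (Fin 2 → Λ)) : I → H × (Fin 2 → Λ) :=
  fun i => (π g (b i).1, (ρ g).mulVec (b i).2)

/-- all matrix coefficients mod `3` of stable subgroups of powers of `H × Λ²` satisfy `Fl` -/
def FlB (π : G →* Module.End Λ H) (ρ : G →* M2 Λ) (Fl : (G → ZMod 3) → Prop) : Prop :=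
  ∀ (I : Type) [Fintype I] (B : AddSubgroup (I → H × (Fin 2 → Λ)))
    (hB : ∀ g, ∀ b ∈ B, actW π ρ g b ∈ B) (f : B →+ ZMod 3) (b : B),
    Fl fun g => f ⟨actW π ρ g b, hB g b b.2⟩ - f b

/-- the output of the deformation argument: `r` generators of the prime of `ρ` -/
structure Gens (π : G →* Module.End Λ H) (ρ : G →* M2 Λ) {r : ℕ}
    (x : Fin r → Module.End Λ H) : Prop where
  nil : ∀ i, IsNilpotent (x i)
  bic : ∀ i (f : Module.End Λ H), (∀ g, Commute f (π g)) → Commute f (x i)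
  cen : ∀ i g, Commute (x i) (π g)
  tr : ∀ h, (∀ i, x i h = 0) → ∀ g, tau π ρ g h = (ρ g).trace • h
  one : ∀ h, (∀ i, x i h = 0) → ∀ g, ρ g = 1 → π g h = h

end core

/-- Frobenius density for `r`, for elements whose order has few prime factors -/
def Dens {G Γ : Type} [Group G] [Monoid Γ] (r : G →* Γ) (Fr : G → Prop) : Prop :=
  ∀ (g : G) (ps : Finset ℕ), (∀ p ∈ ps, p.Prime) → ∑ p ∈ ps, (1 : ℝ) / p < 1 →
    (∀ p : ℕ, p.Prime → p ∣ orderOf (r g) → p ∈ ps) →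
    ∃ φ, Fr φ ∧ ∃ m : ℕ, m.Coprime (orderOf (r g)) ∧ r φ = r g ^ m

/-- the Selmer bound: `r + 1` admissible cocycles are dependent modulo coboundaries -/
def SEL {G k : Type} [Group G] [Field k] (ρb : G →* M2 k) (U : Subgroup G)
    (Fl : (G → ZMod 3) → Prop) (Z : Set G) (r : ℕ) : Prop :=
  ∀ c : Fin (r + 1) → G → M2 k,
    (∀ i g h, c i (g * h) = c i g + ρb g * c i h * ρb g⁻¹) → (∀ i g, (c i g).trace = 0) →
    (∀ i, ∀ u ∈ U, c i u = 0) →
    (∀ i (θ : M2 k →+ ZMod 3), ∃ F, Fl F ∧ ∀ s, ρb s = 1 → θ (c i s) = F s) →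
    (∀ i, ∀ z ∈ Z, (c i z * ρb z).trace = 0) →
    ∃ κ : Fin (r + 1) → k, κ ≠ 0 ∧ ∃ m : M2 k, ∀ g, ∑ i, κ i • c i g = m - ρb g * m * ρb g⁻¹

/-- a derivation of `R` over `Λ` at the point `lb` -/
structure IsDer (Λ : Type) {R k : Type} [CommRing Λ] [CommRing R] [Algebra Λ R] [Field k]
    (lb : R →+* k) (D : R →+ k) : Prop where
  mul : ∀ x y, D (x * y) = lb x * D y + lb y * D x
  const : ∀ a : Λ, D (algebraMap Λ R a) = 0

/-- any `r + 1` derivations are dependent -/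
def DerDep (Λ : Type) {R k : Type} [CommRing Λ] [CommRing R] [Algebra Λ R] [Field k]
    (lb : R →+* k) (r : ℕ) : Prop :=
  ∀ D : Fin (r + 1) → R →+ k, (∀ i, IsDer Λ lb (D i)) →
    ∃ κ : Fin (r + 1) → k, κ ≠ 0 ∧ ∀ z, ∑ i, κ i * D i z = 0

/-! ## rows, part 1 -/

/-- row DENS -/
def Spec_DENS : Prop :=
  ∀ (Γ : Type) [Monoid Γ] [Finite Γ] (r : GQ →* Γ), IsOpen {g : GQ | r g = 1} →
    ∀ S : Finset ℕ, Dens r fun φ => ∃ l : ℕ, l.Prime ∧ l ∉ S ∧ IsFrob l φ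

/-- row CH -/
def Spec_CH : Prop :=
  ∀ (G Λ k H : Type) [Group G] [CommRing Λ] [Field k] [AddCommGroup H] [Module Λ H] [Finite H]
    (red : Λ →+* k) (j : ℕ) (π : G →* Module.End Λ H) (ρ : G →* M2 Λ) (Fr : G → Prop),
    Coef red j → Dens (π.prod ρ) Fr → (∀ g, ∃ a : ℕ, redRep red ρ g ^ 2 ^ a = 1) →
    (∀ φ, Fr φ → CHat π ρ φ) → ∀ g, CHat π ρ g

/-- row GMA -/
def Spec_GMA : Prop :=
  ∀ (G R A Λ : Type) [Group G] [CommRing R] [Ring A] [Algebra R A] [CommRing Λ]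
    (π : G →* A) (τ : G → R) (δ : G →* R) (c : G) (lam : R →+* Λ) (pr : A →+* M2 Λ),
    Function.Injective (algebraMap R A) → IsUnit (2 : R) →
    (∀ g, π g + δ g • π g⁻¹ = algebraMap R A (τ g)) →
    (∀ x : A, x ∈ Submodule.span R (Set.range π)) → c * c = 1 → δ c = -1 →
    (∀ z, pr (algebraMap R A z) = Matrix.scalar (Fin 2) (lam z)) → Function.Surjective pr →
    pr (π c) = !![1, 0; 0, -1] → (∀ z, lam z = 1 → IsUnit z) →
    ∃ (Φ : A →ₐ[R] M2 R) (E : Fin 2 → Fin 2 → A), Function.Bijective Φ ∧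
      (∀ x, (Φ x).map lam = pr x) ∧ (∀ g, (Φ (π g)).trace = τ g) ∧ (∀ g, (Φ (π g)).det = δ g) ∧
      ∀ x, x = ∑ a, ∑ b, Φ x a b • E a b

/-- row TAN -/
def Spec_TAN : Prop :=
  ∀ (G Λ R k : Type) [Group G] [CommRing Λ] [CommRing R] [Algebra Λ R] [Field k]
    (lb : R →+* k) (Φ : G →* M2 R) (U : Subgroup G) (Fl : (G → ZMod 3) → Prop) (Z : Set G) (r : ℕ),
    (∀ z : R, z ∈ Algebra.adjoin Λ (Set.range fun g => (Φ g).trace)) →
    (∀ g, (Φ g).det ∈ Set.range (algebraMap Λ R)) → (∀ u ∈ U, Φ u = 1) →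
    (∀ f : M2 R →+ ZMod 3, Fl fun g => f (Φ g) - f 1) →
    (∀ z ∈ Z, (Φ z).trace ∈ Set.range (algebraMap Λ R)) →
    SEL (redRep lb Φ) U Fl Z r → DerDep Λ lb r

/-- row NAK -/
def Spec_NAK : Prop :=
  ∀ (Λ R k : Type) [CommRing Λ] [CommRing R] [Finite R] [Algebra Λ R] [Field k]
    (lam : R →+* Λ) (red : Λ →+* k) (r : ℕ), (∀ a, lam (algebraMap Λ R a) = a) →
    (∀ z, red (lam z) ≠ 0 → IsUnit z) → DerDep Λ (red.comp lam) r →
    ∃ x : Fin r → R, Ideal.span (Set.range x) = RingHom.ker lam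

/-- row CONJ: `SEL` is invariant under conjugation; an involution of determinant `-1` is diagonal;
a residually spanning family spans -/
def Spec_CONJ : Prop :=
  (∀ (G k : Type) [Group G] [Field k] (ρ ρ' : G →* M2 k) (P Q : M2 k) (U : Subgroup G)
    (Fl : (G → ZMod 3) → Prop) (Z : Set G) (r : ℕ), P * Q = 1 → (∀ g, ρ' g = Q * ρ g * P) →
    SEL ρ U Fl Z r → SEL ρ' U Fl Z r) ∧
  (∀ (Λ k : Type) [CommRing Λ] [Field k] (red : Λ →+* k) (j : ℕ), Coef red j → ∀ m : M2 Λ,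
    m * m = 1 → m.det = -1 → ∃ P Q : M2 Λ, P * Q = 1 ∧ Q * P = 1 ∧ Q * m * P = !![1, 0; 0, -1]) ∧
  (∀ (X Λ k : Type) [CommRing Λ] [Field k] (red : Λ →+* k) (j : ℕ), Coef red j → ∀ ρ : X → M2 Λ,
    (∀ m : M2 k, m ∈ Submodule.span k (Set.range fun g => (ρ g).map red)) →
    ∀ m : M2 Λ, m ∈ Submodule.span Λ (Set.range ρ))

/-- the statement proved in row GEN -/
def GEN : Prop :=
  ∀ (G Λ k H : Type) [Group G] [CommRing Λ] [Field k] [AddCommGroup H] [Module Λ H] [Finite H]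
    (red : Λ →+* k) (j r : ℕ) (π : G →* Module.End Λ H) (ρ : G →* M2 Λ) (U : Subgroup G)
    (Fl : (G → ZMod 3) → Prop) (Z : Set G) (c : G),
    Coef red j → (∀ g, CHat π ρ g) → c * c = 1 → (ρ c).det = -1 →
    (∀ m : M2 k, m ∈ Submodule.span k (Set.range fun g => (ρ g).map red)) →
    (∀ u ∈ U, π u = 1 ∧ ρ u = 1) → FlB π ρ Fl →
    (∀ z ∈ Z, tau π ρ z = algebraMap Λ (Module.End Λ H) (ρ z).trace) →
    SEL (redRep red ρ) U Fl Z r → ∃ x : Fin r → Module.End Λ H, Gens π ρ x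

/-- row GEN -/
def Spec_GEN : Prop := Spec_GMA → Spec_TAN → Spec_NAK → Spec_CONJ → GEN

/-- row P (the count) -/
def Spec_P : Prop :=
  ∀ r e v b : ℕ, ∃ j0 : ℕ, ∀ j, j0 ≤ j → ∀ (S H : Type) [CommRing S] [AddCommGroup H] [Module S H]
    [Finite H] (x y : Fin r → S) (p : S),
    (∀ i, ∃ n : ℕ, ∀ h : H, x i ^ n • h = 0) → (∀ h : H, p ^ j • h = 0) →
    Nat.card {h : H // p • h = 0 ∧ ∀ i, y i • h = 0} ≤ 2 ^ b →
    (∀ h : H, (∀ i, x i • h = 0) → ∀ i, y i ^ e • h = 0) →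
    (∀ h : H, (∀ i, x i • h = 0) → (∀ i, y i • h = 0) → p ^ v • h = 0) →
    ∀ w : H, (∀ i, y i ^ j • w = 0) → (p ^ (j - 1) * ∏ i, y i ^ (j - 1)) • w = 0

/-- the twisted action `ψ(g)^(-1/2) g` -/
def IsTw {G Δ E : Type} [Group G] [CommGroup Δ] [Monoid E] (n : ℕ) (act : G →* E) (dl : Δ →* E)
    (ψ : G →* Δ) (π : G →* E) : Prop :=
  ∀ g, π g = dl ((ψ g)⁻¹ ^ ((3 ^ n + 1) / 2)) * act g

/-- the group `Δ` is `(ℤ / 3 ^ n) ^ r` with generators `d i` -/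
structure Del {Δ : Type} [CommGroup Δ] [Fintype Δ] (n : ℕ) {r : ℕ} (d : Fin r → Δ) : Prop where
  exp : ∀ δ : Δ, δ ^ 3 ^ n = 1
  card : Fintype.card Δ = (3 ^ n) ^ r
  gen : Subgroup.closure (Set.range d) = ⊤

/-- the statement proved in row MID -/
def MID : Prop :=
  ∀ r a v b : ℕ, ∃ j0 : ℕ, ∀ j, j0 ≤ j → ∀ (G Δ Λ H : Type) [Group G] [CommGroup Δ] [Fintype Δ]
    [CommRing Λ] [AddCommGroup H] [Module Λ H] [Finite H] (n : ℕ)
    (act π : G →* Module.End Λ H) (dl : Δ →* Module.End Λ H) (ψ : G →* Δ) (ρ : G →* M2 Λ)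
    (σ : Fin r → G) (x : Fin r → Module.End Λ H),
    (3 : Λ) ^ j = 0 → 2 * j ≤ n → Del n (fun i => ψ (σ i)) → (∀ g δ, Commute (act g) (dl δ)) →
    IsTw n act dl ψ π → Gens π ρ x → (∀ i, ρ (σ i) = 1) →
    (∀ i, ((act (σ i) - 1) * (act (σ i) - dl (ψ (σ i))) * (dl (ψ (σ i)) - 1)) ^ a = 0) →
    Nat.card {h : H // 3 • h = 0 ∧ ∀ δ, dl δ h = h} ≤ 2 ^ b →
    (∀ h : H, (∀ δ, dl δ h = h) → (∀ g, tau π ρ g h = (ρ g).trace • h) → 3 ^ v • h = 0) →
    ∀ w : H, 3 ^ (j - 1) • ∑ δ, dl δ w = 0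

/-- row MID -/
def Spec_MID : Prop := Spec_P → MID

/-! ## coefficients and localisation -/

/-- `Hom_ℤ(Λ, A)` as a `Λ`-module -/
def Hm (Λ A : Type) [CommRing Λ] [AddCommGroup A] : Type := Λ →+ A

section hm

variable {Λ A A' : Type} [CommRing Λ] [AddCommGroup A] [AddCommGroup A']

instance : AddCommGroup (Hm Λ A) := inferInstanceAs (AddCommGroup (Λ →+ A))

/-- the underlying additive map -/
def Hm.hom (φ : Hm Λ A) : Λ →+ A := φ

/-- an additive map as an element of `Hm` -/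
def Hm.mk (φ : Λ →+ A) : Hm Λ A := φ

theorem Hm.ext {φ χ : Hm Λ A} (h : ∀ x, φ.hom x = χ.hom x) : φ = χ := AddMonoidHom.ext h

instance : Module Λ (Hm Λ A) where
  smul a φ := Hm.mk (φ.hom.comp (AddMonoidHom.mulLeft a))
  one_smul φ := Hm.ext fun x => congrArg φ.hom (one_mul x)
  mul_smul a b φ := Hm.ext fun x => congrArg φ.hom (by
    show a * b * x = b * (a * x)
    ring)
  smul_zero _ := rfl
  smul_add _ _ _ := rfl
  add_smul a b φ := Hm.ext fun x => by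
    show φ.hom ((a + b) * x) = φ.hom (a * x) + φ.hom (b * x)
    rw [add_mul, map_add]
  zero_smul φ := Hm.ext fun x => by
    show φ.hom (0 * x) = 0
    rw [zero_mul, map_zero]

theorem Hm.smul_hom (a : Λ) (φ : Hm Λ A) (x : Λ) : (a • φ).hom x = φ.hom (a * x) := rfl

theorem Hm.add_hom (φ χ : Hm Λ A) (x : Λ) : (φ + χ).hom x = φ.hom x + χ.hom x := rfl

theorem Hm.sub_hom (φ χ : Hm Λ A) (x : Λ) : (φ - χ).hom x = φ.hom x - χ.hom x := rfl

theorem Hm.zero_hom (x : Λ) : (0 : Hm Λ A).hom x = 0 := rfl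

variable (Λ) in
/-- functoriality -/
def Hm.map (f : A →+ A') : Hm Λ A →ₗ[Λ] Hm Λ A' where
  toFun φ := Hm.mk (f.comp φ.hom)
  map_add' φ χ := Hm.ext fun x => map_add f (φ.hom x) (χ.hom x)
  map_smul' _ _ := rfl

theorem Hm.map_hom (f : A →+ A') (φ : Hm Λ A) (x : Λ) : (Hm.map Λ f φ).hom x = f (φ.hom x) := rfl

variable (Λ A) in
/-- functoriality on endomorphisms -/
def Hm.endo : AddMonoid.End A →+* Module.End Λ (Hm Λ A) where
  toFun f := Hm.map Λ f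
  map_one' := rfl
  map_mul' _ _ := rfl
  map_zero' := rfl
  map_add' _ _ := rfl

end hm

/-- the part on which every `T i - a i` is nilpotent -/
def mP {Λ M ι : Type} [CommRing Λ] [AddCommGroup M] [Module Λ M] (T : ι → Module.End Λ M)
    (a : ι → Λ) : Submodule Λ M :=
  ⨅ i, (T i).maxGenEigenspace (a i)

/-- the `𝔪`-part of `Hom(Λ, A)` for the operators `T`, `D` with eigenvalues `a`, `ε` -/
def mH {Λ A ι : Type} [CommRing Λ] [AddCommGroup A] (T D : ι → AddMonoid.End A) (a ε : ι → Λ) :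
    Submodule Λ (Hm Λ A) :=
  mP (fun i : ι ⊕ ι => Hm.endo Λ A (Sum.elim T D i)) (Sum.elim a ε)

/-- row LOC: localisation is exact; Teichmüller eigenvalues are exact; lifting along a basis -/
def Spec_LOC : Prop :=
  (∀ (Λ M M' ι : Type) [CommRing Λ] [AddCommGroup M] [Module Λ M] [AddCommGroup M'] [Module Λ M']
    [Finite M] [Finite M'] (T : ι → Module.End Λ M) (T' : ι → Module.End Λ M') (a : ι → Λ)
    (f : M →ₗ[Λ] M'), (∀ i i', Commute (T i) (T i')) → (∀ i x, f (T i x) = T' i (f x)) →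
    ∀ x, f x ∈ mP T' a → ∃ x' ∈ mP T a, f x' = f x) ∧
  (∀ (Λ M : Type) [CommRing Λ] [AddCommGroup M] [Module Λ M] (u : Module.End Λ M) (ε : Λ) (n : ℕ),
    IsUnit (n : Λ) → 0 < n → u ^ n = 1 → ε ^ n = 1 → ∀ x ∈ u.maxGenEigenspace ε, u x = ε • x) ∧
  (∀ (Λ A A' : Type) [CommRing Λ] [AddCommGroup A] [AddCommGroup A'] (m f : ℕ)
    (_ : Λ ≃+ (Fin f → ZMod m)) (Rl : A → A' → Prop), Rl 0 0 →
    (∀ x y x' y', Rl x y → Rl x' y' → Rl (x + x') (y + y')) → (∀ x : A, m • x = 0) → 0 < m →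
    ∀ χ : Hm Λ A', (∀ z, ∃ x, Rl x (χ.hom z)) → ∃ φ : Hm Λ A, ∀ z, Rl (φ.hom z) (χ.hom z)) ∧
  (∀ (Λ A : Type) [CommRing Λ] [AddCommGroup A] [Finite A] (m f b : ℕ)
    (_ : Λ ≃+ (Fin f → ZMod m)), Nat.card {x : A // 3 • x = 0} ≤ 2 ^ b →
    Nat.card {φ : Hm Λ A // 3 • φ = 0} ≤ 2 ^ (b * f))

end Vale.Agent.P027M.TW
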