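import Vale.Agent.P027M.TW.Tow
import Vale.Agent.P022.H916.Ram

/-! # P027 route M, block TW: the cyclotomic field of prime conductor is totally ramified -/

noncomputable section

namespace Vale.Agent.P027M.TW

open NumberField Vale.Agent.P022 Vale.Agent.P022.H916
open scoped Pointwise

namespace Ram

variable {q : ℕ} {P : Ideal (𝓞 Qb)}

theorem root_sub (hq : q.Prime) (hP : P.IsPrime) (h : (q : 𝓞 Qb) ∈ P) {w : 𝓞 Qb}
    (hw : w ^ q = 1) : w - 1 ∈ P := by
  obtain ⟨r, hr⟩ := exists_add_pow_prime_eq hq (w - 1) 1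
  rw [sub_add_cancel, hw, one_pow] at hr
  refine hP.mem_of_pow_mem q ?_
  have : (w - 1) ^ q = q * (-((w - 1) * r)) := by linear_combination -hr
  rw [this]
  exact P.mul_mem_right _ h

variable {K : Type} [Field K] [NumberField K] (j : K →+* Qb)

theorem cong [NeZero q] [IsCyclotomicExtension {q} ℚ K] (hq : q.Prime) (hP : P.IsPrime)
    (h : (q : 𝓞 Qb) ∈ P) (g : GQ) (y : 𝓞 K) :
    g • RingOfIntegers.mapRingHom j y - RingOfIntegers.mapRingHom j y ∈ P := by
  have hz := IsCyclotomicExtension.zeta_spec q ℚ K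
  have hy : y ∈ Algebra.adjoin ℤ {hz.integralPowerBasis.gen} := by
    rw [PowerBasis.adjoin_gen_eq_top]
    trivial
  rw [hz.integralPowerBasis_gen] at hy
  induction hy using Algebra.adjoin_induction with
  | mem x hx =>
    obtain rfl : x = hz.toInteger := hx
    have e : RingOfIntegers.mapRingHom j hz.toInteger ^ q = 1 := by
      rw [← map_pow, hz.toInteger_isPrimitiveRoot.pow_eq_one, map_one]
    have := P.sub_mem (root_sub hq hP h (w := g • RingOfIntegers.mapRingHom j hz.toInteger)
      (by rw [← smul_pow', e, smul_one])) (root_sub hq hP h e)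
    rwa [sub_sub_sub_cancel_right] at this
  | algebraMap r =>
    rw [eq_intCast, map_intCast, ← MulSemiringAction.toRingHom_apply, map_intCast, sub_self]
    exact P.zero_mem
  | add x y _ _ hx hy =>
    rw [map_add, smul_add, add_sub_add_comm]
    exact P.add_mem hx hy
  | mul x y _ _ hx hy =>
    rw [map_mul, smul_mul']
    convert P.add_mem (P.mul_mem_right (g • RingOfIntegers.mapRingHom j y) hx)
      (P.mul_mem_left (RingOfIntegers.mapRingHom j x) hy) using 1
    ring

/-- an element which acts trivially on the residue rings of `K` agrees on `K` with an element of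
the inertia group -/
theorem lift (hP : P.IsPrime) (h : ∀ (g : GQ) (y : 𝓞 K),
    g • RingOfIntegers.mapRingHom j y - RingOfIntegers.mapRingHom j y ∈ P) (g₀ : GQ) :
    ∃ σ, S.Inert P σ ∧ ∃ t ∈ GK j, σ = t * g₀ := by
  have hsP : (g₀ • P).IsPrime := inferInstance
  have hb : below j (g₀ • P) = below j P := by
    ext x
    show RingOfIntegers.mapRingHom j x ∈ g₀ • P ↔ RingOfIntegers.mapRingHom j x ∈ P
    rw [Ideal.mem_pointwise_smul_iff_inv_smul_mem]
    exact ⟨fun e => by simpa using P.sub_mem e (h g₀⁻¹ x),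
      fun e => by simpa using P.add_mem (h g₀⁻¹ x) e⟩
  obtain ⟨t, ht⟩ := exists_smul j hsP hP hb
  have hst : ((t : GQ) * g₀) • P = P := by rw [mul_smul]; exact ht.symm
  obtain ⟨u, hu⟩ := exists_lift j hP hst (h _)
  refine ⟨(u : GQ)⁻¹ * ((t : GQ) * g₀), fun x => ?_, _,
    (GK j).mul_mem ((GK j).inv_mem u.2) t.2, (mul_assoc _ _ _).symm⟩
  have hiff : ∀ y : 𝓞 Qb, (u : GQ) • y ∈ P → y ∈ P := by
    intro y hy
    have h3 : ((t : GQ) * g₀) • y ∈ P := by simpa using P.sub_mem hy (hu y)
    rwa [← hst, Ideal.smul_mem_pointwise_smul_iff] at h3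
  apply hiff
  rw [smul_sub, smul_smul, mul_inv_cancel_left]
  simpa using P.neg_mem (hu x)

end Ram

theorem ram : Spec_RAM := by
  intro q hq P hP h u
  have : NeZero q := ⟨hq.ne_zero⟩
  let K := CyclotomicField q ℚ
  have : IsCyclotomicExtension {q} ℚ K := CyclotomicField.isCyclotomicExtension q ℚ
  let j : K →+* Qb := (IsAlgClosed.lift (R := ℚ) (S := K) (M := Qb)).toRingHom
  have hz := (IsCyclotomicExtension.zeta_spec q ℚ K).map_of_injective j.injective
  have hu := hz.pow_of_coprime _ (ZMod.val_coe_unit_coprime u)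
  obtain ⟨g₀, hg⟩ := minpoly.exists_algEquiv_of_root' (K := ℚ)
    (x := j (IsCyclotomicExtension.zeta q ℚ K) ^ (u : ZMod q).val)
    (y := j (IsCyclotomicExtension.zeta q ℚ K)) (Algebra.IsAlgebraic.isAlgebraic _) (by
      rw [← Polynomial.cyclotomic_eq_minpoly_rat hz hq.pos,
        Polynomial.cyclotomic_eq_minpoly_rat hu hq.pos]
      exact minpoly.aeval _ _)
  obtain ⟨σ, h1, t, ht, rfl⟩ := Ram.lift j hP (Ram.cong j hq hP h) g₀
  refine ⟨_, h1, fun w hw => ?_⟩
  obtain ⟨i, -, rfl⟩ := hz.eq_pow_of_pow_eq_one hw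
  rw [map_pow, AlgEquiv.mul_apply, hg, map_pow, ht, pow_right_comm]

end Vale.Agent.P027M.TW
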