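import Vale.Agent.P027M.TW.Low

/-! # P027 route M, row FREE: `Γ₁(4)` is free on two parabolic elements -/

set_option linter.all false

noncomputable section

namespace Vale.Agent.P027M.TW

open scoped MatrixGroups Pointwise
open CongruenceSubgroup

namespace Free

/-- the lower generator -/
def V : SL(2, ℤ) := ⟨!![1, 0; 4, 1], by simp [Matrix.det_fin_two]⟩

/-- the two generators -/
def gn : Bool → SL(2, ℤ) := fun b => if b then ModularGroup.T else V

theorem mul_ent (g h : SL(2, ℤ)) (i j : Fin 2) : (g * h) i j = g i 0 * h 0 j + g i 1 * h 1 j := by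
  simp [Matrix.mul_apply, Fin.sum_univ_two]

theorem det (g : SL(2, ℤ)) : g 0 0 * g 1 1 - g 0 1 * g 1 0 = 1 := by
  have := g.det_coe
  rwa [Matrix.det_fin_two] at this

theorem T_ent : ModularGroup.T 0 0 = 1 ∧ ModularGroup.T 0 1 = 1 ∧ ModularGroup.T 1 0 = 0 ∧
    ModularGroup.T 1 1 = 1 := ⟨rfl, rfl, rfl, rfl⟩

theorem V_ent : V 0 0 = 1 ∧ V 0 1 = 0 ∧ V 1 0 = 4 ∧ V 1 1 = 1 := ⟨rfl, rfl, rfl, rfl⟩

theorem Ti_ent : ModularGroup.T⁻¹ 0 0 = 1 ∧ ModularGroup.T⁻¹ 0 1 = -1 ∧ ModularGroup.T⁻¹ 1 0 = 0 ∧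
    ModularGroup.T⁻¹ 1 1 = 1 := by
  simp [Matrix.SpecialLinearGroup.coe_inv, Matrix.adjugate_fin_two, T_ent]

theorem Vi_ent : V⁻¹ 0 0 = 1 ∧ V⁻¹ 0 1 = 0 ∧ V⁻¹ 1 0 = -4 ∧ V⁻¹ 1 1 = 1 := by
  simp [Matrix.SpecialLinearGroup.coe_inv, Matrix.adjugate_fin_two, V_ent]

/-- attracting sets -/
def X : Bool → Set SL(2, ℤ) := fun b =>
  if b then {g | g 1 0 * g 1 0 ≤ 2 * (g 0 0 * g 1 0)} else {g | 2 * (g 0 0 * g 0 0) < g 0 0 * g 1 0}

/-- repelling sets -/
def Y : Bool → Set SL(2, ℤ) := fun b =>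
  if b then {g | 2 * (g 0 0 * g 1 0) + g 1 0 * g 1 0 < 0}
  else {g | g 0 0 * g 1 0 + 2 * (g 0 0 * g 0 0) ≤ 0}

theorem inj : Function.Injective (FreeGroup.lift gn) := by
  refine FreeGroup.injective_lift_of_ping_pong gn X Y (fun b => ?_) (fun b b' e => ?_)
    (fun b b' e => ?_) (fun b b' => ?_) (fun b => ?_) fun b => ?_
  · cases b
    · exact ⟨V, by simp [X, V_ent]⟩
    · exact ⟨1, by simp [X]⟩
  · refine Set.disjoint_left.2 fun g h h' => ?_
    cases b <;> cases b' <;> simp only [X, Set.mem_ofPred_eq, if_true, Bool.false_eq_true, if_false]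
      at h h' <;> first | exact e rfl | nlinarith [sq_nonneg (g 1 0 - 2 * g 0 0)]
  · refine Set.disjoint_left.2 fun g h h' => ?_
    cases b <;> cases b' <;> simp only [Y, Set.mem_ofPred_eq, if_true, Bool.false_eq_true, if_false]
      at h h' <;> first | exact e rfl | nlinarith [sq_nonneg (g 1 0 + 2 * g 0 0)]
  · refine Set.disjoint_left.2 fun g h h' => ?_
    have a := mul_self_nonneg (g 0 0)
    have c := mul_self_nonneg (g 1 0)
    cases b <;> cases b' <;>
      simp only [X, Y, Set.mem_ofPred_eq, if_true, Bool.false_eq_true, if_false] at h h'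
    · linarith
    · linarith
    · have d := det g
      rw [mul_self_eq_zero.1 (show g 0 0 * g 0 0 = 0 by linarith),
        mul_self_eq_zero.1 (show g 1 0 * g 1 0 = 0 by linarith)] at d
      simp at d
    · linarith
  · rintro _ ⟨g, h, rfl⟩
    cases b <;> simp only [X, Y, gn, Set.mem_ofPred_eq, if_true, Bool.false_eq_true, if_false,
      Set.mem_compl_iff, smul_eq_mul, mul_ent, T_ent, V_ent, not_le, not_lt] at h ⊢ <;> nlinarith
  · rintro _ ⟨g, h, rfl⟩
    cases b <;> simp only [X, Y, gn, Set.mem_ofPred_eq, if_true, Bool.false_eq_true, if_false,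
      Set.mem_compl_iff, smul_eq_mul, mul_ent, Ti_ent, Vi_ent, not_le, not_lt, Pi.inv_apply]
      at h ⊢ <;> nlinarith

theorem neg_ent (g : SL(2, ℤ)) (i j : Fin 2) : (-g) i j = -g i j := by simp

/-- descent on the bottom row -/
theorem gen (F : Subgroup SL(2, ℤ)) (hT : ModularGroup.T ∈ F) (hV : V ∈ F) (g : SL(2, ℤ))
    (h : (4 : ℤ) ∣ g 1 0) : g ∈ F ∨ -g ∈ F := by
  induction hn : (g 1 0).natAbs + (g 1 1).natAbs using Nat.strong_induction_on generalizing g with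
  | _ n ih =>
  have st : ∀ u ∈ F, (4 : ℤ) ∣ (g * u) 1 0 → ((g * u) 1 0).natAbs + ((g * u) 1 1).natAbs < n →
      g ∈ F ∨ -g ∈ F := fun u hu a b => (ih _ b (g * u) a rfl).imp
    (fun c => (F.mul_mem_cancel_right hu).1 c) fun c => (F.mul_mem_cancel_right hu).1
      (by rwa [neg_mul])
  have d := det g
  by_cases c0 : g 1 0 = 0
  · have z : ∀ u : SL(2, ℤ), u 1 0 = 0 → u 0 0 = 1 → u 1 1 = 1 → u ∈ F := fun u a b c => by
      have : u = ModularGroup.T ^ u 0 1 := by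
        refine Matrix.SpecialLinearGroup.ext _ _ fun i j => ?_
        rw [ModularGroup.coe_T_zpow]
        fin_cases i <;> fin_cases j <;> simp [a, b, c]
      rw [this]
      exact F.zpow_mem hT _
    rw [c0, mul_zero, sub_zero] at d
    rcases Int.eq_one_or_neg_one_of_mul_eq_one' d with e | e
    · exact Or.inl (z g c0 e.1 e.2)
    · exact Or.inr (z _ (by simp [c0]) (by simp [e.1]) (by simp [e.2]))
  obtain ⟨k, hk⟩ := h
  have od : g 1 1 % 2 = 1 := by
    rcases Int.emod_two_eq_zero_or_one (g 1 1) with e | e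
    · obtain ⟨l, hl⟩ := Int.dvd_of_emod_eq_zero e
      have : 2 * (g 0 0 * l - 2 * (g 0 1 * k)) = 1 := by
        rw [hk, hl] at d
        linear_combination d
      omega
    · exact e
  by_cases a : (g 1 0 + g 1 1).natAbs < (g 1 1).natAbs
  · refine st _ hT ?_ ?_ <;> simp only [mul_ent, T_ent] <;> omega
  by_cases b : (g 1 1 - g 1 0).natAbs < (g 1 1).natAbs
  · refine st _ (F.inv_mem hT) ?_ ?_ <;> simp only [mul_ent, Ti_ent] <;> omega
  by_cases c : (g 1 0 + 4 * g 1 1).natAbs < (g 1 0).natAbs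
  · refine st _ hV ?_ ?_ <;> simp only [mul_ent, V_ent] <;> omega
  · refine st _ (F.inv_mem hV) ?_ ?_ <;> simp only [mul_ent, Vi_ent] <;> omega

theorem not_both {g : SL(2, ℤ)} (h : g ∈ Gamma1 4) (h' : -g ∈ Gamma1 4) : False := by
  have a := ((Gamma1_mem 4 _).1 h).1
  have b := ((Gamma1_mem 4 _).1 h').1
  rw [neg_ent, Int.cast_neg, a] at b
  exact absurd b (by decide)

theorem T_mem : ModularGroup.T ∈ Gamma1 4 := (Gamma1_mem 4 _).2 (by simp [T_ent])

theorem V_mem : V ∈ Gamma1 4 := (Gamma1_mem 4 _).2 (by simp only [V_ent]; decide)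

theorem range_eq : (FreeGroup.lift gn).range = Gamma1 4 := by
  have a : (FreeGroup.lift gn).range ≤ Gamma1 4 := by
    rw [FreeGroup.range_lift_eq_closure, Subgroup.closure_le]
    rintro _ ⟨b, rfl⟩
    cases b
    exacts [V_mem, T_mem]
  refine le_antisymm a fun g h => ?_
  exact (gen (FreeGroup.lift gn).range ⟨.of true, FreeGroup.lift_apply_of⟩
    ⟨.of false, FreeGroup.lift_apply_of⟩ g
    ((ZMod.intCast_zmod_eq_zero_iff_dvd _ 4).1 ((Gamma1_mem 4 _).1 h).2.2)).resolve_right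
    fun c => not_both h (a c)

/-- every subgroup of `Γ₁(4)` is free -/
theorem isFree (K : Subgroup SL(2, ℤ)) (h : K ≤ Gamma1 4) : IsFreeGroup K := by
  haveI : IsFreeGroup (Gamma1 4) := range_eq ▸ IsFreeGroup.ofMulEquiv (MonoidHom.ofInjective inj)
  exact IsFreeGroup.ofMulEquiv (Subgroup.subgroupOfEquivOfLe h)

theorem uniq {x y : SL(2, ℤ)} (hx : x ∈ Gamma1 4) (hy : y ∈ Gamma1 4) (h : x = y ∨ x = -y) :
    x = y := h.resolve_right fun c => not_both hy (c ▸ hx)

end Free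

open Free in
/-- row FREE -/
theorem free : Spec_FREE := by
  intro Γ h4 h1 P Q _ _ f hf h hz
  haveI := isFree (Γ ⊓ Gamma1 4) inf_le_right
  have ng : ∀ γ : Γ, -(γ : SL(2, ℤ)) ∈ Γ := fun γ => by
    rw [← neg_one_mul]
    exact Γ.mul_mem h1 γ.2
  have ex : ∀ γ : Γ, ∃ x : (Γ ⊓ Gamma1 4 : Subgroup SL(2, ℤ)),
      (x : SL(2, ℤ)) = γ ∨ (x : SL(2, ℤ)) = -γ := fun γ =>
    (gen _ T_mem V_mem γ (h4 γ γ.2)).elim (fun c => ⟨⟨γ, γ.2, c⟩, Or.inl rfl⟩)
      fun c => ⟨⟨_, ng γ, c⟩, Or.inr rfl⟩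
  choose π hπ using ex
  have mul : ∀ γ γ', π (γ * γ') = π γ * π γ' := fun γ γ' => by
    refine Subtype.ext (uniq (π _).2.2 (π γ * π γ').2.2 ?_)
    rw [Subgroup.coe_mul]
    rcases hπ (γ * γ') with a | a <;> rcases hπ γ with b | b <;> rcases hπ γ' with c | c <;>
      simp [a, b, c]
  have e : f.comp (IsFreeGroup.lift fun x => Function.surjInv hf
      (h (Subgroup.inclusion inf_le_left (IsFreeGroup.of x)))) =
      h.comp (Subgroup.inclusion (inf_le_left : Γ ⊓ Gamma1 4 ≤ Γ)) :=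
    IsFreeGroup.ext_hom fun x => by simp [Function.surjInv_eq]
  refine ⟨(IsFreeGroup.lift fun x => Function.surjInv hf
    (h (Subgroup.inclusion inf_le_left (IsFreeGroup.of x)))).comp (MonoidHom.mk' π mul),
    fun γ => (DFunLike.congr_fun e (π γ)).trans ?_⟩
  rcases hπ γ with a | a
  · exact congrArg h (Subtype.ext a)
  · have : Subgroup.inclusion inf_le_left (π γ) = ⟨-1, h1⟩ * γ := Subtype.ext (by simpa using a)
    rw [MonoidHom.comp_apply, this, map_mul, hz h1, one_mul]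

end Vale.Agent.P027M.TW
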