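import Vale.Agent.P027M.TW.Glue
import Vale.Agent.P027M.O
import Vale.Agent.P027M.Defs

/-! # P027 route M, block TW: the abstract global data and the statements of the assembly -/

noncomputable section

namespace Vale.Agent.P027M.TW

open NumberField Vale.Agent.P022

/-- `g` acts on the `N`-th roots of unity by the power `u` -/
def IsCy (N : ℕ) (g : GQ) (u : (ZMod N)ˣ) : Prop :=
  ∀ ζ : Qb, ζ ^ N = 1 → g ζ = ζ ^ (u : ZMod N).val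

/-- admissible levels -/
structure Ok (N : ℕ) (H : Subgroup (ZMod N)ˣ) : Prop where
  pos : 0 < N
  four : 4 ∣ N
  three : ¬ 3 ∣ N
  neg : -1 ∈ H

/-- the group of the units `± x ^ 4` -/
def H4 (N : ℕ) : Subgroup (ZMod N)ˣ where
  carrier := {u | ∃ x, u = x ^ 4 ∨ u = -x ^ 4}
  one_mem' := ⟨1, Or.inl (by simp)⟩
  mul_mem' := by
    rintro _ _ ⟨x, rfl | rfl⟩ ⟨y, rfl | rfl⟩
    · exact ⟨x * y, Or.inl (by rw [mul_pow])⟩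
    · exact ⟨x * y, Or.inr (by rw [mul_pow, mul_neg])⟩
    · exact ⟨x * y, Or.inr (by rw [mul_pow, neg_mul])⟩
    · exact ⟨x * y, Or.inl (by rw [mul_pow, neg_mul_neg])⟩
  inv_mem' := by
    rintro _ ⟨x, rfl | rfl⟩
    · exact ⟨x⁻¹, Or.inl (by rw [inv_pow])⟩
    · exact ⟨x⁻¹, Or.inr (by rw [inv_pow, inv_neg])⟩

theorem mem_H4 {N : ℕ} {u : (ZMod N)ˣ} : u ∈ H4 N ↔ ∃ x, u = x ^ 4 ∨ u = -x ^ 4 := Iff.rfl

/-- `H` is a product of a group at `M` and a group at `q` -/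
def Split (M q : ℕ) (H : Subgroup (ZMod (M * q))ˣ) : Prop :=
  ∀ h ∈ H, ∀ u : (ZMod (M * q))ˣ, ZMod.unitsMap (dvd_mul_right M q) u = 1 →
    ZMod.unitsMap (dvd_mul_left q M) u = ZMod.unitsMap (dvd_mul_left q M) h → u ∈ H

/-- the modules `A N H j` (think `Pic(X_H(N))[3 ^ j]`) with their operators -/
structure Mods where
  /-- the module -/
  A : (N : ℕ) → Subgroup (ZMod N)ˣ → ℕ → Type
  /-- its group structure -/
  [grp : ∀ N H j, AddCommGroup (A N H j)]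
  /-- Galois action -/
  act : ∀ N H j, GQ →* AddMonoid.End (A N H j)
  /-- Hecke operators -/
  T : ∀ N H j, ℕ → AddMonoid.End (A N H j)
  /-- diamond operators, normalised by `es` below -/
  dia : ∀ N H j, (ZMod N)ˣ →* AddMonoid.End (A N H j)

attribute [instance] Mods.grp

/-- one level: Eichler-Shimura, good reduction (blocks M, D) -/
structure Lv1 (X : Mods) (N : ℕ) (H : Subgroup (ZMod N)ˣ) (j : ℕ) : Prop where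
  fin : Finite (X.A N H j)
  tor : ∀ y : X.A N H j, 3 ^ j • y = 0
  diaH : ∀ u ∈ H, X.dia N H j u = 1
  cTT : ∀ l l', GoodP N l → GoodP N l' → Commute (X.T N H j l) (X.T N H j l')
  cTd : ∀ l u, GoodP N l → Commute (X.T N H j l) (X.dia N H j u)
  cTa : ∀ l g, GoodP N l → Commute (X.T N H j l) (X.act N H j g)
  cda : ∀ u g, Commute (X.dia N H j u) (X.act N H j g)
  opn : IsOpen {g : GQ | X.act N H j g = 1}
  unr : ∀ l, GoodP N l → ∀ P : Ideal (𝓞 Qb), P.IsPrime → (l : 𝓞 Qb) ∈ P → ∀ g, S.Inert P g →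
    X.act N H j g = 1
  es : ∀ l, GoodP N l → ∀ φ, IsFrob l φ → ∀ u : (ZMod N)ˣ, (u : ZMod N) = l → ∀ y,
    X.T N H j l y = X.act N H j φ y + l • X.act N H j φ⁻¹ (X.dia N H j u y)
  fl : ∀ (P : Ideal (𝓞 Qb)) (O : ValuationSubring Qb), P.IsPrime → (3 : 𝓞 Qb) ∈ P → D.Over P O →
    D.Fl O (D.inr P) fun g (y : X.A N H j) => X.act N H j g y

/-- the number of `3`-torsion points does not depend on `j` -/
def B3 (X : Mods) : Prop := ∀ N H, Ok N H → ∃ b : ℕ, ∀ j, 1 ≤ j →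
  Nat.card {y : X.A N H j // 3 • y = 0} ≤ 2 ^ b

/-- inertia at a prime which divides the level exactly (I1 and I3) -/
def IGU (X : Mods) : Prop := ∀ (M q : ℕ) (H : Subgroup (ZMod (M * q))ˣ) (j : ℕ), Ok (M * q) H →
  1 ≤ j → GoodP M q → Split M q H → ∀ P : Ideal (𝓞 Qb), P.IsPrime → (q : 𝓞 Qb) ∈ P →
  ∀ σ, S.Inert P σ → ∀ s, IsCy (M * q) σ s → ∀ τ : (ZMod (M * q))ˣ,
  ZMod.unitsMap (dvd_mul_right M q) τ = 1 →
  (X.act _ H j σ - 1) * (X.act _ H j σ - X.dia _ H j s) * (X.dia _ H j τ - 1) = 0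

/-- the degeneracy maps between the levels `M` and `M q`, and the new part (I2) -/
def DEG (X : Mods) : Prop := ∀ (M q : ℕ) (H : Subgroup (ZMod M)ˣ) (H' : Subgroup (ZMod (M * q))ˣ)
  (j : ℕ), Ok M H → 1 ≤ j → GoodP M q →
  (∀ u, u ∈ H' ↔ ZMod.unitsMap (dvd_mul_right M q) u ∈ H) →
  ∃ (pb : X.A M H j →+ X.A (M * q) H' j) (nm : Fin 2 → X.A (M * q) H' j →+ X.A M H j),
    (∀ l y, GoodP (M * q) l → pb (X.T M H j l y) = X.T _ H' j l (pb y)) ∧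
    (∀ u y, pb (X.dia M H j (ZMod.unitsMap (dvd_mul_right M q) u) y) = X.dia _ H' j u (pb y)) ∧
    (∀ i l y, GoodP (M * q) l → nm i (X.T _ H' j l y) = X.T M H j l (nm i y)) ∧
    (∀ i u y, nm i (X.dia _ H' j u y) =
      X.dia M H j (ZMod.unitsMap (dvd_mul_right M q) u) (nm i y)) ∧
    (∀ y, nm 0 (pb y) = (q + 1) • y) ∧
    ∀ φ, IsFrob q φ → ∀ u : (ZMod (M * q))ˣ,
      ((ZMod.unitsMap (dvd_mul_right M q) u : (ZMod M)ˣ) : ZMod M) = q → ∀ y, (∀ i, nm i y = 0) →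
      ((X.act _ H' j φ ^ 2 - q ^ 2 • X.dia _ H' j u) * (X.act _ H' j φ ^ 2 - X.dia _ H' j u)) y = 0

/-- descent along a cover whose group `Δ = H / H'` is a `3`-group -/
def DSC (X : Mods) : Prop := ∀ (N : ℕ) (H H' : Subgroup (ZMod N)ˣ) (j n : ℕ) (Δ : Type)
  [CommGroup Δ] [Fintype Δ] (d : (ZMod N)ˣ →* Δ) (dl : Δ →* AddMonoid.End (X.A N H' j)),
  Ok N H → Ok N H' → 1 ≤ j → (∀ δ : Δ, δ ^ 3 ^ n = 1) → (∀ u, u ∈ H' ↔ u ∈ H ∧ d u = 1) →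
  (∀ δ, ∃ u ∈ H, d u = δ) → (∀ u ∈ H, dl (d u) = X.dia N H' j u) →
  ∃ io : X.A N H j →+ X.A N H' j,
    (∀ l y, GoodP N l → io (X.T N H j l y) = X.T N H' j l (io y)) ∧
    (∀ u y, io (X.dia N H j u y) = X.dia N H' j u (io y)) ∧
    ∀ g : GQ, (∀ ζ : Qb, ζ ^ 3 ^ j = 1 → g ζ = ζ) →
      (∀ x : X.A N H' j, (∀ δ, dl δ x = x) → ∃ y, io y = X.act N H' j g x - x) ∧
      (∀ y, io y = 0 → X.act N H j g y - y = 0) ∧
      ∀ y : X.A N H j, 3 • y = 0 → ∃ w, 3 ^ (j - 1) • ∑ δ, dl δ w = io (X.act N H j g y - y)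

/-- **the modular tower** -/
structure Tower (X : Mods) : Prop where
  lv : ∀ N H j, Ok N H → 1 ≤ j → Lv1 X N H j
  b3 : B3 X
  igu : IGU X
  deg : DEG X
  dsc : DSC X

/-- the residual system occurs at level `N` (block Th) -/
def THE (X : Mods) (N : ℕ) (a : ℕ → O3) (ε : (ZMod N)ˣ →* O3) : Prop := ∀ j, 1 ≤ j →
  ∃ φ : k9 →+ X.A N (H4 N) j, φ ≠ 0 ∧
    (∀ l, GoodP N l → ∀ z, X.T N (H4 N) j l (φ z) = φ (res3 (a l) * z)) ∧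
    ∀ u z, X.dia N (H4 N) j u (φ z) = φ (res3 (ε u) * z)

/-- the final form of block S -/
def SelT (N : ℕ) (ρb : GQ →* M2 k9) : Prop := ∃ (Γ : Subgroup GQ) (w : Qb), S.Base Γ ∧
  w ^ 2 + w + 1 = 0 ∧ (∀ g ∈ Γ, g w = w) ∧ ∃ r : ℕ, ∀ (n : ℕ) (B : Finset ℕ), ∃ Q : Finset ℕ,
    Q.card = r ∧ (∀ q ∈ Q, S.TWP n B q) ∧ ∀ (U : Subgroup GQ) (Z : Set GQ) (P3 : Ideal (𝓞 Qb)),
      IsOpen (U : Set GQ) → P3.IsPrime → (3 : 𝓞 Qb) ∈ P3 →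
      (∀ l : ℕ, l.Prime → 3 < l → l ∉ Q →
        (∀ P : Ideal (𝓞 Qb), P.IsPrime → (l : 𝓞 Qb) ∈ P → ∀ g, S.Inert P g → g ∈ U) ∨
        (l ∣ N ∧ (l % 12 = 7 ∨
          ∀ P : Ideal (𝓞 Qb), P.IsPrime → (l : 𝓞 Qb) ∈ P → ∀ g, S.Inert P g → g ∈ Z))) →
      SEL ρb U (FlL P3 Γ w) Z r

/-- **the representation** (blocks F, D, S) -/
structure Rho (N : ℕ) (ρ : GQ →* M2 O3) (a : ℕ → O3) (ε : (ZMod N)ˣ →* O3) : Prop where
  ok : Ok N (H4 N)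
  opn : ∀ j, IsOpen {g : GQ | redRep (toLa j) ρ g = 1}
  unr : ∀ l, GoodP N l → ∀ P : Ideal (𝓞 Qb), P.IsPrime → (l : 𝓞 Qb) ∈ P → ∀ g, S.Inert P g →
    ρ g = 1
  tr : ∀ l, GoodP N l → ∀ φ, IsFrob l φ → (ρ φ).trace = a l
  det : ∀ l, GoodP N l → ∀ φ, IsFrob l φ → ∀ u : (ZMod N)ˣ, (u : ZMod N) = l →
    (ρ φ).det = l * ε u
  e4 : ∀ u, ε u ^ 4 = 1
  inert : ∀ l, GoodP N l → l % 4 = 3 → res3 (a l) = 0
  res : ∃ c, Resid res3 ρ c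
  fl : ∀ (j : ℕ) (P : Ideal (𝓞 Qb)) (O : ValuationSubring Qb), P.IsPrime → (3 : 𝓞 Qb) ∈ P →
    D.Over P O → D.Fl O (D.inr P) fun g (v : Fin 2 → La j) => (redRep (toLa j) ρ g).mulVec v
  vis : ∀ l : ℕ, l.Prime → 3 < l → l ∣ N → l % 12 = 7 ∨ (l % 8 = 1 ∧ ¬ l ^ 2 ∣ N ∧
    ∀ P : Ideal (𝓞 Qb), P.IsPrime → (l : 𝓞 Qb) ∈ P →
      (∀ z, S.Inert P z → (ρ z).trace = 1 + (ρ z).det) ∧
      ∃ z, S.Inert P z ∧ res3 (ρ z).det ≠ 1)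
  sel : SelT N (redRep res3 ρ)

/-- **the output**: eigenvectors modulo `3 ^ j` of unbounded order -/
def OUT (X : Mods) (N : ℕ) (a : ℕ → O3) : Prop :=
  ∀ (B : Finset ℕ) (v : ℕ), ∃ j, 1 ≤ j ∧ ∃ φ : La j →+ X.A N (H4 N) j,
    (∀ l ∈ B, GoodP N l → ∀ z, X.T N (H4 N) j l (φ z) = φ (toLa j (a l) * z)) ∧ 3 ^ v • φ ≠ 0

/-- a prime above `3` with its valuation ring -/
def OV3 : Prop := ∃ (P : Ideal (𝓞 Qb)) (O : ValuationSubring Qb), P.IsPrime ∧ (3 : 𝓞 Qb) ∈ P ∧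
  D.Over P O

/-- **the theorem of block TW** -/
def TWG : Prop := FONT → OV3 → ∀ (X : Mods) (N : ℕ) (ρ : GQ →* M2 O3) (a : ℕ → O3)
  (ε : (ZMod N)ˣ →* O3), Tower X → Rho N ρ a ε → THE X N a ε → OUT X N a

/-! ## rows -/

/-- row CY: the cyclotomic characters -/
def Spec_CY : Prop :=
  (∀ l : ℕ, l.Prime → (∃ P : Ideal (𝓞 Qb), P.IsPrime ∧ (l : 𝓞 Qb) ∈ P) ∧ ∃ φ, IsFrob l φ) ∧
  ∀ N : ℕ, 0 < N → ∃ cy : GQ →* (ZMod N)ˣ, (∀ g, IsCy N g (cy g)) ∧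
    (∀ g u, IsCy N g u → u = cy g) ∧ IsOpen {g : GQ | cy g = 1} ∧
    (∀ (M : ℕ) (h : M ∣ N) (g : GQ), IsCy M g (ZMod.unitsMap h (cy g))) ∧
    ∀ l : ℕ, l.Prime → ¬ l ∣ N → (∀ φ, IsFrob l φ → (cy φ : ZMod N) = l) ∧
      ∀ P : Ideal (𝓞 Qb), P.IsPrime → (l : 𝓞 Qb) ∈ P → ∀ g, S.Inert P g → cy g = 1

/-- row RAM: the cyclotomic field of prime conductor is totally ramified -/
def Spec_RAM : Prop := ∀ q : ℕ, q.Prime → ∀ P : Ideal (𝓞 Qb), P.IsPrime → (q : 𝓞 Qb) ∈ P →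
  ∀ u : (ZMod q)ˣ, ∃ σ, S.Inert P σ ∧ IsCy q σ u

/-- row LEV: the group `Δ` -/
def Spec_LEV : Prop := ∀ (N n r : ℕ) (q : Fin r → ℕ) (h : ∀ i, q i ∣ N), 0 < N →
  Function.Injective q → (∀ i, (q i).Prime) → (∀ i, 3 ^ n ∣ q i - 1) →
  ∃ (Δ : Type) (_ : CommGroup Δ) (_ : Fintype Δ) (d : (ZMod N)ˣ →* Δ), Function.Surjective d ∧
    (∀ u, d u = 1 ↔ ∀ i, ∃ x, ZMod.unitsMap (h i) u = x ^ 3 ^ n) ∧
    ∀ s : Fin r → (ZMod N)ˣ, (∀ i x, x ∈ Subgroup.zpowers (ZMod.unitsMap (h i) (s i))) →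
      (∀ i k, i ≠ k → ZMod.unitsMap (h k) (s i) = 1) → Del n fun i => d (s i)

/-- row SPL: `H4` splits at a prime `1 mod 8` -/
def Spec_SPL : Prop := ∀ M p : ℕ, 0 < M → p.Prime → p % 8 = 1 → ¬ p ∣ M → Split M p (H4 (M * p))

end Vale.Agent.P027M.TW
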