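import Vale.Agent.P027M.TW.Tow
import Vale.Agent.P027M.S.Loc
import Vale.Agent.P022.H853.L3.Cyc

/-! # P027 route M, block TW: the cyclotomic characters -/

set_option linter.all false

noncomputable section

namespace Vale.Agent.P027M.TW

open NumberField Vale.Agent.P022 Vale.Agent.P022.H853

theorem cy : Spec_CY := by
  refine ⟨fun l hl => ?_, fun N hN => ?_⟩
  · obtain ⟨P, hP, h⟩ := H916.exists_prime hl
    obtain ⟨g, hg⟩ := S.Loc.frob hP hl h
    exact ⟨⟨P, hP, h⟩, g, P, hP, h, hg⟩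
  have : NeZero N := ⟨hN.ne'⟩
  refine ⟨cyc N, fun g ζ h => cyc_spec g h, fun g u hu => ?_, isOpen_cyc N, fun M h g ζ hζ => ?_,
    fun l hl hlN => ⟨fun φ hφ => cyc_frob hl hlN hφ, fun P hP h g hg => ?_⟩⟩
  · have h1 := hu _ (zt_prim N).pow_eq_one
    rw [cyc_spec g (zt_prim N).pow_eq_one] at h1
    exact Units.ext (ZMod.val_injective N
      ((zt_prim N).pow_inj (ZMod.val_lt _) (ZMod.val_lt _) h1).symm)
  · obtain ⟨k, hk⟩ := h
    have h1 : ζ ^ N = 1 := by rw [hk, pow_mul, hζ, one_pow]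
    rw [cyc_spec g h1, ZMod.unitsMap_val, ZMod.cast_eq_val, ZMod.val_natCast]
    conv_lhs => rw [← Nat.div_add_mod (cyc N g : ZMod N).val M, pow_add, pow_mul, hζ, one_pow,
      one_mul]
  · have hNP : (N : 𝓞 Qb) ∉ P := fun e =>
      hlN (by exact_mod_cast H20.dvd_of_mem hl hP h (d := (N : ℤ)) (by exact_mod_cast e))
    have h1 := cyc_of_pow (m := N) (q := 1) dvd_rfl hP hNP (g := g) fun x => by
      rw [pow_one]; exact hg x
    apply Units.ext
    rw [← ZMod.natCast_zmod_val ((cyc N g : (ZMod N)ˣ) : ZMod N), Units.val_one, ← Nat.cast_one]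
    exact (ZMod.natCast_eq_natCast_iff _ _ _).2 h1

end Vale.Agent.P027M.TW
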