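import Vale.Agent.P027M.TW.EigK
import Vale.Agent.P027M.Fo.Defs

/-! # P027 route M: from the output of block TW to the input of block FORM -/

set_option linter.all false

noncomputable section

namespace Vale.Agent.P027M.TW

open Vale.Agent.P022 Vale.Agent.P022.H231.L3 Vale.Agent.P019P Vale.Agent.P027M.M
open scoped MatrixGroups nonZeroDivisors

/-- clearing denominators -/
theorem exists_int {R K : Type} [CommRing R] [IsDomain R] [Field K] [Algebra R K]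
    [IsFractionRing R K] {Γ : Subgroup SL(2, ℤ)} [Γ.FiniteIndex] {u : SL(2, ℤ) → K}
    (hu : AddOn Γ u) : ∃ (d : K) (u' : SL(2, ℤ) → R), d ≠ 0 ∧
      ∀ γ ∈ Γ, algebraMap R K (u' γ) = d * u γ := by
  classical
  obtain ⟨S, hS, hf⟩ := Group.fg_iff.1 (inferInstance : Group.FG Γ)
  obtain ⟨d, hd⟩ := IsLocalization.exist_integer_multiples_of_finset R⁰
    (hf.toFinset.image fun γ : Γ => u γ)
  have h1 : u 1 = 0 := by
    have h := hu 1 Γ.one_mem 1 Γ.one_mem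
    rw [mul_one] at h
    exact left_eq_add.1 h
  have hall : ∀ γ : Γ, ∃ y : R, algebraMap R K y = algebraMap R K d * u γ := fun γ => by
    have hγ : γ ∈ Subgroup.closure S := hS ▸ Subgroup.mem_top γ
    induction hγ using Subgroup.closure_induction with
    | mem x hx =>
      obtain ⟨y, hy⟩ := hd (u x) (Finset.mem_image.2 ⟨x, hf.mem_toFinset.2 hx, rfl⟩)
      exact ⟨y, hy.trans (Algebra.smul_def _ _)⟩
    | one => exact ⟨0, by rw [map_zero, Subgroup.coe_one, h1, mul_zero]⟩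
    | mul x y _ _ hx hy =>
      obtain ⟨a, ha⟩ := hx
      obtain ⟨b, hb⟩ := hy
      exact ⟨a + b, by rw [map_add, ha, hb, Subgroup.coe_mul, hu x x.2 y y.2, mul_add]⟩
    | inv x _ hx =>
      obtain ⟨a, ha⟩ := hx
      have h := hu x x.2 x⁻¹ (Γ.inv_mem x.2)
      rw [mul_inv_cancel, h1] at h
      exact ⟨-a, by rw [map_neg, ha, Subgroup.coe_inv, eq_neg_of_add_eq_zero_right h.symm, mul_neg]⟩
  choose y hy using hall
  refine ⟨algebraMap R K d, fun γ => if h : γ ∈ Γ then y ⟨γ, h⟩ else 0,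
    IsFractionRing.to_map_ne_zero_of_mem_nonZeroDivisors d.2, fun γ hγ => ?_⟩
  dsimp only
  rw [dif_pos hγ]
  exact hy ⟨γ, hγ⟩

/-- an integral eigenclass -/
theorem eigZ_of {N : ℕ} {Γ : Subgroup SL(2, ℤ)} [Γ.FiniteIndex] {a : ℕ → O3} (hO : OutH N Γ a)
    {B : ℕ} (hB : 6 * N ∣ B) (b : ℕ → QO ℤ) (hb : ∀ l : ℕ, l.Prime → ¬ l ∣ B → a l = glob (b l)) :
    ∃ u, Fo.EigZ N Γ B b u := by
  haveI : IsDomain (QO ℤ) := glob_inj.isDomain glob
  have hinj := IsFractionRing.injective (QO ℤ) (FractionRing (QO ℤ))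
  obtain ⟨u, ha, hp, ⟨γ₀, h0, hne⟩, hh⟩ := eig_glob_off (algebraMap (QO ℤ) (FractionRing (QO ℤ)))
    hinj hO (G := fun l => l.Prime ∧ ¬ l ∣ B) (fun l h => ⟨h.1, fun k => h.2 (k.trans hB)⟩) b
    fun l h => hb l h.1 h.2
  obtain ⟨d, u', hd, hu⟩ := exists_int (R := QO ℤ) ha
  refine ⟨u', ⟨fun γ hγ δ hδ => hinj ?_, fun g k hg => hinj ?_⟩,
    fun l hl hlB e he γ hγ s g hg hs => hinj ?_, γ₀, h0, fun e => ?_⟩
  · rw [map_add, hu _ (mul_mem hγ hδ), hu _ hγ, hu _ hδ, ha γ hγ δ hδ, mul_add]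
  · rw [hu _ hg, hp g k hg, mul_zero, map_zero]
  · rw [map_sum, Finset.sum_congr rfl fun i _ => hu _ (hg i), ← Finset.mul_sum,
      hh l ⟨hl, hlB⟩ e he γ hγ s g hg hs, map_mul, hu _ hγ]
    ring
  · have h := hu _ h0
    rw [e, map_zero] at h
    exact mul_ne_zero hd hne h.symm

theorem map_a (S : Sys) {R R' : Type} [CommRing R] [CommRing R'] (f : R →+* R') (l : ℕ) :
    QO.map f (S.a iO wO l) = S.a iO wO l := by
  unfold Sys.a gi
  split_ifs <;> simp only [map_add, map_mul, map_intCast, QO.map_iO, QO.map_wO]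

theorem exists_coord {x : QO ℤ} (h : x ≠ 0) : ∃ z : QO ℤ, (z * x).re.re ≠ 0 := by
  by_contra hc
  push Not at hc
  have h1 := hc 1
  have h2 := hc iO
  have h3 := hc wO
  have h4 := hc (iO * wO)
  have e1 : QuadraticAlgebra.re (3 : G9 ℤ) = 3 := rfl
  have e2 : QuadraticAlgebra.im (3 : G9 ℤ) = 0 := rfl
  apply h
  ext
  · simpa using h1
  · simpa [iO] using h2
  · simpa [wO, e1, e2] using h3
  · simpa [iO, wO, e1, e2] using h4

/-- reduction of an integral eigenclass -/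
theorem eigH_of_eigZ {S : Sys} {H : Subgroup (ZMod S.N)ˣ} {B : ℕ} {u : SL(2, ℤ) → QO ℤ}
    (h : Fo.EigZ S.N (GH S.N H) B (S.a iO wO) u) : Fo.EigH S H B := by
  intro v
  obtain ⟨γ₀, h0, hne⟩ := h.ne
  obtain ⟨z₀, hz⟩ := exists_coord hne
  obtain ⟨j, hj⟩ := pow_unbounded_of_one_lt ((3 : ℤ) ^ v * (z₀ * u γ₀).re.re).natAbs
    (by norm_num : 1 < 3)
  let c : QO ℤ →+* La j := QO.map (Int.castRingHom _)
  let φ : La j →+ (SL(2, ℤ) → ZMod (3 ^ j)) :=
    { toFun := fun z γ => (z * c (u γ)).re.re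
      map_zero' := by funext γ; simp
      map_add' := fun x y => by funext γ; simp [add_mul] }
  let p : La j →+ ZMod (3 ^ j) :=
    { toFun := fun z => z.re.re
      map_zero' := rfl
      map_add' := fun _ _ => rfl }
  have hφ : ∀ z γ, φ z γ = p (z * c (u γ)) := fun _ _ => rfl
  refine ⟨j, φ, fun z => ⟨fun γ hγ δ hδ => ?_, fun g k hg => ?_⟩,
    fun l hl hlB z e he γ hγ s g hg hs => ?_, c z₀, γ₀, h0, fun e => ?_⟩
  · rw [hφ, hφ, hφ, h.par.add γ hγ δ hδ, map_add, mul_add, map_add]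
  · rw [hφ, h.par.par g k hg, map_zero, mul_zero, map_zero]
  · simp only [hφ]
    rw [← map_sum, ← Finset.mul_sum, ← map_sum, h.hec l hl hlB e he γ hγ s g hg hs]
    dsimp only
    rw [map_mul c, map_a, ← mul_assoc, mul_comm z]
  · rw [hφ, ← map_mul] at e
    have e1 : (((3 : ℤ) ^ v * (z₀ * u γ₀).re.re : ℤ) : ZMod (3 ^ j)) = 0 := by
      rw [← e, nsmul_eq_mul]
      push_cast
      rfl
    rw [ZMod.intCast_zmod_eq_zero_iff_dvd, Int.natCast_dvd] at e1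
    exact absurd (Nat.le_of_dvd (Int.natAbs_pos.2 (mul_ne_zero (pow_ne_zero _ (by norm_num)) hz)) e1)
      (not_le.2 hj)

theorem lvH {N : ℕ} (h : Ok N (H4 N)) : Fo.LvH N (H4 N) :=
  ⟨h.lv, h.neg, fun a => ⟨a, Or.inl rfl⟩⟩

/-- **the input of block FORM** -/
theorem eigH_of (h : GRP) {X : Mdl} {S : Sys} {a : ℕ → O3} (hN : Ok S.N (H4 S.N))
    (hO : OutK X S.N a) (hK : InKAP X S.N (H4 S.N)) {B : ℕ} (hB : 6 * S.N ∣ B)
    (hb : ∀ l : ℕ, l.Prime → ¬ l ∣ B → a l = S.a iO wO l) : Fo.EigH S (H4 S.N) B := by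
  haveI := finIdx h hN
  obtain ⟨u, hu⟩ := eigZ_of (outH_ofK hO hK) hB (S.a iO wO) fun l hl k =>
    (hb l hl k).trans (map_a S _ l).symm
  exact eigH_of_eigZ hu

end Vale.Agent.P027M.TW
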