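import Vale.Agent.P027M.TW.HA
import Vale.Agent.P027M.K.Pic

/-! # P027 route M, block TW: row DESCK (descent for Kummer classes up to `g - 1`) -/

set_option linter.all false

noncomputable section

namespace Vale.Agent.P027M.TW

open Vale.Agent.P019P P025H492 P025H816 P027M.K

namespace Desck

variable {k K L : Type} [Field k] [Field K] [Field L] [Algebra k K] [Algebra k L]
  [Algebra K L] [IsScalarTower k K L] [CFF k K] [CFF k L] [FiniteDimensional K L] [IsGalois K L]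

/-- the Galois action on units -/
def sU (σ : L ≃ₐ[K] L) : Lˣ →* Lˣ := mU σ.toRingEquiv

theorem sU_val (σ : L ≃ₐ[K] L) (x : Lˣ) : ((sU σ x : Lˣ) : L) = σ (x : L) := rfl

theorem sU_mul (σ τ : L ≃ₐ[K] L) (x : Lˣ) : sU (σ * τ) x = sU σ (sU τ x) := rfl

theorem sU_smul (σ : L ≃ₐ[K] L) (x : Lˣ) : σ • x = sU σ x := Units.ext rfl

theorem sU_jU (σ : L ≃ₐ[K] L) (y : Kˣ) : sU σ (jU L y) = jU L y :=
  Units.ext (σ.commutes (y : K))

theorem jU_inj : Function.Injective (jU L : Kˣ → Lˣ) := fun x y h =>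
  Units.ext ((algebraMap K L).injective (congrArg Units.val h))

theorem desc {x : Lˣ} (h : ∀ σ : L ≃ₐ[K] L, sU σ x = x) : ∃ y : Kˣ, jU L y = x := by
  obtain ⟨z, hz⟩ := (IsGalois.mem_range_algebraMap_iff_fixed (F := K) (x : L)).2
    fun σ => congrArg Units.val (h σ)
  have hz0 : z ≠ 0 := by
    rintro rfl
    exact x.ne_zero (by rw [← hz, map_zero])
  exact ⟨Units.mk0 z hz0, Units.ext hz⟩

theorem divU_of_jU (hu : IsUnr k K L) {m : ℕ} {y : Kˣ} (h : jU L y ∈ divU k L m) :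
    y ∈ divU k K m := fun P => by
  obtain ⟨Q, rfl⟩ := exists_over (L := L) P
  have h1 := h Q
  rwa [jU_val, hu.ord_algebraMap] at h1

theorem jU_nU (w : Lˣ) : jU L (nU K w) = ∏ σ : L ≃ₐ[K] L, sU σ w := by
  apply Units.ext
  rw [jU_val, nU_val, Algebra.norm_eq_prod_automorphisms, Units.coe_prod]
  rfl

/-- the hypotheses on the semilinear automorphism -/
structure Sm (k K L : Type) [Field k] [Field K] [Field L] [Algebra k K] [Algebra K L] (m : ℕ)
    (g0 : k ≃+* k) (gK : K ≃+* K) (gL : L ≃+* L) : Prop where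
  m0 : (m : k) ≠ 0
  hK : ∀ a, gK (algebraMap k K a) = algebraMap k K (g0 a)
  hL : ∀ x, gL (algebraMap K L x) = algebraMap K L (gK x)
  hc : ∀ (σ : L ≃ₐ[K] L) x, gL (σ x) = σ (gL x)
  hr : ∀ a : k, a ^ m = 1 → g0 a = a

variable {m : ℕ} {g0 : k ≃+* k} {gK : K ≃+* K} {gL : L ≃+* L}

theorem Sm.hL0 (H : Sm k K L m g0 gK gL) (a : k) :
    gL (algebraMap k L a) = algebraMap k L (g0 a) := by
  rw [IsScalarTower.algebraMap_apply k K L, H.hL, H.hK, ← IsScalarTower.algebraMap_apply]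

theorem Sm.comm (H : Sm k K L m g0 gK gL) (σ : L ≃ₐ[K] L) (x : Lˣ) :
    mU gL (sU σ x) = sU σ (mU gL x) := Units.ext (H.hc σ x)

theorem Sm.mU_jU (H : Sm k K L m g0 gK gL) (y : Kˣ) : mU gL (jU L y) = jU L (mU gK y) :=
  Units.ext (H.hL y)

theorem Sm.fix (H : Sm k K L m g0 gK gL) {z : Lˣ} (h : z ^ m = 1) : mU gL z = z := by
  have hz : (z : L) ^ m = 1 := by rw [← Units.val_pow_eq_pow_val, h, Units.val_one]
  obtain ⟨a, ha⟩ := const_of_pow_eq_one (k := k) (ne_zero_of_cast H.m0) hz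
  have h1 : a ^ m = 1 := (algebraMap k L).injective (by rw [map_pow, ← ha, hz, map_one])
  apply Units.ext
  rw [mU_val, ha, H.hL0, H.hr a h1]

theorem Sm.of_dvd (H : Sm k K L m g0 gK gL) {n : ℕ} (h : n ∣ m) : Sm k K L n g0 gK gL where
  m0 := by
    obtain ⟨c, rfl⟩ := h
    intro h0
    exact H.m0 (by rw [Nat.cast_mul, h0, zero_mul])
  hK := H.hK
  hL := H.hL
  hc := H.hc
  hr a ha := by
    obtain ⟨c, rfl⟩ := h
    exact H.hr a (by rw [pow_mul, ha, one_pow])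

theorem d2 (H : Sm k K L m g0 gK gL) {y : Kˣ} (h : jU L y ∈ powU L m) :
    mU gK y / y ∈ powU K m := by
  obtain ⟨f, hf⟩ := mem_powU.1 h
  obtain ⟨v, hv⟩ := desc (K := K) (x := mU gL f / f) fun σ => by
    have h1 : mU gL (sU σ f / f) = sU σ f / f := H.fix (by
      rw [div_pow, ← map_pow, hf, sU_jU, div_self'])
    rw [_root_.map_div, H.comm, div_eq_div_iff_div_eq_div] at h1
    rw [_root_.map_div, h1]
  refine mem_powU.2 ⟨v, jU_inj (L := L) ?_⟩
  rw [map_pow, hv, div_pow, ← map_pow, hf, H.mU_jU, _root_.map_div]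

theorem d1 (H : Sm k K L m g0 gK gL) (hu : IsUnr k K L) {h : Lˣ} (hh : h ∈ divU k L m)
    (hs : ∀ σ : L ≃ₐ[K] L, sU σ h / h ∈ powU L m) :
    ∃ y ∈ divU k K m, jU L y / (mU gL h / h) ∈ powU L m := by
  choose f hf using fun σ => mem_powU.1 (hs σ)
  have hc : groupCohomology.IsMulCocycle₁ fun σ : L ≃ₐ[K] L => mU gL (f σ) / f σ := by
    intro σ τ
    have h1 : mU gL (f (σ * τ) / (sU σ (f τ) * f σ)) = f (σ * τ) / (sU σ (f τ) * f σ) :=
      H.fix (by
        rw [div_pow, mul_pow, ← map_pow, hf, hf, hf, sU_mul, _root_.map_div, div_mul_div_cancel,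
          div_self'])
    rw [_root_.map_div, map_mul, H.comm, div_eq_div_iff_div_eq_div] at h1
    show mU gL (f (σ * τ)) / f (σ * τ) = σ • (mU gL (f τ) / f τ) * (mU gL (f σ) / f σ)
    rw [sU_smul, _root_.map_div, div_mul_div_comm, ← h1]
  obtain ⟨β, hβ⟩ := groupCohomology.isMulCoboundary₁_of_isMulCocycle₁_of_aut_to_units _ hc
  obtain ⟨y, hy⟩ := desc (K := K) (x := mU gL h / h / β ^ m) fun σ => by
    have h1 : sU σ β / β = mU gL (f σ) / f σ := by rw [← sU_smul]; exact hβ σ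
    have h2 : (sU σ β / β) ^ m = mU gL (sU σ h / h) / (sU σ h / h) := by
      rw [h1, div_pow, ← map_pow, hf]
    rw [div_pow, ← map_pow, _root_.map_div, H.comm] at h2
    rw [_root_.map_div, _root_.map_div, div_eq_div_iff_div_eq_div, h2, div_div_div_comm]
  refine ⟨y, divU_of_jU hu ?_, ?_⟩
  · rw [hy]
    exact div_mem (div_mem (mU_mem H.hL0 hh) hh) (powU_le m ⟨β, rfl⟩)
  · rw [hy, div_div_cancel_left]
    exact inv_mem ⟨β, rfl⟩

/-- `g z / z` is a norm modulo powers -/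
theorem norm_sur (H : Sm k K L m g0 gK gL) {z : Kˣ} (hz : z ∈ divU k K m) :
    ∃ w ∈ divU k L m, (nU K w)⁻¹ * (mU gK z / z) ∈ powU K m := by
  have hn := H.m0
  have hn0 := ne_zero_of_cast hn
  have : IsAlgClosed k := CFF.ac K
  have : NeZero (m : k) := ⟨hn⟩
  have : NeZero m := ⟨hn0⟩
  have := finite_HK (F := K) hn
  have : HasEnoughRootsOfUnity k (Monoid.exponent (HK k K m)) :=
    HasEnoughRootsOfUnity.of_dvd k (Monoid.exponent_dvd_of_forall_pow_eq_one (hk_pow m))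
  have hgz := mU_mem H.hK hz
  have ht : (QuotientGroup.mk ⟨mU gK z / z, div_mem hgz hz⟩ : HK k K m) ∈ (nH k K L m).range := by
    refine (CommGroup.forall_monoidHom_apply_eq_one_iff (G := HK k K m) k _ _).1 fun φ hφ => ?_
    obtain ⟨x, rfl⟩ := (eH_bijective (F := K) hn).2 φ
    obtain ⟨⟨f, hf⟩, rfl⟩ := QuotientGroup.mk_surjective x
    have h1 : jU L f ∈ powU L m := nondeg hn (jU_mem hf) fun g hg => by
      have h2 := hφ _ ⟨QuotientGroup.mk ⟨g, hg⟩, rfl⟩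
      rw [nH_mk, eH_mk, toMul_eq_one] at h2
      rw [e_adj hn0 hf hg]
      exact h2
    have h2 := d2 H h1
    have h3 : e k m (mU gK f) (mU gK z) = e k m f (mU gK z) := by
      have h4 := e_mul_left hn0 (mU gK z) hf (powU_le m h2)
      rw [mul_div_cancel, e_powU_left hn0 h2 hgz, add_zero] at h4
      exact h4
    have h4 : aU g0 (e k m f z) = e k m f z := by
      have h5 := nsmul_e hn0 hf hz
      generalize e k m f z = c at h5
      obtain ⟨c, rfl⟩ := Additive.ofMul.surjective c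
      rw [aU_ofMul]
      congr 1
      apply Units.ext
      rw [mU_val]
      apply H.hr
      rw [← ofMul_pow, ofMul_eq_zero] at h5
      rw [← Units.val_pow_eq_pow_val, h5, Units.val_one]
    rw [e_semi H.hK hn0 hf hz, h4] at h3
    have h5 := e_mul_right hn0 f (div_mem hgz hz) hz
    rw [div_mul_cancel, ← h3, right_eq_add] at h5
    rw [eH_mk, toMul_eq_one]
    exact h5
  obtain ⟨x, hx⟩ := ht
  obtain ⟨⟨w, hw⟩, rfl⟩ := QuotientGroup.mk_surjective x
  rw [nH_mk, QuotientGroup.eq, Subgroup.mem_subgroupOf] at hx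
  exact ⟨w, hw, hx⟩

theorem lift_level {a n : ℕ} (ha : (a : k) ≠ 0) (hn : n ≠ 0) {w : Lˣ} (hw : w ∈ divU k L n) :
    ∃ g : Lˣ, w / g ^ n ∈ divU k L (a * n) := by
  obtain ⟨A, hA⟩ := exists_halfdiv hw
  obtain ⟨g, E, hg, -, hE⟩ := exists_dv (F := L) ha (D := A)
    (dg_of_tors hn ⟨w, w.ne_zero, hA⟩)
  refine ⟨Units.mk0 g hg, fun P => ?_⟩
  have h1 := DFunLike.congr_fun hA P
  have h2 := DFunLike.congr_fun hE P
  rw [dv_apply, Finsupp.smul_apply, nsmul_eq_mul] at h1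
  rw [dv_apply, Finsupp.sub_apply, Finsupp.smul_apply, nsmul_eq_mul] at h2
  rw [ou_div, ou_pow, Units.val_mk0, h2, ← h1]
  exact ⟨E P, by push_cast; ring⟩

theorem d3 {a n : ℕ} (H : Sm k K L m g0 gK gL) (hm : m = a * n) {y : Kˣ} (hy : y ∈ divU k K m)
    (h : y ^ n ∈ powU K m) :
    ∃ w ∈ divU k L m, jU L (nU K w) ^ a / jU L (mU gK y / y) ∈ powU L m := by
  subst hm
  have : IsAlgClosed k := CFF.ac K
  have hm0 := H.m0
  rw [Nat.cast_mul] at hm0
  have ha : (a : k) ≠ 0 := left_ne_zero_of_mul hm0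
  have ha0 := ne_zero_of_cast ha
  have hn0 := ne_zero_of_cast (right_ne_zero_of_mul hm0)
  obtain ⟨u, hu⟩ := mem_powU.1 h
  obtain ⟨c, hc⟩ := const_of_pow_eq_one (k := k) hn0 (z := ((y / u ^ a : Kˣ) : K)) (by
    rw [← Units.val_pow_eq_pow_val, div_pow, ← pow_mul, hu, div_self', Units.val_one])
  obtain ⟨b, hb⟩ := IsAlgClosed.exists_pow_nat_eq c (Nat.pos_of_ne_zero ha0)
  have hb0 : b ≠ 0 := by
    rintro rfl
    rw [zero_pow ha0] at hb
    rw [← hb, map_zero] at hc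
    exact Units.ne_zero _ hc
  obtain ⟨z, hz⟩ : ∃ z : Kˣ, z ^ a = y := ⟨cU K (Units.mk0 b hb0) * u, by
    rw [mul_pow, ← eq_div_iff_mul_eq']
    apply Units.ext
    rw [hc, Units.val_pow_eq_pow_val, cU_val, Units.val_mk0, ← map_pow, hb]⟩
  have hz1 : z ∈ divU k K n := fun P => by
    have h1 := hy P
    rw [← hz, ou_pow, Nat.cast_mul] at h1
    exact (mul_dvd_mul_iff_left (by exact_mod_cast ha0)).1 h1
  obtain ⟨w, hw, s, hs⟩ := norm_sur (H.of_dvd (Dvd.intro_left a rfl)) hz1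
  obtain ⟨g, hg⟩ := lift_level ha hn0 hw
  have hs' : s ^ n = (nU K w)⁻¹ * (mU gK z / z) := hs
  refine ⟨_, hg, (jU L (nU K g * s))⁻¹, ?_⟩
  show (jU L (nU K g * s))⁻¹ ^ (a * n) = _
  rw [← map_pow (jU L), ← _root_.map_div, ← map_inv, ← map_pow]
  congr 1
  rw [← hz, map_pow, ← div_pow, ← div_pow, mul_comm a n, pow_mul]
  congr 1
  rw [eq_inv_mul_iff_mul_eq] at hs'
  rw [← hs', _root_.map_div, map_pow, inv_pow, mul_pow, div_div, mul_comm (nU K w), ← mul_assoc,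
    div_mul_cancel_right]

end Desck

open Desck in
theorem desck : DESCK := by
  intro k K L Δ _ _ _ _ _ _ _ _ _ _ _ _ _ _ j θ g0 gK gL io dl aK aL hj hθ hu hK hL hc hr hio hdl
    haK haL
  have H : Sm k K L (3 ^ j) g0 gK gL :=
    ⟨by exact_mod_cast pow_ne_zero j three_ne_zero, hK, hL, fun σ x => by
      obtain ⟨δ, rfl⟩ := hθ.2 σ
      exact hc δ x, hr⟩
  refine ⟨fun x hx => ?_, fun y hy => ?_, fun y hy => ?_⟩
  · obtain ⟨h, hh, rfl⟩ := cl_surj x
    obtain ⟨y, hy, h1⟩ := d1 H hu hh fun σ => by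
      obtain ⟨δ, rfl⟩ := hθ.2 σ
      obtain ⟨h2, h3⟩ := hdl δ h hh
      exact (cl_eq h2 hh).1 (h3.symm.trans (hx δ))
    obtain ⟨h2, h3⟩ := hio y hy
    obtain ⟨h4, h5⟩ := haL h hh
    have h6 : aL (cl h hh) = cl _ h4 := h5
    exact ⟨cl y hy, by rw [h3, h6, ← cl_div, cl_eq]; exact h1⟩
  · obtain ⟨y, h1, rfl⟩ := cl_surj y
    obtain ⟨h2, h3⟩ := hio y h1
    obtain ⟨h4, h5⟩ := haK y h1
    have h6 : aK (cl y h1) = cl _ h4 := h5
    rw [h3, cl_eq_zero] at hy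
    rw [h6, ← cl_div, cl_eq_zero]
    exact d2 H hy
  · obtain ⟨y, h1, rfl⟩ := cl_surj y
    rw [← cl_pow, cl_eq_zero] at hy
    obtain ⟨w, hw, h2⟩ := d3 (a := 3 ^ (j - 1)) H (by rw [← pow_succ, Nat.sub_add_cancel hj]) h1 hy
    obtain ⟨h4, h5⟩ := haK y h1
    obtain ⟨h6, h7⟩ := hio _ (div_mem h4 h1)
    choose h8 h9 using fun δ => hdl δ w hw
    have h10 : aK (cl y h1) = cl _ h4 := h5
    have h11 : ∀ δ, dl δ (cl w hw) = cl _ (h8 δ) := h9
    refine ⟨cl w hw, ?_⟩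
    rw [h10, ← cl_div, h7, Finset.sum_congr rfl fun δ _ => h11 δ, ← cl_prod, ← cl_pow, cl_eq]
    rw [jU_nU, ← hθ.prod_comp] at h2
    exact h2

end Vale.Agent.P027M.TW
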