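import Vale.Agent.P027M.TW.InB
import Vale.Agent.P027M.TW.Desck

/-! # P027 route M, block TW: the tower on Kummer classes, descent and assembly -/

set_option linter.all false

noncomputable section

namespace Vale.Agent.P027M.TW

open NumberField Vale.Agent.P022 Vale.Agent.P022.H231.L3 Vale.Agent.P019P Vale.Agent.P027M.M
  P025H816 P025H492 P027M.K Vale.Agent.P022.H218.L3
open scoped MatrixGroups

namespace In

theorem cv_pg (X : Mdl) (γ : SL(2, ℤ)) (x : FF) : cv (X.pg γ x) = act γ⁻¹ (cv x) := by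
  rw [Mdl.pg, X.pb_coe, pbz_SL]

theorem pg_mul (X : Mdl) (γ δ : SL(2, ℤ)) (x : FF) : X.pg (γ * δ) x = X.pg δ (X.pg γ x) :=
  cv_inj (by rw [cv_pg, cv_pg, cv_pg, mul_inv_rev, map_mul]; rfl)

theorem pg_fix (X : Mdl) {Γ : Subgroup SL(2, ℤ)} {γ : SL(2, ℤ)} (h : γ ∈ Γ) {x : FF}
    (hx : x ∈ L Γ) : X.pg γ x = x :=
  cv_inj (by rw [cv_pg, hx _ (Γ.inv_mem h)])

/-- `γ` is a diamond matrix for `u` -/
def Dm (N : ℕ) (u : (ZMod N)ˣ) (γ : SL(2, ℤ)) : Prop :=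
  (N : ℤ) ∣ γ 1 0 ∧ (u : ZMod N) = ((γ 1 1 : ℤ) : ZMod N)

variable {N : ℕ}

theorem Dm.mul {u v : (ZMod N)ˣ} {γ δ : SL(2, ℤ)} (h : Dm N u γ) (h' : Dm N v δ) :
    Dm N (u * v) (γ * δ) := by
  have e1 : (γ * δ) 1 0 = γ 1 0 * δ 0 0 + γ 1 1 * δ 1 0 := by
    simp [Matrix.mul_apply, Fin.sum_univ_two]
  have e2 : (γ * δ) 1 1 = γ 1 0 * δ 0 1 + γ 1 1 * δ 1 1 := by
    simp [Matrix.mul_apply, Fin.sum_univ_two]
  refine ⟨by rw [e1]; exact dvd_add (h.1.mul_right _) (h'.1.mul_left _), ?_⟩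
  rw [e2, Units.val_mul, h.2, h'.2]
  push_cast
  rw [(ZMod.intCast_zmod_eq_zero_iff_dvd _ _).2 h.1, zero_mul, zero_add]

theorem Dm.mem {u : (ZMod N)ˣ} {γ : SL(2, ℤ)} (h : Dm N u γ) {H : Subgroup (ZMod N)ˣ} :
    γ ∈ GH N H ↔ u ∈ H :=
  ⟨fun ⟨_, v, hv, e⟩ => (Units.ext (e.trans h.2.symm) : v = u) ▸ hv, fun hu => ⟨h.1, u, hu, h.2⟩⟩

theorem Dm.inv {u : (ZMod N)ˣ} {γ : SL(2, ℤ)} (h : Dm N u γ) : Dm N u⁻¹ γ⁻¹ := by
  obtain ⟨h1, v, -, e⟩ := (GH N ⊤).inv_mem (h.mem.2 (Subgroup.mem_top u))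
  have h2 := h.mul (show Dm N v γ⁻¹ from ⟨h1, e⟩)
  rw [mul_inv_cancel] at h2
  have h3 : u * v = 1 := Units.ext (by simpa using h2.2)
  exact (eq_inv_of_mul_eq_one_right h3) ▸ ⟨h1, e⟩

theorem ex_dm (h0 : N ≠ 0) (u : (ZMod N)ˣ) : ∃ γ, Dm N u γ := by
  haveI := NeZero.mk h0
  obtain ⟨γ, h1, -, h3⟩ := IsDel.exists 1 N ((u : ZMod N).val : ℤ) (by
    rw [one_mul]
    exact Nat.isCoprime_iff_coprime.2 (ZMod.val_coe_unit_coprime u))
  refine ⟨γ, h1, ?_⟩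
  have := (ZMod.intCast_zmod_eq_zero_iff_dvd _ _).2 h3
  push_cast at this
  rw [ZMod.natCast_zmod_val] at this
  exact (sub_eq_zero.1 this).symm

theorem Dm.unip {u : (ZMod N)ˣ} {γ : SL(2, ℤ)} (h : Dm N u γ) (ht : (γ : M.M2).trace = 2) :
    u ^ N = 1 := by
  have hdet := γ.det_coe
  rw [Matrix.det_fin_two] at hdet
  rw [Matrix.trace_fin_two] at ht
  have h1 := congrArg (Int.cast : ℤ → ZMod N) hdet
  have h2 := congrArg (Int.cast : ℤ → ZMod N) ht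
  push_cast at h1 h2
  rw [(ZMod.intCast_zmod_eq_zero_iff_dvd _ _).2 h.1, ← h.2] at h1
  rw [← h.2] at h2
  have h3 : ∀ n : ℕ, (u : ZMod N) ^ n = 1 + n * (u - 1) := fun n => by
    induction n with
    | zero => simp
    | succ n ih =>
      rw [pow_succ, ih]
      push_cast
      linear_combination (-(n : ZMod N)) * h1 + n * (u : ZMod N) * h2
  refine Units.ext ?_
  rw [Units.val_pow_eq_pow_val, h3, ZMod.natCast_self, zero_mul, add_zero, Units.val_one]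

/-- the Galois action on a level field -/
def galL {X : Mdl} {Γ : Subgroup SL(2, ℤ)} (h : ∀ g, ∀ x ∈ L Γ, X.gal g x ∈ L Γ) (g : GQ) :
    L Γ ≃+* L Γ where
  toFun x := ⟨X.gal g x, h g _ x.2⟩
  invFun x := ⟨X.gal g⁻¹ x, h _ _ x.2⟩
  left_inv x := Subtype.ext (by
    show (X.gal g⁻¹ * X.gal g) x = x
    rw [← map_mul, inv_mul_cancel, map_one]
    rfl)
  right_inv x := Subtype.ext (by
    show (X.gal g * X.gal g⁻¹) x = x
    rw [← map_mul, mul_inv_cancel, map_one]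
    rfl)
  map_mul' x y := Subtype.ext (map_mul (X.gal g) _ _)
  map_add' x y := Subtype.ext (map_add (X.gal g) _ _)

theorem ex_theta {X : Mdl} (hX : MIn X) {H H' : Subgroup (ZMod N)ˣ} {Δ : Type} [CommGroup Δ]
    {d : (ZMod N)ˣ →* Δ} (h : Ok N H) (h' : Ok N H') (hH : ∀ u, u ∈ H' ↔ u ∈ H ∧ d u = 1)
    (hs : ∀ δ, ∃ u ∈ H, d u = δ) (le : GH N H' ≤ GH N H) :
    letI := algL le
    IsGalois (L (GH N H)) (L (GH N H')) ∧
    ∃ θ : Δ →* (L (GH N H') ≃ₐ[L (GH N H)] L (GH N H')), Function.Bijective θ ∧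
      ∀ u ∈ H, ∀ γ, Dm N u γ → ∀ x, ((θ (d u) x : L (GH N H')) : FF) = X.pg γ x := by
  letI := algL le
  obtain ⟨g1, g2, g3⟩ := (hX.artin _ _ le (fidx hX.grp h')).2 fun γ hγ δ hδ =>
    ((hX.grp N h.lv).2.2.2.2.2.2.2 H').2.2 γ hγ.1 δ hδ
  choose s s1 s2 using hs
  choose γ hγ using ex_dm h.pos.ne'
  choose σ hσ using fun δ => g3 (γ (s δ)) ((hγ _).mem.2 (s1 δ))
  have key : ∀ u ∈ H, ∀ g, Dm N u g → ∀ x, ((σ (d u) x : L (GH N H')) : FF) = X.pg g x := by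
    intro u hu g hg x
    have m : g * (γ (s (d u)))⁻¹ ∈ GH N H' := (hg.mul (hγ _).inv).mem.2 ((hH _).2
      ⟨H.mul_mem hu (H.inv_mem (s1 _)), by rw [map_mul, map_inv, s2, mul_inv_cancel]⟩)
    rw [hσ, ← inv_mul_cancel_right g (γ (s (d u))), pg_mul, pg_fix X m x.2]
  refine ⟨g1, MonoidHom.mk' σ fun a b => AlgEquiv.ext fun x => Subtype.ext ?_, ⟨?_, fun τ => ?_⟩,
    key⟩
  · have := key _ (H.mul_mem (s1 b) (s1 a)) _ ((hγ _).mul (hγ _)) x
    rw [map_mul, s2, s2, mul_comm b a, pg_mul, ← hσ, ← hσ] at this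
    exact this
  · refine (injective_iff_map_eq_one _).2 fun a ha => ?_
    have m : γ (s a) ∈ GH N H' := hX.faith.2.1 N _ (mid hX.grp h') _
      ((mid hX.grp h).hi ((hγ _).mem.2 (s1 a))) fun x hx => by
        have := hσ a ⟨x, hx⟩
        rw [show σ a = 1 from ha] at this
        exact this.symm
    rw [← s2 a]
    exact ((hH _).1 ((hγ _).mem.1 m)).2
  · obtain ⟨g, ⟨m1, u, hu, m2⟩, e⟩ := g2 τ
    exact ⟨d u, AlgEquiv.ext fun x => Subtype.ext ((key u hu g ⟨m1, m2⟩ x).trans (e x).symm)⟩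

theorem dsc {X : Mdl} {Y : Mods} (hX : MIn X) (hL : Link X Y) : DSC Y := by
  intro N H H' j n Δ _ _ d dl h h' hj hΔ hH hs hd
  obtain ⟨c, A, e, ea, eT, ed⟩ := hL N H j h
  obtain ⟨c', A', e', ea', eT', ed'⟩ := hL N H' j h'
  have le : GH N H' ≤ GH N H := fun γ ⟨m1, u, hu, m2⟩ => ⟨m1, u, ((hH u).1 hu).1, m2⟩
  obtain ⟨io, nm, r0, -, -, -, n1, n2, -, -⟩ := hX.lev N N dvd_rfl H H' h.lv h.lv h.neg h'.neg le
    (3 ^ j) A A'
  obtain ⟨pb, p⟩ : ∃ pb : Y.A N H j →+ Y.A N H' j, ∀ y, e' (pb y) = io (e y) :=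
    ⟨AddMonoidHom.mk' (fun y => e'.symm (io (e y))) fun a b => by rw [map_add, map_add, map_add],
      fun y => e'.apply_symm_apply _⟩
  refine ⟨pb, fun l y hl => e'.injective ?_, fun u y => e'.injective ?_, fun g hg => ?_⟩
  · rw [p, eT, eT', p, (n1 l (good hl 0).1).1]
  · rw [p, ed, ed', p, ← n2, ZMod.unitsMap_self]
    rfl
  letI := algL le
  haveI := towerL le
  haveI := (hX.artin _ _ le (fidx hX.grp h')).1
  obtain ⟨_, θ, t1, t2⟩ := ex_theta hX h h' hH hs le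
  have un : IsUnr Qb (L (GH N H)) (L (GH N H')) :=
    hX.unram N _ _ le (mid hX.grp h) (mid hX.grp h') fun γ ⟨m1, u, hu, m2⟩ ht =>
      ⟨m1, u, (hH u).2 ⟨hu, by
        have a1 : d u ^ N = 1 := by rw [← map_pow, Dm.unip ⟨m1, m2⟩ ht, map_one]
        have a2 : N.Coprime (3 ^ n) :=
          ((Nat.Prime.coprime_iff_not_dvd Nat.prime_three).2 h.three).symm.pow_right n
        rw [← pow_one (d u), ← a2, pow_gcd_eq_one]
        exact ⟨a1, hΔ _⟩⟩, m2⟩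
  obtain ⟨dl', q⟩ : ∃ dl' : Δ →* AddMonoid.End (HA Qb (L (GH N H')) (3 ^ j)),
      ∀ δ y, dl' δ (e' y) = e' (dl δ y) :=
    ⟨{ toFun := fun δ => AddMonoidHom.mk' (fun y => e' (dl δ (e'.symm y))) fun a b => by
          rw [map_add, map_add, map_add]
       map_one' := AddMonoidHom.ext fun y => by
          show e' (dl 1 (e'.symm y)) = y
          rw [map_one]
          exact e'.apply_symm_apply y
       map_mul' := fun a b => AddMonoidHom.ext fun y => by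
          show e' (dl (a * b) (e'.symm y)) = e' (dl a (e'.symm (e' (dl b (e'.symm y)))))
          rw [map_mul, e'.symm_apply_apply]
          rfl },
      fun δ y => congrArg (fun z => e' (dl δ z)) (e'.symm_apply_apply y)⟩
  have st : ∀ {H₀ : Subgroup (ZMod N)ˣ}, -1 ∈ H₀ → ∀ g, ∀ x ∈ L (GH N H₀),
      X.gal g x ∈ L (GH N H₀) := fun m g x hx => (hX.hec3 N _ h.lv m x hx g).1
  obtain ⟨d1, d2, d3⟩ := desck Qb (L (GH N H)) (L (GH N H')) Δ j θ g.toRingEquiv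
    (galL (st h.neg) g) (galL (st h'.neg) g) io dl' (A.act g) (A'.act g) hj t1 un
    (fun a => Subtype.ext (hX.galx.2.1 g a)) (fun x => rfl)
    (fun δ x => Subtype.ext (by
      obtain ⟨u, hu, rfl⟩ := hs δ
      obtain ⟨γ, hγ⟩ := ex_dm h.pos.ne' u
      show X.gal g (θ (d u) x : L (GH N H')) = _
      rw [t2 u hu γ hγ, t2 u hu γ hγ]
      exact (hX.hec3 N _ h.lv h'.neg x x.2 g).2.1 γ hγ.1))
    hg ((rep_iff fun _ => rfl).1 r0)
    (fun δ => by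
      obtain ⟨u, hu, rfl⟩ := hs δ
      obtain ⟨γ, hγ⟩ := ex_dm h.pos.ne' u
      have : dl' (d u) = A'.dia u := AddMonoidHom.ext fun z => by
        obtain ⟨y, rfl⟩ := e'.surjective z
        exact (q _ y).trans ((congrArg (fun f : AddMonoid.End (Y.A N H' j) => e' (f y))
          (hd u hu)).trans (ed' u y))
      rw [this]
      exact (rep_iff fun x => t2 u hu γ hγ x).1 (A'.dia_rep u γ hγ.1 hγ.2))
    ((rep_iff fun _ => rfl).1 (A.act_rep g)) ((rep_iff fun _ => rfl).1 (A'.act_rep g))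
  have es : ∀ a b, e (a - b) = e a - e b := fun a b => map_sub e a b
  have es' : ∀ a b, e' (a - b) = e' a - e' b := fun a b => map_sub e' a b
  refine ⟨fun x hx => ?_, fun y hy => e.injective ?_, fun y hy => ?_⟩
  · obtain ⟨y, hy⟩ := d1 (e' x) fun δ => by rw [q, hx]
    obtain ⟨y, rfl⟩ := e.surjective y
    exact ⟨y, e'.injective (by rw [p, hy, es', ea'])⟩
  · rw [es, ea, map_zero]
    exact d2 _ (by rw [← p, hy, map_zero])
  · obtain ⟨w, hw⟩ := d3 (e y) (by rw [← map_nsmul, hy, map_zero])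
    obtain ⟨w, rfl⟩ := e'.surjective w
    refine ⟨w, e'.injective ?_⟩
    rw [p, es, ea, ← hw, map_nsmul, map_sum]
    simp only [q]

end In

theorem inst : INST := fun X hX hF hI h2 => by
  obtain ⟨Y, hL⟩ := In.ex_link hX
  exact ⟨Y, hL, In.lv1 hX hF hL, In.b3 hL, In.igu hI hL, In.deg hX h2 hL, In.dsc hX hL⟩

theorem twk : TWK := fun hW hF hO X hX h1 h2 h3 N ρ a ε hR hT => by
  obtain ⟨Y, hL, hY⟩ := inst X hX h1 h2 h3
  exact out_of_link hL hR.ok (hW hF hO Y N ρ a ε hY hR (the_of_link hL hR.ok hT))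

end Vale.Agent.P027M.TW
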