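import Vale.Agent.P027M.TW.Tow

/-! # P027 route M, row TW.SPL -/

namespace Vale.Agent.P027M.TW.Spl

theorem ex_om {p : ℕ} (hp : p.Prime) (h8 : p % 8 = 1) : ∃ ω : (ZMod p)ˣ, ω ^ 4 = -1 := by
  have := Fact.mk hp
  obtain ⟨g, hg⟩ := IsCyclic.exists_ofOrder_eq_natCard (α := (ZMod p)ˣ)
  rw [Nat.card_eq_fintype_card, ZMod.card_units] at hg
  have h2 := hp.two_le
  refine ⟨g ^ (p / 8), ?_⟩
  have h1 : ((g ^ (p / 8)) ^ 4) ^ 2 = 1 := by
    rw [← pow_mul, ← pow_mul, show p / 8 * (4 * 2) = orderOf g by omega, pow_orderOf_eq_one]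
  have h3 : (g ^ (p / 8)) ^ 4 ≠ 1 := by
    rw [← pow_mul]
    exact pow_ne_one_of_lt_orderOf (by omega) (by omega)
  have h4 := congrArg Units.val h1
  rw [Units.val_pow_eq_pow_val, Units.val_one, sq_eq_one_iff] at h4
  exact Units.ext (h4.resolve_left fun e => h3 (Units.ext e))

theorem fst_eq {M p : ℕ} (h : M.Coprime p) (x : ZMod (M * p)) :
    (ZMod.chineseRemainder h x).1 = ZMod.castHom (dvd_mul_right M p) (ZMod M) x :=
  DFunLike.congr_fun (RingHom.ext_zmod ((RingHom.fst _ _).comp (ZMod.chineseRemainder h).toRingHom)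
    (ZMod.castHom (dvd_mul_right M p) (ZMod M))) x

theorem snd_eq {M p : ℕ} (h : M.Coprime p) (x : ZMod (M * p)) :
    (ZMod.chineseRemainder h x).2 = ZMod.castHom (dvd_mul_left p M) (ZMod p) x :=
  DFunLike.congr_fun (RingHom.ext_zmod ((RingHom.snd _ _).comp (ZMod.chineseRemainder h).toRingHom)
    (ZMod.castHom (dvd_mul_left p M) (ZMod p))) x

theorem crt_inj {M p : ℕ} (h : M.Coprime p) {u v : (ZMod (M * p))ˣ}
    (h1 : ZMod.unitsMap (dvd_mul_right M p) u = ZMod.unitsMap (dvd_mul_right M p) v)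
    (h2 : ZMod.unitsMap (dvd_mul_left p M) u = ZMod.unitsMap (dvd_mul_left p M) v) : u = v := by
  refine Units.ext ((ZMod.chineseRemainder h).injective (Prod.ext ?_ ?_))
  · rw [fst_eq, fst_eq]; exact congrArg Units.val h1
  · rw [snd_eq, snd_eq]; exact congrArg Units.val h2

theorem crt_ex {M p : ℕ} (h : M.Coprime p) (a : (ZMod M)ˣ) (b : (ZMod p)ˣ) :
    ∃ y : (ZMod (M * p))ˣ, ZMod.unitsMap (dvd_mul_right M p) y = a ∧
      ZMod.unitsMap (dvd_mul_left p M) y = b := by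
  refine ⟨Units.map (ZMod.chineseRemainder h).symm.toMonoidHom (MulEquiv.prodUnits.symm (a, b)),
    Units.ext ?_, Units.ext ?_⟩
  · exact (fst_eq h _).symm.trans (congrArg Prod.fst ((ZMod.chineseRemainder h).apply_symm_apply _))
  · exact (snd_eq h _).symm.trans (congrArg Prod.snd ((ZMod.chineseRemainder h).apply_symm_apply _))

theorem spl : Spec_SPL := by
  intro M p _ hp h8 hM h hh u h1 h2
  have hc : M.Coprime p := ((Nat.Prime.coprime_iff_not_dvd hp).2 hM).symm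
  obtain ⟨ω, hω⟩ := ex_om hp h8
  obtain ⟨z, hz⟩ : ∃ z : (ZMod p)ˣ, ZMod.unitsMap (dvd_mul_left p M) h = z ^ 4 := by
    obtain ⟨x, rfl | rfl⟩ := hh
    · exact ⟨_, map_pow _ _ _⟩
    · refine ⟨ω * ZMod.unitsMap (dvd_mul_left p M) x, ?_⟩
      rw [mul_pow, hω, ← map_pow, ← neg_one_mul, map_mul]
      congr 1
      exact Units.ext (by simp [ZMod.unitsMap_def])
  obtain ⟨y, h3, h4⟩ := crt_ex hc 1 z
  exact ⟨y, Or.inl (crt_inj hc (by rw [h1, map_pow, h3, one_pow]) (by rw [h2, hz, map_pow, h4]))⟩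

end Vale.Agent.P027M.TW.Spl
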