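import Vale.Agent.P027M.TW.Eig
import Vale.Agent.P027M.TW.InDef

/-! # P027 route M, block TW: the eigen-homomorphism from Kummer classes -/

set_option linter.all false

noncomputable section

namespace Vale.Agent.P027M.TW

open Vale.Agent.P022 Vale.Agent.P022.H231.L3 Vale.Agent.P019P Vale.Agent.P027M.M
open scoped MatrixGroups

/-- the bridge `KAP` on Kummer classes -/
def InKAP (X : Mdl) (N : ℕ) (H : Subgroup (ZMod N)ˣ) : Prop := ∀ j, 1 ≤ j →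
  ∀ [CFF Qb (L (GH N H))] (A : Act X N H (3 ^ j)), ∃ (Y : Type) (_ : AddCommGroup Y)
    (κ : HA Qb (L (GH N H)) (3 ^ j) →+ (SL(2, ℤ) → Y)),
    (∀ x, AddOn (GH N H) (κ x)) ∧ (∀ x, Par (GH N H) (κ x)) ∧
    (∀ x, (∀ γ ∈ GH N H, κ x γ = 0) → x = 0) ∧
    ∀ l, GoodP N l → ∀ x, Hec N (GH N H) l (κ x) (κ (A.T l x))

theorem outH_ofK {X : Mdl} {N : ℕ} {a : ℕ → O3} (hO : OutK X N a) (hK : InKAP X N (H4 N)) :
    OutH N (GH N (H4 N)) a := by
  intro B v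
  obtain ⟨j, hj, _, A, φ, hφ, z, hv⟩ := hO B v
  obtain ⟨Y, _, κ, ha, hp, hi, hh⟩ := hK j hj A
  refine ⟨j, Y, inferInstance, κ.comp φ, fun z => ha _, fun z => hp _, fun l hl hG z => ?_, z, ?_⟩
  · have e := hh l hG (φ z)
    rw [hφ l hl hG] at e
    exact e
  · by_contra hc
    push Not at hc
    apply hv
    rw [← map_nsmul, nsmul_eq_mul, Nat.cast_pow, Nat.cast_ofNat]
    exact hi _ hc

theorem finIdx (h : GRP) {N : ℕ} {H : Subgroup (ZMod N)ˣ} (hN : Ok N H) : (GH N H).FiniteIndex :=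
  haveI := (h N hN.lv).1
  Subgroup.finiteIndex_of_le (((h N hN.lv).2.2.2.2.2.2.2 H).2.1 hN.neg).lo

/-- **EIG over `ℂ`** -/
theorem eigK (h : GRP) {X : Mdl} {N : ℕ} {a : ℕ → O3} (hN : Ok N (H4 N)) (hO : OutK X N a)
    (hK : InKAP X N (H4 N)) {G : ℕ → Prop} (hG : ∀ l, G l → GoodP N l) (b : ℕ → QO ℤ)
    (hb : ∀ l, G l → a l = glob (b l)) : EIGo N (GH N (H4 N)) G fun l => toC (b l) :=
  haveI := finIdx h hN
  eig_glob_off toC toC_inj (outH_ofK hO hK) hG b hb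

end Vale.Agent.P027M.TW
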