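import Vale.Agent.P027M.TW.InC
import Vale.Agent.P027M.TW.Cy
import Vale.Agent.P027M.G.Mod0
import Vale.Agent.P027M.D.Font
import Vale.Agent.P027M.D.Fla
import Vale.Agent.P027M.D.GeoAll
import Vale.Agent.P027M.D.Over

/-! # P027 route M, block TW: the condition at `3` for the modular curves -/

set_option linter.all false

noncomputable section

namespace Vale.Agent.P027M.TW

open NumberField Vale.Agent.P022 Vale.Agent.P019P Vale.Agent.P027M.M P025H816

theorem ov3 : OV3 := by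
  obtain ⟨⟨P, p1, p2⟩, -⟩ := cy.1 3 Nat.prime_three
  obtain ⟨O, h, -⟩ := D.over_ok 3 P Nat.prime_three p1 p2
  exact ⟨P, O, p1, by exact_mod_cast p2, h⟩

theorem font0 : FONT := fun P O Γ w p1 p2 p3 hB hw _ F hF y hy =>
  ⟨D.font P O Γ w y F p1 p2 p3 hw hB.opn hB.nrm hB.two hF hy 4 (Or.inl rfl),
    D.font P O Γ w y F p1 p2 p3 hw hB.opn hB.nrm hB.two hF hy 2 (Or.inr rfl)⟩

theorem flm0 : D.Spec_FLM := by
  intro F _ _ _ O I r m M _ q a h h1 h2 h3 h4 χ x
  obtain ⟨f, hf, rfl⟩ := h3 x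
  convert h (fun g => χ (q g)) (fun f hf g hg => by rw [h1 f hf g hg, χ.map_add_eq_mul])
    (fun f hf => by rw [h2 f hf, χ.map_zero_eq_one]) f hf using 2 with σ
  rw [h4 σ σ.2 f hf]

theorem inFL {X : Mdl} (hX : MIn X) (hA : G.ATLM X) : InFL X := by
  classical
  intro N H j h _ _ A P O p1 p2 p3
  obtain ⟨O', o1, o2, o3, -⟩ := D.over_ok 3 P Nat.prime_three p1 (by exact_mod_cast p2)
  obtain rfl : O = O' := ValuationSubring.ext _ _ fun x => (p3 x).trans (o1 x).symm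
  have st : ∀ g, ∀ x ∈ L (GH N H), X.gal g x ∈ L (GH N H) := fun g x hx =>
    (hX.hec3 N _ h.lv h.neg x hx g).1
  have k := D.fla D.rep0 _ O (D.inr P) (In.galL st) o2
    (fun σ _ c => Subtype.ext (hX.galx.2.1 σ c))
    (hA N _ (In.mid hX.grp h) O 3 Nat.prime_three o3 h.three _ _ o2 fun _ _ _ => rfl) (3 ^ j)
    (by positivity)
  refine flm0 _ O _ _ _ (HA Qb (L (GH N H)) (3 ^ j))
    (fun f => if hf : f ∈ divU Qb (L (GH N H)) (3 ^ j) then cl f hf else 0) _ k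
    (fun f hf g hg => ?_) (fun f hf => ?_) (fun y => ?_) fun σ _ f hf => ?_
  · rw [dif_pos hf, dif_pos hg, dif_pos (mul_mem hf hg), cl_mul]
  · rw [dif_pos (powU_le _ hf), cl_eq_zero]
    exact hf
  · obtain ⟨f, hf, rfl⟩ := cl_surj y
    exact ⟨f, hf, dif_pos hf⟩
  · obtain ⟨hy, e⟩ := (rep_iff (u := P027M.K.mU (In.galL st σ)) fun _ => rfl).1 (A.act_rep σ) f hf
    rw [dif_pos hf]
    exact e.trans (dif_pos hy).symm

end Vale.Agent.P027M.TW
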