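import Vale.Agent.P027M.TW.Defs

/-! # P027 route M, row TW.GEN: generators of the prime of `ρ` -/

set_option linter.all false

noncomputable section

namespace Vale.Agent.P027M.TW

theorem Coef.unit {Λ k : Type} [CommRing Λ] [Field k] {red : Λ →+* k} {j : ℕ} (h : Coef red j)
    {a : Λ} (ha : red a ≠ 0) : IsUnit a := by
  obtain ⟨b, hb⟩ := h.surj (red a)⁻¹
  have h1 : IsNilpotent (a * b - 1) := h.nil _ (by
    rw [map_sub, map_mul, hb, mul_inv_cancel₀ ha, map_one, sub_self])
  have h2 : IsUnit (a * b) := by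
    have := h1.isUnit_add_one
    rwa [sub_add_cancel] at this
  exact isUnit_of_mul_isUnit_left h2

theorem Coef.red_three {Λ k : Type} [CommRing Λ] [Field k] {red : Λ →+* k} {j : ℕ}
    (h : Coef red j) : (3 : k) = 0 := by
  have h1 := congrArg red h.three
  rw [map_pow, map_zero, map_ofNat] at h1
  exact pow_eq_zero_iff_of_ne_zero_aux h1
where
  pow_eq_zero_iff_of_ne_zero_aux {k : Type} [Field k] {j : ℕ} (h1 : (3 : k) ^ j = 0) :
      (3 : k) = 0 := eq_zero_of_pow_eq_zero h1

theorem Coef.two_unit {Λ k : Type} [CommRing Λ] [Field k] {red : Λ →+* k} {j : ℕ}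
    (h : Coef red j) : IsUnit (2 : Λ) := by
  refine h.unit ?_
  rw [map_ofNat]
  intro h2
  have h3 := h.red_three
  have : (1 : k) = 0 := by linear_combination h3 - h2
  exact one_ne_zero this

/-- the abstract form with the rings `R` and `A` given -/
theorem gen1 (hG : Spec_GMA) (hT : Spec_TAN) (hN : Spec_NAK) (hC : Spec_CONJ)
    {G Λ k R A : Type} [Group G] [CommRing Λ] [Field k] [CommRing R] [Finite R] [Ring A]
    [Algebra Λ R] [Algebra R A] [Algebra Λ A] [IsScalarTower Λ R A]
    (red : Λ →+* k) (j r : ℕ) (π : G →* A) (ρ : G →* M2 Λ) (τ : G → R) (U : Subgroup G)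
    (Fl : (G → ZMod 3) → Prop) (Z : Set G) (c : G) (pr : A →ₐ[Λ] M2 Λ) (hco : Coef red j)
    (hinj : Function.Injective (algebraMap R A))
    (hτ : ∀ g, π g + (ρ g).det • π g⁻¹ = algebraMap R A (τ g))
    (hR : ∀ z : R, z ∈ Algebra.adjoin Λ (Set.range τ))
    (hA : ∀ x : A, x ∈ Submodule.span Λ (Set.range π)) (hpr : ∀ g, pr (π g) = ρ g)
    (hnil : ∀ g, IsNilpotent (τ g - algebraMap Λ R (ρ g).trace))
    (hcc : c * c = 1) (hdet : (ρ c).det = -1)
    (hsp : ∀ m : M2 k, m ∈ Submodule.span k (Set.range fun g => (ρ g).map red))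
    (hU : ∀ u ∈ U, π u = 1) (hFl : ∀ f : A →+ ZMod 3, Fl fun g => f (π g) - f 1)
    (hZ : ∀ z ∈ Z, τ z = algebraMap Λ R (ρ z).trace) (hS : SEL (redRep red ρ) U Fl Z r) :
    ∃ x : Fin r → R, (∀ i, IsNilpotent (x i)) ∧
      (∀ g, ∃ y : Fin r → R, τ g - algebraMap Λ R (ρ g).trace = ∑ i, y i * x i) ∧
      ∀ g, ρ g = 1 → ∃ y : Fin r → A, π g - 1 = ∑ i, y i * algebraMap R A (x i) := by
  classical
  have htow : ∀ a : Λ, algebraMap R A (algebraMap Λ R a) = algebraMap Λ A a := fun a =>
    (IsScalarTower.algebraMap_apply Λ R A a).symm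
  -- the image of `R` is scalar
  have hch : ∀ g, ρ g + (ρ g).det • ρ g⁻¹ = algebraMap Λ (M2 Λ) (ρ g).trace := by
    intro g
    have h1 : ρ g * ρ g⁻¹ = 1 := by rw [← map_mul, mul_inv_cancel, map_one]
    have h2 : (ρ g).det • ρ g⁻¹ = (ρ g).adjugate := by
      calc (ρ g).det • ρ g⁻¹ = ((ρ g).adjugate * ρ g) * ρ g⁻¹ := by
            rw [Matrix.adjugate_mul, smul_mul_assoc, one_mul]
        _ = _ := by rw [mul_assoc, h1, mul_one]
    rw [h2, Matrix.adjugate_fin_two, Matrix.trace_fin_two]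
    ext a b
    fin_cases a <;> fin_cases b <;> simp [Matrix.algebraMap_matrix_apply, add_comm]
  have hsc : ∀ z : R, ∃ a : Λ, pr (algebraMap R A z) = algebraMap Λ (M2 Λ) a ∧
      IsNilpotent (z - algebraMap Λ R a) := by
    intro z
    induction hR z using Algebra.adjoin_induction with
    | mem z hz =>
      obtain ⟨g, rfl⟩ := hz
      refine ⟨(ρ g).trace, ?_, hnil g⟩
      rw [← hτ, map_add, map_smul, hpr, hpr, hch]
    | algebraMap a => exact ⟨a, by rw [htow, AlgHom.commutes], by simp⟩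
    | add y z _ _ hy hz =>
      obtain ⟨a, h1, h2⟩ := hy
      obtain ⟨b, h3, h4⟩ := hz
      refine ⟨a + b, by rw [map_add, map_add, h1, h3, map_add], ?_⟩
      have : y + z - algebraMap Λ R (a + b) = (y - algebraMap Λ R a) + (z - algebraMap Λ R b) := by
        rw [map_add]; ring
      rw [this]
      exact (Commute.all _ _).isNilpotent_add h2 h4
    | mul y z _ _ hy hz =>
      obtain ⟨a, h1, h2⟩ := hy
      obtain ⟨b, h3, h4⟩ := hz
      refine ⟨a * b, by rw [map_mul, map_mul, h1, h3, map_mul], ?_⟩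
      have : y * z - algebraMap Λ R (a * b) =
          (y - algebraMap Λ R a) * z + algebraMap Λ R a * (z - algebraMap Λ R b) := by
        rw [map_mul]; ring
      rw [this]
      exact (Commute.all _ _).isNilpotent_add ((Commute.all _ _).isNilpotent_mul_right h2)
        ((Commute.all _ _).isNilpotent_mul_left h4)
  have hent : ∀ a : Λ, algebraMap Λ (M2 Λ) a 0 0 = a := fun a => by
    simp [Matrix.algebraMap_matrix_apply]
  let lam : R →+* Λ :=
    { toFun := fun z => pr (algebraMap R A z) 0 0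
      map_one' := by simp
      map_zero' := by simp
      map_add' := fun y z => by rw [map_add, map_add, Matrix.add_apply]
      map_mul' := fun y z => by
        obtain ⟨a, h1, -⟩ := hsc y
        obtain ⟨b, h3, -⟩ := hsc z
        rw [map_mul, map_mul, h1, h3, ← map_mul, hent, hent, hent] }
  have hlam : ∀ z : R, pr (algebraMap R A z) = algebraMap Λ (M2 Λ) (lam z) ∧
      IsNilpotent (z - algebraMap Λ R (lam z)) := by
    intro z
    obtain ⟨a, h1, h2⟩ := hsc z
    have : lam z = a := by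
      show pr (algebraMap R A z) 0 0 = a
      rw [h1, hent]
    rw [this]
    exact ⟨h1, h2⟩
  have hlama : ∀ a, lam (algebraMap Λ R a) = a := fun a => by
    show pr (algebraMap R A (algebraMap Λ R a)) 0 0 = a
    rw [htow, AlgHom.commutes, hent]
  have hunit : ∀ z, red (lam z) ≠ 0 → IsUnit z := by
    intro z hz
    have h1 : IsUnit (algebraMap Λ R (lam z)) := (hco.unit hz).map _
    have h2 := (hlam z).2.isUnit_add_left_of_commute h1 (Commute.all _ _)
    rwa [add_sub_cancel] at h2
  have hlamτ : ∀ g, lam (τ g) = (ρ g).trace := fun g => by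
    show pr (algebraMap R A (τ g)) 0 0 = _
    rw [← hτ, map_add, map_smul, hpr, hpr, hch, hent]
  -- diagonalise `c`
  obtain ⟨P, Q, hPQ, hQP, hdiag⟩ := hC.2.1 Λ k red j hco (ρ c)
    (by rw [← map_mul, hcc, map_one]) hdet
  let pr' : A →+* M2 Λ :=
    { toFun := fun x => Q * pr x * P
      map_one' := by rw [map_one, mul_one, hQP]
      map_zero' := by simp
      map_add' := fun x y => by rw [map_add, mul_add, add_mul]
      map_mul' := fun x y => by
        rw [map_mul]
        calc Q * (pr x * pr y) * P = Q * pr x * (P * Q) * pr y * P := by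
              rw [hPQ]; simp only [mul_one, mul_assoc]
          _ = _ := by simp only [mul_assoc] }
  have hpr' : ∀ x, pr' x = Q * pr x * P := fun _ => rfl
  have hsurj : Function.Surjective pr' := by
    intro m
    have h1 := hC.2.2 G Λ k red j hco ρ hsp (P * m * Q)
    have h2 : ∀ m' ∈ Submodule.span Λ (Set.range ρ), ∃ x, pr x = m' := by
      intro m' hm'
      induction hm' using Submodule.span_induction with
      | mem m hm =>
        obtain ⟨g, rfl⟩ := hm
        exact ⟨π g, hpr g⟩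
      | zero => exact ⟨0, map_zero _⟩
      | add a b _ _ ha hb =>
        obtain ⟨x, rfl⟩ := ha
        obtain ⟨y, rfl⟩ := hb
        exact ⟨x + y, map_add _ _ _⟩
      | smul a b _ hb =>
        obtain ⟨y, rfl⟩ := hb
        exact ⟨a • y, map_smul _ _ _⟩
    obtain ⟨x, hx⟩ := h2 _ h1
    refine ⟨x, ?_⟩
    rw [hpr', hx]
    calc Q * (P * m * Q) * P = (Q * P) * m * (Q * P) := by simp only [mul_assoc]
      _ = m := by rw [hQP, one_mul, mul_one]
  let δ : G →* R := (algebraMap Λ R).toMonoidHom.comp (Matrix.detMonoidHom.comp ρ)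
  have hδ : ∀ g, δ g = algebraMap Λ R (ρ g).det := fun _ => rfl
  have h2R : IsUnit (2 : R) := by
    have := hco.two_unit.map (algebraMap Λ R)
    rwa [map_ofNat] at this
  obtain ⟨Φ, E, hbij, hΦ, htr, hdt, hE⟩ := hG G R A Λ π τ δ c lam pr' hinj h2R
    (fun g => by rw [hδ, algebraMap_smul, hτ])
    (fun x => by
      induction hA x using Submodule.span_induction with
      | mem m hm => exact Submodule.subset_span hm
      | zero => exact zero_mem _
      | add a b _ _ ha hb => exact add_mem ha hb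
      | smul a b _ hb =>
        rw [← algebraMap_smul R a b]
        exact Submodule.smul_mem _ _ hb)
    hcc (by rw [hδ, hdet, map_neg, map_one])
    (fun z => by
      rw [hpr', (hlam z).1, ← Algebra.commutes, mul_assoc, hQP, mul_one]
      rfl)
    hsurj (by rw [hpr', hpr, hdiag])
    (fun z hz => hunit z (by rw [hz, map_one]; exact one_ne_zero))
  let Φρ : G →* M2 R := (Φ : A →* M2 R).comp π
  have hΦρ : ∀ g, Φρ g = Φ (π g) := fun _ => rfl
  have hred : ∀ g, redRep (red.comp lam) Φρ g = Q.map red * redRep red ρ g * P.map red := by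
    intro g
    rw [redRep_apply, redRep_apply, hΦρ, ← Matrix.map_mul, ← Matrix.map_mul, ← hpr, ← hpr', ← hΦ,
      Matrix.map_map]
    rfl
  have hS' : SEL (redRep (red.comp lam) Φρ) U Fl Z r :=
    hC.1 G k (redRep red ρ) _ (P.map red) (Q.map red) U Fl Z r
      (by rw [← Matrix.map_mul, hPQ, Matrix.map_one _ (map_zero red) (map_one red)]) hred hS
  have hDer : DerDep Λ (red.comp lam) r := by
    refine hT G Λ R k (red.comp lam) Φρ U Fl Z r ?_ ?_ ?_ ?_ ?_ hS'
    · intro z
      have : (fun g => (Φρ g).trace) = τ := funext fun g => htr g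
      rw [this]
      exact hR z
    · exact fun g => ⟨(ρ g).det, by rw [hΦρ, hdt, hδ]⟩
    · intro u hu
      rw [hΦρ, hU u hu, map_one]
    · intro f
      have := hFl (f.comp (Φ : A →+* M2 R).toAddMonoidHom)
      simpa [hΦρ] using this
    · exact fun z hz => ⟨(ρ z).trace, by rw [hΦρ, htr, hZ z hz]⟩
  obtain ⟨x, hx⟩ := hN Λ R k lam red r hlama hunit hDer
  have hker : ∀ z, lam z = 0 → ∃ y : Fin r → R, z = ∑ i, y i * x i := by
    intro z hz
    have h1 : z ∈ Ideal.span (Set.range x) := by rw [hx]; exact hz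
    obtain ⟨y, hy⟩ := Ideal.mem_span_range_iff_exists_fun.1 h1
    exact ⟨y, hy.symm⟩
  refine ⟨x, fun i => ?_, fun g => hker _ (by rw [map_sub, hlamτ, hlama, sub_self]), ?_⟩
  · have h1 : x i ∈ RingHom.ker lam := by
      rw [← hx]; exact Ideal.subset_span ⟨i, rfl⟩
    have h2 := (hlam (x i)).2
    rwa [RingHom.mem_ker.1 h1, map_zero, sub_zero] at h2
  · intro g hg
    have h1 : ∀ a b, lam (Φ (π g - 1) a b) = 0 := by
      intro a b
      have h2 := hΦ (π g - 1)
      rw [hpr', map_sub pr, hpr, hg, map_one, sub_self, mul_zero, zero_mul] at h2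
      exact congrFun (congrFun h2 a) b
    choose y hy using fun a b => hker _ (h1 a b)
    refine ⟨fun i => ∑ a, ∑ b, y a b i • E a b, ?_⟩
    rw [hE (π g - 1)]
    simp only [hy, Finset.sum_smul, Finset.sum_mul]
    rw [Finset.sum_comm (s := (Finset.univ : Finset (Fin r)))]
    refine Finset.sum_congr rfl fun a _ => ?_
    rw [Finset.sum_comm (s := (Finset.univ : Finset (Fin r)))]
    refine Finset.sum_congr rfl fun b _ => Finset.sum_congr rfl fun i _ => ?_
    rw [← Algebra.commutes, ← Algebra.smul_def, smul_smul, mul_comm]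

open scoped IsMulCommutative in
/-- the abstract form with the ring `A` given -/
theorem gen0 (hG : Spec_GMA) (hT : Spec_TAN) (hN : Spec_NAK) (hC : Spec_CONJ)
    {G Λ k A : Type} [Group G] [CommRing Λ] [Field k] [Ring A] [Finite A] [Algebra Λ A]
    (red : Λ →+* k) (j r : ℕ) (π : G →* A) (ρ : G →* M2 Λ) (τ : G → A) (U : Subgroup G)
    (Fl : (G → ZMod 3) → Prop) (Z : Set G) (c : G) (pr : A →ₐ[Λ] M2 Λ) (hco : Coef red j)
    (hτ : ∀ g, π g + (ρ g).det • π g⁻¹ = τ g) (hcen : ∀ g x, τ g * x = x * τ g)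
    (hA : ∀ x : A, x ∈ Submodule.span Λ (Set.range π)) (hpr : ∀ g, pr (π g) = ρ g)
    (hnil : ∀ g, IsNilpotent (τ g - algebraMap Λ A (ρ g).trace))
    (hcc : c * c = 1) (hdet : (ρ c).det = -1)
    (hsp : ∀ m : M2 k, m ∈ Submodule.span k (Set.range fun g => (ρ g).map red))
    (hU : ∀ u ∈ U, π u = 1) (hFl : ∀ f : A →+ ZMod 3, Fl fun g => f (π g) - f 1)
    (hZ : ∀ z ∈ Z, τ z = algebraMap Λ A (ρ z).trace) (hS : SEL (redRep red ρ) U Fl Z r) :
    ∃ x : Fin r → A, (∀ i, IsNilpotent (x i)) ∧ (∀ i y, x i * y = y * x i) ∧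
      (∀ g, ∃ y : Fin r → A, τ g - algebraMap Λ A (ρ g).trace = ∑ i, y i * x i) ∧
      ∀ g, ρ g = 1 → ∃ y : Fin r → A, π g - 1 = ∑ i, y i * x i := by
  let R : Subalgebra Λ A := Algebra.adjoin Λ (Set.range τ)
  haveI : IsMulCommutative R := Algebra.isMulCommutative_adjoin Λ (by
    rintro _ ⟨g, rfl⟩ y -
    exact hcen g y)
  have hc : ∀ (z : R) (y : A), (z : A) * y = y * z := by
    rintro ⟨z, hz⟩ y
    exact (Algebra.commute_of_mem_adjoin_of_forall_mem_commute hz (by
      rintro _ ⟨g, rfl⟩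
      exact (hcen g y).symm)).eq.symm
  letI : Algebra R A := RingHom.toAlgebra' R.val.toRingHom hc
  have hal : ∀ z : R, algebraMap R A z = (z : A) := fun _ => rfl
  haveI : @IsScalarTower Λ R A Algebra.toSMul Algebra.toSMul Algebra.toSMul :=
    IsScalarTower.of_algebraMap_eq fun _ => rfl
  let τ' : G → R := fun g => ⟨τ g, Algebra.subset_adjoin ⟨g, rfl⟩⟩
  obtain ⟨x, h1, h2, h3⟩ := gen1 hG hT hN hC (R := R) red j r π ρ τ' U Fl Z c pr hco
    Subtype.val_injective hτ
    (by
      rintro ⟨z, hz⟩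
      induction hz using Algebra.adjoin_induction with
      | mem z hz =>
        obtain ⟨g, rfl⟩ := hz
        exact Algebra.subset_adjoin ⟨g, rfl⟩
      | algebraMap a => exact Subalgebra.algebraMap_mem _ a
      | add y z hy hz iy iz => exact add_mem iy iz
      | mul y z hy hz iy iz => exact mul_mem iy iz)
    hA hpr
    (fun g => by
      obtain ⟨n, hn⟩ := hnil g
      exact ⟨n, Subtype.ext (by simpa [τ'] using hn)⟩)
    hcc hdet hsp hU hFl (fun z hz => Subtype.ext (hZ z hz)) hS
  refine ⟨fun i => x i, fun i => (h1 i).map R.val, fun i y => hc (x i) y, fun g => ?_, h3⟩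
  obtain ⟨y, hy⟩ := h2 g
  refine ⟨fun i => y i, ?_⟩
  have := congrArg R.val hy
  rw [map_sub, map_sum] at this
  simpa [τ'] using this

/-- **row GEN** -/
theorem gen : Spec_GEN := by
  intro hG hT hN hC G Λ k H _ _ _ _ _ _ red j r π ρ U Fl Z c hco hCH hcc hdet hsp hU hFl hZ hS
  classical
  haveI := hco.fin
  haveI : Finite (Module.End Λ H) := Finite.of_injective _ DFunLike.coe_injective
  let πW : G →* Module.End Λ H × M2 Λ := π.prod ρ
  let A : Subalgebra Λ (Module.End Λ H × M2 Λ) := Algebra.adjoin Λ (Set.range πW)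
  let πA : G →* A := πW.codRestrict A fun g => Algebra.subset_adjoin ⟨g, rfl⟩
  have hπA : ∀ g, (πA g : Module.End Λ H × M2 Λ) = (π g, ρ g) := fun _ => rfl
  let τ : G → A := fun g => πA g + (ρ g).det • πA g⁻¹
  have hch : ∀ g, ρ g + (ρ g).det • ρ g⁻¹ = algebraMap Λ (M2 Λ) (ρ g).trace := by
    intro g
    have h1 : ρ g * ρ g⁻¹ = 1 := by rw [← map_mul, mul_inv_cancel, map_one]
    have h2 : (ρ g).det • ρ g⁻¹ = (ρ g).adjugate := by
      calc (ρ g).det • ρ g⁻¹ = ((ρ g).adjugate * ρ g) * ρ g⁻¹ := by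
            rw [Matrix.adjugate_mul, smul_mul_assoc, one_mul]
        _ = _ := by rw [mul_assoc, h1, mul_one]
    rw [h2, Matrix.adjugate_fin_two, Matrix.trace_fin_two]
    ext a b
    fin_cases a <;> fin_cases b <;> simp [Matrix.algebraMap_matrix_apply, add_comm]
  have hτ : ∀ g, (τ g : Module.End Λ H × M2 Λ) =
      (tau π ρ g, algebraMap Λ (M2 Λ) (ρ g).trace) := fun g => Prod.ext rfl (hch g)
  have hcomm : ∀ (f : Module.End Λ H × M2 Λ), (∀ g, Commute f (πW g)) → ∀ x : A, Commute f x := by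
    rintro f hf ⟨x, hx⟩
    exact Algebra.commute_of_mem_adjoin_of_forall_mem_commute hx (by
      rintro _ ⟨g, rfl⟩
      exact hf g)
  have hA : ∀ x : A, x ∈ Submodule.span Λ (Set.range πA) := by
    rintro ⟨x, hx⟩
    have hm : ∀ y ∈ Submodule.span Λ (Set.range πA), ∀ z ∈ Submodule.span Λ (Set.range πA),
        y * z ∈ Submodule.span Λ (Set.range πA) := by
      intro y hy z hz
      have := Submodule.mul_mem_mul hy hz
      rw [Submodule.span_mul_span] at this
      refine Submodule.span_mono ?_ this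
      rintro _ ⟨_, ⟨g, rfl⟩, _, ⟨h, rfl⟩, rfl⟩
      exact ⟨g * h, map_mul _ _ _⟩
    induction hx using Algebra.adjoin_induction with
    | mem z hz =>
      obtain ⟨g, rfl⟩ := hz
      exact Submodule.subset_span ⟨g, rfl⟩
    | algebraMap a =>
      have h1 : (⟨algebraMap Λ _ a, Subalgebra.algebraMap_mem A a⟩ : A) = a • πA 1 := by
        rw [map_one, ← Algebra.algebraMap_eq_smul_one]
        rfl
      rw [h1]
      exact Submodule.smul_mem _ _ (Submodule.subset_span ⟨1, rfl⟩)
    | add y z hy hz iy iz => exact add_mem iy iz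
    | mul y z hy hz iy iz => exact hm _ iy _ iz
  let pr : A →ₐ[Λ] M2 Λ := (AlgHom.snd Λ _ _).comp A.val
  -- the embedding of `A` in a power of `H × Λ²`
  letI : Fintype (H × (Fin 2 → Λ)) := Fintype.ofFinite _
  let em : A →+ (H × (Fin 2 → Λ) → H × (Fin 2 → Λ)) :=
    { toFun := fun x w => (x.1.1 w.1, x.1.2.mulVec w.2)
      map_zero' := by
        funext w
        simp
      map_add' := fun x y => by
        funext w
        simp [Matrix.add_mulVec] }
  have hem : Function.Injective em := by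
    rw [injective_iff_map_eq_zero]
    intro x hx
    refine Subtype.ext (Prod.ext (LinearMap.ext fun h => ?_) ?_)
    · exact congrArg Prod.fst (congrFun hx (h, 0))
    · refine Matrix.ext_of_mulVec_single fun i => ?_
      have h5 : x.1.2.mulVec (Pi.single i 1) = 0 :=
        congrArg Prod.snd (congrFun hx (0, Pi.single i 1))
      rw [h5]
      exact (Matrix.zero_mulVec _).symm
  have hact : ∀ g (x : A), actW π ρ g (em x) = em (πA g * x) := by
    intro g x
    funext w
    refine Prod.ext rfl ?_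
    show (ρ g).mulVec (x.1.2.mulVec w.2) = (ρ g * x.1.2).mulVec w.2
    rw [Matrix.mulVec_mulVec]
  have hFl' : ∀ f : A →+ ZMod 3, Fl fun g => f (πA g) - f 1 := by
    intro f
    have hB : ∀ g, ∀ b ∈ em.range, actW π ρ g b ∈ em.range := by
      rintro g _ ⟨x, rfl⟩
      exact ⟨_, (hact g x).symm⟩
    let e : A ≃+ em.range := AddMonoidHom.ofInjective hem
    have he : ∀ x : A, (e x : H × (Fin 2 → Λ) → H × (Fin 2 → Λ)) = em x := fun _ => rfl
    have h1 := hFl _ em.range hB (f.comp e.symm.toAddMonoidHom) (e 1)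
    have h2 : ∀ g, (⟨actW π ρ g (e 1), hB g _ (e 1).2⟩ : em.range) = e (πA g) := fun g =>
      Subtype.ext (by
        show actW π ρ g (em 1) = em (πA g)
        rw [hact, mul_one])
    simpa [h2] using h1
  obtain ⟨x, h1, h2, h3, h4⟩ := gen0 hG hT hN hC red j r πA ρ τ U Fl Z c pr hco (fun _ => rfl)
    (fun g x => Subtype.ext (hcomm (τ g) (fun h => by
      rw [hτ]
      exact Prod.ext ((hCH g).1 h).eq (Algebra.commutes _ _)) x).eq)
    hA (fun _ => rfl)
    (fun g => by
      obtain ⟨n, hn⟩ := (hCH g).2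
      refine ⟨n + 1, Subtype.ext ?_⟩
      have h5 : ((τ g - algebraMap Λ A (ρ g).trace : A) : Module.End Λ H × M2 Λ) =
          (tau π ρ g - algebraMap Λ _ (ρ g).trace, 0) := by
        rw [Subalgebra.coe_sub, hτ]
        exact Prod.ext rfl (sub_self _)
      rw [Subalgebra.coe_pow, h5]
      exact Prod.ext (by simp [pow_succ, hn]) (by simp))
    hcc hdet hsp (fun u hu => Subtype.ext (Prod.ext (hU u hu).1 (hU u hu).2)) hFl'
    (fun z hz => Subtype.ext (by
      rw [hτ, hZ z hz]
      rfl)) hS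
  let fs : A →ₐ[Λ] Module.End Λ H := (AlgHom.fst Λ _ _).comp A.val
  have hk : ∀ (h : H) (y : Fin r → A), (∀ i, fs (x i) h = 0) → fs (∑ i, y i * x i) h = 0 := by
    intro h y hh
    rw [map_sum, LinearMap.sum_apply]
    refine Finset.sum_eq_zero fun i _ => ?_
    rw [map_mul, Module.End.mul_apply, hh, map_zero]
  refine ⟨fun i => fs (x i), fun i => (h1 i).map fs, fun i f hf => ?_, fun i g => ?_, ?_, ?_⟩
  · exact congrArg Prod.fst (hcomm (f, 1) (fun g => Prod.ext (hf g).eq (Commute.one_left _).eq)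
      (x i)).eq
  · have := congrArg fs (h2 i (πA g))
    rwa [map_mul, map_mul] at this
  · intro h hh g
    obtain ⟨y, hy⟩ := h3 g
    have h5 := hk h y hh
    rw [← hy, map_sub, AlgHom.commutes, LinearMap.sub_apply, sub_eq_zero] at h5
    exact h5
  · intro h hh g hg
    obtain ⟨y, hy⟩ := h4 g hg
    have h5 := hk h y hh
    rw [← hy, map_sub, map_one, LinearMap.sub_apply, sub_eq_zero] at h5
    exact h5

end Vale.Agent.P027M.TW
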