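import Vale.Agent.P027M.TW.Defs

/-! # P027 route M, block TW: the matrix algebra structure (row GMA) -/

set_option linter.all false

noncomputable section

namespace Vale.Agent.P027M.TW

namespace Gma

variable {R A : Type} [CommRing R] [Ring A] [Algebra R A]

/-- a system of matrix units gives an isomorphism with the matrix algebra -/
theorem units (e : A) (p q : Fin 2 → A) (h1 : ∀ x, ∃ z : R, e * x * e = z • e)
    (h2 : ∀ z : R, z • e = 0 → z = 0) (hee : e * e = e) (hp : ∀ a, e * p a = p a)
    (hq : ∀ b, q b * e = q b) (h4 : ∀ a b, p a * q b = if a = b then e else 0)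
    (h5 : ∑ a, q a * p a = 1) :
    ∃ Φ : A →ₐ[R] M2 R, (∀ x a b, p a * x * q b = Φ x a b • e) ∧ Function.Bijective Φ ∧
      ∀ x, x = ∑ a, ∑ b, Φ x a b • (q a * p b) := by
  have ex : ∀ x a b, ∃ z : R, p a * x * q b = z • e := fun x a b => by
    obtain ⟨z, hz⟩ := h1 (p a * x * q b)
    refine ⟨z, ?_⟩
    rw [← hz, ← mul_assoc, ← mul_assoc, hp, mul_assoc _ (q b), hq]
  choose φ hφ using ex
  have un : ∀ z z' : R, z • e = z' • e → z = z' := fun z z' h =>
    sub_eq_zero.1 (h2 _ (by rw [sub_smul, h, sub_self]))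
  let L : A →ₗ[R] M2 R :=
    { toFun := fun x => Matrix.of (φ x)
      map_add' := fun x y => by
        ext a b
        refine un _ _ ?_
        simp only [Matrix.of_apply, Matrix.add_apply]
        rw [add_smul, ← hφ, ← hφ, ← hφ, mul_add, add_mul]
      map_smul' := fun r x => by
        ext a b
        refine un _ _ ?_
        simp only [Matrix.of_apply, Matrix.smul_apply, RingHom.id_apply, smul_eq_mul]
        rw [mul_smul, ← hφ, ← hφ, mul_smul_comm, smul_mul_assoc] }
  have hL : ∀ x a b, L x a b = φ x a b := fun _ _ _ => rfl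
  have one : L 1 = 1 := by
    ext a b
    refine un _ _ ?_
    rw [hL, ← hφ, mul_one, h4, Matrix.one_apply]
    split_ifs <;> simp
  have mul : ∀ x y, L (x * y) = L x * L y := fun x y => by
    ext a b
    refine un _ _ ?_
    rw [hL, ← hφ, Matrix.mul_apply, Finset.sum_smul]
    calc p a * (x * y) * q b = p a * (x * (∑ k, q k * p k) * y) * q b := by rw [h5, mul_one]
      _ = ∑ k, (p a * x * q k) * (p k * y * q b) := by
          simp only [Finset.mul_sum, Finset.sum_mul, mul_assoc]
      _ = _ := Finset.sum_congr rfl fun k _ => by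
          rw [hφ, hφ, hL, hL, smul_mul_smul_comm, hee]
  have exp : ∀ x, x = ∑ a, ∑ b, φ x a b • (q a * p b) := fun x => by
    calc x = (∑ a, q a * p a) * x * ∑ b, q b * p b := by rw [h5, one_mul, mul_one]
      _ = ∑ a, ∑ b, q a * (p a * x * q b) * p b := by
          simp only [Finset.mul_sum, Finset.sum_mul, mul_assoc]
          rw [Finset.sum_comm]
      _ = _ := Finset.sum_congr rfl fun a _ => Finset.sum_congr rfl fun b _ => by
          rw [hφ, mul_smul_comm, smul_mul_assoc, hq]
  refine ⟨AlgHom.ofLinearMap L one mul, hφ, ⟨fun x y h => ?_, fun m => ?_⟩, exp⟩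
  · have h' : ∀ a b, φ x a b = φ y a b := fun a b => congrFun (congrFun h a) b
    rw [exp x, exp y]
    simp only [h']
  · refine ⟨∑ a, ∑ b, m a b • (q a * p b), ?_⟩
    ext i j
    refine un _ _ ?_
    show φ _ i j • e = _
    rw [← hφ]
    have k : ∀ a b, p i * (m a b • (q a * p b)) * q j =
        m a b • ((if i = a then e else 0) * if b = j then e else 0) := fun a b => by
      rw [← h4, ← h4, mul_smul_comm, smul_mul_assoc]
      simp only [mul_assoc]
    simp only [Finset.mul_sum, Finset.sum_mul, k]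
    rw [Finset.sum_eq_single i, Finset.sum_eq_single j]
    · simp [hee]
    · intro b _ hb; simp [hb]
    · simp
    · intro a _ ha; simp [Ne.symm ha]
    · simp

/-- the corners of the algebra -/
theorem corner {G : Type} [Group G] (π : G →* A) (τ : G → R) (δ : G →* R) (c : G) (h s : R)
    (hh : h * 2 = 1) (hs : s * s = 1) (hτ : ∀ g, π g + δ g • π g⁻¹ = algebraMap R A (τ g))
    (hc : c * c = 1) (hδ : δ c = -1) (e : A) (hee : e * e = e) (l : e * π c = s • e)
    (r : π c * e = s • e) (g : G) : e * π g * e = (h * (τ g + s * τ (c * g))) • e := by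
  have ci : c⁻¹ = c := inv_eq_of_mul_eq_one_right hc
  have a : ∀ z : R, e * algebraMap R A z * e = z • e := fun z => by
    rw [← Algebra.commutes, mul_assoc, hee, Algebra.smul_def]
  have e1 := a (τ g)
  have e2 := a (τ (c * g))
  rw [← hτ] at e1 e2
  rw [mul_inv_rev, ci, map_mul, map_mul, map_mul, hδ] at e2
  simp only [mul_add, add_mul, mul_smul_comm, smul_mul_assoc] at e1 e2
  rw [← mul_assoc e (π c), l, ← mul_assoc e (π g⁻¹), mul_assoc _ (π c) e, r] at e2
  simp only [mul_smul_comm, smul_mul_assoc] at e2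
  rw [mul_smul, add_smul, mul_smul, ← e1, ← e2]
  generalize e * π g * e = X
  generalize e * π g⁻¹ * e = Y
  simp only [smul_add, smul_smul]
  rw [add_add_add_comm, ← add_smul, ← add_smul]
  have k1 : h + h * (s * s) = 1 := by rw [hs]; linear_combination hh
  have k2 : h * δ g + h * (s * (-1 * δ g * s)) = 0 := by linear_combination (-h * δ g) * hs
  rw [k1, k2, one_smul, zero_smul, add_zero]

theorem span {G : Type} [Group G] (π : G →* A) (e : A)
    (h : ∀ g, ∃ z : R, e * π g * e = z • e) {x : A} (hx : x ∈ Submodule.span R (Set.range π)) :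
    ∃ z : R, e * x * e = z • e := by
  induction hx using Submodule.span_induction with
  | mem x hx => obtain ⟨g, rfl⟩ := hx; exact h g
  | zero => exact ⟨0, by simp⟩
  | add x y _ _ a b =>
    obtain ⟨z, a⟩ := a
    obtain ⟨w, b⟩ := b
    exact ⟨z + w, by rw [mul_add, add_mul, a, b, add_smul]⟩
  | smul r x _ a =>
    obtain ⟨z, a⟩ := a
    exact ⟨r * z, by rw [mul_smul_comm, smul_mul_assoc, a, mul_smul]⟩

end Gma

open Gma

/-- row GMA -/
theorem gma : Spec_GMA := by
  intro G R A Λ _ _ _ _ _ π τ δ c lam pr inj two hτ sp hc hδ hpr surj prc unit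
  obtain ⟨h, hh⟩ := two.exists_left_inv
  have CC : π c * π c = 1 := by rw [← map_mul, hc, map_one]
  have prs : ∀ (z : R) (x : A), pr (z • x) = lam z • pr x := fun z x => by
    rw [Algebra.smul_def, map_mul, hpr, Matrix.scalar_apply, ← Matrix.smul_eq_diagonal_mul]
  obtain ⟨e, he⟩ : ∃ e : A, e = h • (1 + π c) := ⟨_, rfl⟩
  have eC : e * π c = e := by rw [he, smul_mul_assoc, add_mul, one_mul, CC, add_comm]
  have Ce : π c * e = e := by rw [he, mul_smul_comm, mul_add, mul_one, CC, add_comm]
  have tw : ∀ x : A, h • (x + x) = x := fun x => by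
    rw [← two_smul R x, smul_smul, hh, one_smul]
  have ee : e * e = e := by
    calc e * e = e * (h • (1 + π c)) := by rw [← he]
      _ = e := by rw [mul_smul_comm, mul_add, mul_one, eC, tw]
  obtain ⟨f, hf⟩ : ∃ f : A, f = 1 - e := ⟨_, rfl⟩
  have C2 : π c = e - f := by
    have : e + e = 1 + π c := by rw [he, ← smul_add, tw]
    rw [hf]
    calc π c = (1 + π c) - 1 := by abel
      _ = _ := by rw [← this]; abel
  have ef : e * f = 0 := by rw [hf, mul_sub, mul_one, ee, sub_self]
  have fe : f * e = 0 := by rw [hf, sub_mul, one_mul, ee, sub_self]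
  have ff : f * f = f := by
    calc f * f = f * (1 - e) := by rw [← hf]
      _ = f := by rw [mul_sub, mul_one, fe, sub_zero]
  have c1 := corner π τ δ c h 1 hh (one_mul _) hτ hc hδ e ee (by rw [eC, one_smul])
    (by rw [Ce, one_smul])
  have c2 := corner π τ δ c h (-1) hh (by ring) hτ hc hδ f ff
    (by rw [C2, mul_sub, fe, ff, zero_sub, neg_smul, one_smul])
    (by rw [C2, sub_mul, ef, ff, zero_sub, neg_smul, one_smul])
  have s1 : ∀ x, ∃ z : R, e * x * e = z • e := fun x => span π e (fun g => ⟨_, c1 g⟩) (sp x)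
  have s2 : ∀ x, ∃ z : R, f * x * f = z • f := fun x => span π f (fun g => ⟨_, c2 g⟩) (sp x)
  have lh : lam h * 2 = 1 := by
    have := congrArg lam hh
    rwa [map_mul, map_one, map_ofNat] at this
  have pe : pr e = !![1, 0; 0, 0] := by
    rw [he, prs, map_add, map_one, prc]
    ext a b
    fin_cases a <;> fin_cases b <;> simp
    linear_combination lh
  have pf : pr f = !![0, 0; 0, 1] := by
    rw [hf, map_sub, map_one, pe]
    ext a b
    fin_cases a <;> fin_cases b <;> simp
  obtain ⟨x, hx⟩ := surj !![0, 1; 0, 0]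
  obtain ⟨y, hy⟩ := surj !![0, 0; 1, 0]
  obtain ⟨u, hu⟩ : ∃ u : A, u = e * x * f := ⟨_, rfl⟩
  have pu : pr u = !![0, 1; 0, 0] := by
    rw [hu, map_mul, map_mul, pe, hx, pf]
    simp only [Matrix.mul_fin_two]
    simp
  have pv0 : pr (f * y * e) = !![0, 0; 1, 0] := by
    rw [map_mul, map_mul, pe, hy, pf]
    simp only [Matrix.mul_fin_two]
    simp
  obtain ⟨β, hβ⟩ := s1 (x * f * (f * y))
  have uv0 : u * (f * y * e) = β • e := by
    rw [← hβ, hu]; simp only [mul_assoc]
  have lβ : lam β = 1 := by
    have := congrArg pr uv0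
    rw [map_mul, pu, pv0, prs, pe] at this
    simpa using (congrFun (congrFun this 0) 0).symm
  obtain ⟨β', hβ'⟩ := (unit β lβ).exists_left_inv
  have lβ' : lam β' = 1 := by
    have := congrArg lam hβ'
    rwa [map_mul, lβ, mul_one, map_one] at this
  obtain ⟨v, hv⟩ : ∃ v : A, v = β' • (f * y * e) := ⟨_, rfl⟩
  have pv : pr v = !![0, 0; 1, 0] := by rw [hv, prs, lβ', one_smul, pv0]
  have uv : u * v = e := by rw [hv, mul_smul_comm, uv0, smul_smul, hβ', one_smul]
  have eu : e * u = u := by rw [hu, ← mul_assoc, ← mul_assoc, ee]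
  have uf : u * f = u := by rw [hu, mul_assoc, ff]
  have ue : u * e = 0 := by rw [hu, mul_assoc, fe, mul_zero]
  have ve : v * e = v := by rw [hv, smul_mul_assoc, mul_assoc, ee]
  have fv : f * v = v := by rw [hv, mul_smul_comm, ← mul_assoc, ← mul_assoc, ff]
  have ev : e * v = 0 := by rw [← fv, ← mul_assoc, ef, zero_mul]
  obtain ⟨γ, hγ⟩ := s2 (v * u)
  rw [← mul_assoc, fv, mul_assoc, uf] at hγ
  have lγ : lam γ = 1 := by
    have := congrArg pr hγ
    rw [map_mul, pu, pv, prs, pf] at this
    simpa using (congrFun (congrFun this 1) 1).symm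
  obtain ⟨γ', hγ'⟩ := (unit γ lγ).exists_left_inv
  have vu : v * u = f := by
    have a : v * u * (v * u) = v * u := by
      rw [mul_assoc, ← mul_assoc u, uv, eu]
    rw [hγ, smul_mul_smul_comm, ff] at a
    have b := congrArg (fun t => γ' • t) a
    simp only [smul_smul] at b
    rw [← mul_assoc, hγ', one_mul, one_smul] at b
    rw [hγ, b]
  have h2 : ∀ z : R, z • e = 0 → z = 0 := fun z hz => by
    have a : z • f = 0 := by rw [← vu, ← eu, ← mul_smul_comm, ← smul_mul_assoc, hz]; simp
    have b : z • (1 : A) = 0 := by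
      have : (1 : A) = e + f := by rw [hf]; abel
      rw [this, smul_add, hz, a, add_zero]
    apply inj
    rw [Algebra.algebraMap_eq_smul_one, b, map_zero]
  obtain ⟨Φ, hΦ, bij, exp⟩ := units (R := R) e ![e, u] ![e, v] s1 h2 ee
    (fun a => by fin_cases a <;> simp [ee, eu]) (fun a => by fin_cases a <;> simp [ee, ve])
    (fun a b => by fin_cases a <;> fin_cases b <;> simp [ee, ev, ue, uv])
    (by simp [Fin.sum_univ_two, ee, vu, hf])
  have un : ∀ z z' : R, z • e = z' • e → z = z' := fun z z' k =>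
    sub_eq_zero.1 (h2 _ (by rw [sub_smul, k, sub_self]))
  have tr : ∀ g, (Φ (π g)).trace = τ g := fun g => by
    have a := hΦ (π g) 0 0
    have b := hΦ (π g) 1 1
    simp only [Matrix.cons_val_zero, Matrix.cons_val_one] at a b
    rw [c1] at a
    rw [← uf, ← fv, mul_assoc u, ← mul_assoc, mul_assoc u, c2, mul_smul_comm, uf, smul_mul_assoc,
      uv] at b
    rw [Matrix.trace_fin_two, ← un _ _ a, ← un _ _ b]
    linear_combination τ g * hh
  refine ⟨Φ, fun a b => ![e, v] a * ![e, u] b, bij, fun z => ?_, tr, fun g => ?_, exp⟩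
  · ext a b
    have k := congrArg pr (hΦ z a b)
    rw [prs, pe, map_mul, map_mul] at k
    have k0 := congrFun (congrFun k 0) 0
    fin_cases a <;> fin_cases b <;>
      simpa [pe, pu, pv, Matrix.mul_apply, Fin.sum_univ_two, Matrix.vecMul, dotProduct]
        using k0.symm
  · have a : π g * π g + δ g • (1 : A) = τ g • π g := by
      rw [Algebra.smul_def (τ g), ← hτ, add_mul, smul_mul_assoc, ← map_mul π g⁻¹, inv_mul_cancel,
        map_one]
    have b := congrArg Φ a
    rw [map_add, map_mul, map_smul, map_smul, map_one, ← tr] at b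
    have b0 := congrFun (congrFun b 0) 0
    simp only [Matrix.add_apply, Matrix.mul_apply, Fin.sum_univ_two, Matrix.smul_apply,
      Matrix.one_apply_eq, smul_eq_mul, mul_one, Matrix.trace_fin_two] at b0
    rw [Matrix.det_fin_two]
    linear_combination -b0

end Vale.Agent.P027M.TW
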