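import Vale.Agent.P027M.TW.Low

/-! # P027 route M, block TW: Cayley-Hamilton on the `𝔪`-part -/

set_option linter.all false

noncomputable section

namespace Vale.Agent.P027M.TW

namespace Hch

variable {Λ A : Type} [CommRing Λ] [AddCommGroup A]

/-- the endomorphisms which preserve `N` -/
def St (N : Submodule Λ (Hm Λ A)) : Subring (AddMonoid.End A) where
  carrier := {f | ∀ φ ∈ N, Hm.endo Λ A f φ ∈ N}
  mul_mem' := fun {f g} hf hg φ h => hf _ (hg φ h)
  one_mem' := fun φ h => h
  add_mem' := fun {f g} hf hg φ h => by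
    rw [map_add]
    exact N.add_mem (hf φ h) (hg φ h)
  zero_mem' := fun φ h => by
    rw [map_zero]
    exact N.zero_mem
  neg_mem' := fun {f} hf φ h => by
    rw [map_neg]
    exact N.neg_mem (hf φ h)

/-- restriction to `N` -/
def rs (N : Submodule Λ (Hm Λ A)) : St N →+* Module.End Λ N where
  toFun f := (Hm.endo Λ A f.1).restrict f.2
  map_one' := rfl
  map_mul' _ _ := rfl
  map_zero' := rfl
  map_add' _ _ := rfl

theorem rs_apply (N : Submodule Λ (Hm Λ A)) (f : St N) (φ : N) :
    (rs N f φ : Hm Λ A) = Hm.endo Λ A f.1 φ := rfl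

theorem mem_St {ι : Type} {T D : ι → AddMonoid.End A} (a ε : ι → Λ) {f : AddMonoid.End A}
    (hT : ∀ i, Commute (T i) f) (hD : ∀ i, Commute (D i) f) : f ∈ St (mH T D a ε) := by
  intro φ h
  refine (Submodule.mem_iInf _).2 fun i => ?_
  refine Module.End.mapsTo_maxGenEigenspace_of_comm ?_ _ ((Submodule.mem_iInf _).1 h i)
  refine Commute.map ?_ (Hm.endo Λ A)
  rcases i with i | i
  · exact hT i
  · exact hD i

theorem nil_sub_one {E : Type} [Ring E] {u : E} {n j : ℕ} (hu : u ^ 3 ^ n = 1)
    (h3 : (3 : E) ^ j = 0) : IsNilpotent (u - 1) := by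
  obtain ⟨r, hr⟩ := Commute.exists_add_pow_prime_pow_eq Nat.prime_three
    (Commute.neg_one_right u) n
  rw [hu, Odd.neg_one_pow (Odd.pow (by decide)), add_neg_cancel, zero_add, mul_assoc, mul_assoc,
    ← sub_eq_add_neg] at hr
  refine IsNilpotent.of_pow (m := 3 ^ n) ?_
  rw [hr]
  exact (Nat.cast_commute 3 _).isNilpotent_mul_right ⟨j, by exact_mod_cast h3⟩

theorem unit_of {j M : ℕ} (h3 : (3 : Λ) ^ j = 0) (hM : ¬ 3 ∣ M) : IsUnit (M : Λ) := by
  have h1 : Nat.Coprime M (3 ^ j) :=
    Nat.Coprime.pow_right j ((Nat.Prime.coprime_iff_not_dvd Nat.prime_three).2 hM).symm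
  have h2 := (Nat.isCoprime_iff_coprime.2 h1).map (Int.castRingHom Λ)
  rw [map_natCast, map_natCast, Nat.cast_pow, Nat.cast_ofNat, h3] at h2
  exact isCoprime_zero_right.1 h2

end Hch

open Hch

theorem hch : Spec_HCH := by
  intro hCH hLOC G Δ ι A Λ k _ _ _ _ _ red j n act tw dl ψ T D ρ ln a ε Fr U hc hΔ H htw h2
  let N := mH T D a ε
  let α : G →* St N := act.codRestrict (St N) fun g =>
    mem_St a ε (fun i => H.cTa i g) (fun i => H.cDa i g)
  let η : Δ →* St N := dl.codRestrict (St N) fun δ =>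
    mem_St a ε (fun i => H.cTd i δ) (fun i => H.cDd i δ)
  let β : G →* St N := tw.codRestrict (St N) fun g => by
    rw [htw g]
    exact mul_mem (η _).2 (α g).2
  let t : ι → St N := fun i => ⟨T i, mem_St a ε (fun i' => H.cTT i' i) fun i' => (H.cTD i i').symm⟩
  let d : ι → St N := fun i => ⟨D i, mem_St a ε (fun i' => H.cTD i' i) fun i' => H.cDD i' i⟩
  let act' : G →* Module.End Λ N := (rs N).toMonoidHom.comp α
  let π : G →* Module.End Λ N := (rs N).toMonoidHom.comp β
  let dl' : Δ →* Module.End Λ N := (rs N).toMonoidHom.comp η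
  have hπ : ∀ g, π g = dl' ((ψ g)⁻¹ ^ ((3 ^ n + 1) / 2)) * act' g := fun g =>
    (congrArg (rs N) (Subtype.ext (htw g) : β g = η _ * α g)).trans (map_mul _ _ _)
  obtain ⟨M, hM, hord⟩ := H.ord
  have hD : ∀ i φ, φ ∈ mH T D a ε → Hm.endo Λ A (D i) φ = ε i • φ := by
    intro i φ h
    refine hLOC.2.1 Λ (Hm Λ A) _ _ M (unit_of hc.three hM) (Nat.pos_of_ne_zero ?_) ?_ (hord i).2 φ
      ((Submodule.mem_iInf _).1 h (Sum.inr i))
    · rintro rfl
      exact hM (dvd_zero 3)
    · rw [← map_pow, (hord i).1, map_one]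
  have hd : ∀ i, rs N (d i) = ε i • 1 := fun i =>
    LinearMap.ext fun φ => Subtype.ext (hD i φ φ.2)
  have cad : ∀ g δ, Commute (act' g) (dl' δ) := fun g δ =>
    Commute.map (Subtype.ext (H.cad g δ) : Commute (α g) (η δ)) (rs N)
  have cta : ∀ i g, Commute (rs N (t i)) (act' g) := fun i g =>
    Commute.map (Subtype.ext (H.cTa i g) : Commute (t i) (α g)) (rs N)
  have ctd : ∀ i δ, Commute (rs N (t i)) (dl' δ) := fun i δ =>
    Commute.map (Subtype.ext (H.cTd i δ) : Commute (t i) (η δ)) (rs N)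
  have cdd : ∀ δ δ', Commute (dl' δ) (dl' δ') := fun δ δ' => (Commute.all δ δ').map dl'
  have key : ∀ i g, Fr i g →
      tau π ρ g = dl' ((ψ g)⁻¹ ^ ((3 ^ n + 1) / 2)) * rs N (t i) := by
    intro i g hg
    have e1 : t i = α g + ln i • (α g⁻¹ * (d i * η (ψ g))) :=
      Subtype.ext (AddMonoidHom.ext (H.es i g hg))
    have e2 : rs N (t i) = act' g + (ρ g).det • (act' g⁻¹ * dl' (ψ g)) := by
      rw [e1, map_add, map_nsmul, map_mul, map_mul, hd, H.det i g hg, smul_mul_assoc, one_mul,
        mul_smul_comm, mul_smul, Nat.cast_smul_eq_nsmul]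
      rfl
    have e3 : (ψ g⁻¹)⁻¹ ^ ((3 ^ n + 1) / 2) = (ψ g)⁻¹ ^ ((3 ^ n + 1) / 2) * ψ g := by
      have o : (3 ^ n + 1) / 2 + (3 ^ n + 1) / 2 = 3 ^ n + 1 := by
        have : Odd (3 ^ n) := Odd.pow (by decide)
        obtain ⟨m, hm⟩ := this
        omega
      rw [map_inv, inv_inv, inv_pow, eq_inv_mul_iff_mul_eq, ← pow_add, o, pow_succ, hΔ, one_mul]
    rw [tau, hπ, hπ, e2, e3, mul_add, mul_smul_comm, map_mul, (cad g⁻¹ (ψ g)).eq, mul_assoc]
  have fΛ := hc.fin
  have fA := H.fin
  have fH' : Finite (Λ →+ A) := Finite.of_injective (fun φ : Λ →+ A => (φ : Λ → A))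
    DFunLike.coe_injective
  have fH : Finite (Hm Λ A) := fH'
  have fE : Finite (Module.End Λ N) := Finite.of_injective (fun φ : N →ₗ[Λ] N => (φ : N → N))
    DFunLike.coe_injective
  have fM : Finite (M2 Λ) := inferInstanceAs (Finite (Fin 2 → Fin 2 → Λ))
  have h3 : (3 : Module.End Λ N) ^ j = 0 := by
    have := congrArg (algebraMap Λ (Module.End Λ N)) hc.three
    rwa [map_pow, map_ofNat, map_zero] at this
  refine ⟨act', π, dl', fun _ _ => rfl, fun _ _ => rfl, fun _ _ => rfl, ?_, hD, ?_⟩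
  · refine hCH G Λ k N red j π ρ (fun φ => ∃ i, Fr i φ) hc (H.dens _ _ fun u hu => ?_) h2 ?_
    · obtain ⟨u1, u2, u3⟩ := H.ker u hu
      refine Prod.ext ?_ u3
      change π u = 1
      have : act' u = 1 := (congrArg (rs N) (Subtype.ext u1 : α u = 1)).trans (map_one _)
      rw [hπ, u2, this]
      simp
    · rintro g ⟨i, hg⟩
      rw [CHat, key i g hg, H.tr i g hg]
      refine ⟨fun h => ?_, ?_⟩
      · rw [hπ]
        exact ((cdd _ _).mul_right (cad _ _).symm).mul_left ((ctd _ _).mul_right (cta _ _))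
      · set δ := (ψ g)⁻¹ ^ ((3 ^ n + 1) / 2)
        have n1 : IsNilpotent (rs N (t i) - algebraMap Λ (Module.End Λ N) (a i)) := by
          rw [Module.End.isNilpotent_iff_of_finite]
          intro φ
          obtain ⟨m, hm⟩ := (Module.End.mem_maxGenEigenspace _ _ _).1
            ((Submodule.mem_iInf _).1 φ.2 (Sum.inl i))
          refine ⟨m, Subtype.ext ?_⟩
          have e : ∀ (m : ℕ) (φ : N),
              (((rs N (t i) - algebraMap Λ (Module.End Λ N) (a i)) ^ m) φ : Hm Λ A) =
                ((Hm.endo Λ A (T i) - a i • 1) ^ m) φ := by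
            intro m
            induction m with
            | zero => exact fun _ => rfl
            | succ m ih =>
              intro φ
              rw [pow_succ, pow_succ, Module.End.mul_apply, Module.End.mul_apply, ih]
              rfl
          exact (e m φ).trans hm
        have n2 : IsNilpotent (dl' δ - 1) :=
          nil_sub_one (n := n) (by rw [← map_pow, hΔ, map_one]) h3
        have c1 : Commute (dl' δ) (rs N (t i) - algebraMap Λ (Module.End Λ N) (a i)) :=
          (ctd i δ).symm.sub_right (Algebra.commute_algebraMap_right _ _)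
        have c2 : Commute (dl' δ - 1) (algebraMap Λ (Module.End Λ N) (a i)) :=
          Algebra.commute_algebraMap_right _ _
        have e : dl' δ * rs N (t i) - algebraMap Λ (Module.End Λ N) (a i) =
            dl' δ * (rs N (t i) - algebraMap Λ (Module.End Λ N) (a i)) +
              (dl' δ - 1) * algebraMap Λ (Module.End Λ N) (a i) := by
          rw [mul_sub, sub_mul, one_mul]
          abel
        rw [e]
        refine Commute.isNilpotent_add ?_ (c1.isNilpotent_mul_left n1) (c2.isNilpotent_mul_right n2)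
        refine Commute.mul_right ?_ (Algebra.commute_algebraMap_right _ _)
        exact (((Commute.refl _).mul_left c1.symm).sub_right (Commute.one_right _))
  · intro i g hg φ hφ
    rw [key i g hg, ← (ctd i _).eq, Module.End.mul_apply, hφ]
    rfl

end Vale.Agent.P027M.TW
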