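import Vale.Agent.P027M.TW.Tow

/-! # P027 route M, block TW, row LEV: the group `Δ` -/

noncomputable section

namespace Vale.Agent.P027M.TW

namespace Lev

theorem crt {N r : ℕ} (q : Fin r → ℕ) (h : ∀ i, q i ∣ N) (hN : 0 < N)
    (hi : Function.Injective q) (hp : ∀ i, (q i).Prime) (y : ∀ i, (ZMod (q i))ˣ) :
    ∃ u : (ZMod N)ˣ, ∀ i, ZMod.unitsMap (h i) u = y i := by
  haveI : NeZero N := ⟨hN.ne'⟩
  have cop : Pairwise fun i j => Nat.Coprime (q i) (q j) := fun i j hij =>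
    (Nat.coprime_primes (hp i) (hp j)).2 fun e => hij (hi e)
  have hP : ∏ i, q i ∣ N := by
    have := Fintype.prod_dvd_of_coprime (s := fun i => (q i : ℤ)) (z := (N : ℤ))
      (fun i j hij => Nat.isCoprime_iff_coprime.2 (cop hij)) (fun i => by exact_mod_cast h i)
    exact_mod_cast this
  let e := ZMod.prodEquivPi q cop
  obtain ⟨u, hu⟩ := ZMod.unitsMap_surjective hP
    (Units.map (e.symm : (∀ i, ZMod (q i)) →* ZMod (∏ i, q i)) (MulEquiv.piUnits.symm y))
  refine ⟨u, fun i => ?_⟩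
  have hd : q i ∣ ∏ i, q i := Finset.dvd_prod_of_mem q (Finset.mem_univ i)
  have e1 : ZMod.unitsMap (h i) u = ZMod.unitsMap hd (ZMod.unitsMap hP u) := by
    rw [← MonoidHom.comp_apply, ZMod.unitsMap_comp]
  rw [e1, hu]
  apply Units.ext
  have e2 := ZMod.prodEquivPi_apply q cop (e.symm fun i => (y i : ZMod (q i))) i
  rw [show ZMod.prodEquivPi q cop = e from rfl, e.apply_symm_apply] at e2
  exact e2.symm

end Lev

theorem lev : Spec_LEV := by
  intro N n r q h hN hi hp hd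
  classical
  haveI : ∀ i, Fact (q i).Prime := fun i => ⟨hp i⟩
  let R : ∀ i, Subgroup (ZMod (q i))ˣ := fun i => (powMonoidHom (3 ^ n)).range
  let d : (ZMod N)ˣ →* ∀ i, (ZMod (q i))ˣ ⧸ R i :=
    Pi.monoidHom fun i => (QuotientGroup.mk' (R i)).comp (ZMod.unitsMap (h i))
  have hdv : ∀ u i, d u i = (ZMod.unitsMap (h i) u : (ZMod (q i))ˣ ⧸ R i) := fun _ _ => rfl
  letI F : Fintype (∀ i, (ZMod (q i))ˣ ⧸ R i) := Fintype.ofFinite _
  refine ⟨∀ i, (ZMod (q i))ˣ ⧸ R i, inferInstance, F, d, fun δ => ?_,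
    fun u => ?_, fun s h1 h2 => ⟨fun δ => ?_, ?_, ?_⟩⟩
  · have hs : ∀ i, ∃ y : (ZMod (q i))ˣ, (y : (ZMod (q i))ˣ ⧸ R i) = δ i :=
      fun i => QuotientGroup.mk_surjective (δ i)
    choose y hy using hs
    obtain ⟨u, hu⟩ := Lev.crt q h hN hi hp y
    exact ⟨u, funext fun i => by rw [hdv, hu, hy]⟩
  · rw [funext_iff]
    refine forall_congr' fun i => ?_
    rw [hdv, Pi.one_apply, QuotientGroup.eq_one_iff]
    exact exists_congr fun x => eq_comm
  · funext i
    obtain ⟨y, hy⟩ := QuotientGroup.mk_surjective (δ i)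
    rw [Pi.pow_apply, Pi.one_apply, ← hy, ← QuotientGroup.mk_pow, QuotientGroup.eq_one_iff]
    exact ⟨y, rfl⟩
  · rw [Fintype.card_eq_nat_card, Nat.card_pi]
    have : ∀ i, Nat.card ((ZMod (q i))ˣ ⧸ R i) = 3 ^ n := fun i => by
      rw [← Subgroup.index_eq_card, IsCyclic.index_powMonoidHom_range, Nat.card_eq_fintype_card,
        ZMod.card_units, Nat.gcd_eq_right (hd i)]
    rw [Finset.prod_congr rfl fun i _ => this i, Finset.prod_const, Finset.card_univ,
      Fintype.card_fin]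
  · rw [eq_top_iff]
    intro δ _
    rw [← Finset.univ_prod_mulSingle δ]
    refine prod_mem fun i _ => ?_
    obtain ⟨y, hy⟩ := QuotientGroup.mk_surjective (δ i)
    obtain ⟨k, hk⟩ := Subgroup.mem_zpowers_iff.1 (h1 i y)
    have e : Pi.mulSingle i (δ i) = d (s i) ^ k := by
      funext j
      rw [Pi.pow_apply, hdv]
      by_cases hj : i = j
      · subst hj
        rw [Pi.mulSingle_eq_same, ← hy, ← hk, QuotientGroup.mk_zpow]
      · rw [Pi.mulSingle_eq_of_ne (Ne.symm hj), h2 i j hj, QuotientGroup.mk_one, one_zpow]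
    rw [e]
    exact zpow_mem (Subgroup.subset_closure (Set.mem_range_self (f := fun i => d (s i)) i)) k

end Vale.Agent.P027M.TW
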