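import Vale.Agent.P027M.TW.Defs

/-! # P027 route M, row TW.MID: the norm element is killed at level `3 ^ j` -/

set_option linter.all false

noncomputable section

namespace Vale.Agent.P027M.TW

open Finset

namespace Mid

/-- a commuting set of elements lies in the image of a commutative ring -/
theorem exS {E : Type} [Ring E] (T : Set E) (hc : ∀ a ∈ T, ∀ b ∈ T, a * b = b * a) :
    ∃ (S : Type) (_ : CommRing S) (ι : S →+* E), Function.Injective ι ∧
      ∀ t ∈ T, ∃ z, ι z = t := by
  have h := Subring.isMulCommutative_closure hc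
  let c : CommRing (Subring.closure T) :=
    { (inferInstance : Ring (Subring.closure T)) with mul_comm := fun a b => h.is_comm.comm a b }
  exact ⟨Subring.closure T, c, (Subring.closure T).subtype, Subtype.val_injective,
    fun t ht => ⟨⟨t, Subring.subset_closure ht⟩, rfl⟩⟩

theorem geo_mem {S : Type} [CommRing S] (s : S) (n : ℕ) :
    ∑ u ∈ range (3 ^ n), s ^ u ∈ (Ideal.span {(3 : S)} ⊔ Ideal.span {s - 1}) ^ n := by
  induction n with
  | zero => simp
  | succ n ih =>
    have e : ∑ u ∈ range (3 ^ (n + 1)), s ^ u =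
        (∑ u ∈ range (3 ^ n), s ^ u) * (3 + (s ^ 3 ^ n + 2) * (s ^ 3 ^ n - 1)) := by
      rw [show 3 ^ (n + 1) = 3 ^ n + 3 ^ n + 3 ^ n by ring, sum_range_add, sum_range_add]
      simp only [pow_add, ← mul_sum]
      ring
    rw [e, pow_succ]
    refine Ideal.mul_mem_mul ih (Submodule.add_mem_sup (Ideal.mem_span_singleton_self _) ?_)
    exact Ideal.mul_mem_left _ _ (Ideal.mem_span_singleton.2 (sub_one_dvd_pow_sub_one s _))

theorem geo_dvd {S : Type} [CommRing S] (s : S) {n j : ℕ} (h3 : (3 : S) ^ j = 0)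
    (hn : 2 * j ≤ n) : (s - 1) ^ (j - 1) ∣ ∑ u ∈ range (3 ^ n), s ^ u := by
  have h := geo_mem s n
  obtain ⟨m, rfl⟩ : ∃ m, n = j + m := ⟨n - j, by omega⟩
  have h2 := Ideal.sup_pow_add_le_pow_sup_pow h
  rw [Ideal.span_singleton_pow, Ideal.span_singleton_pow, h3, Ideal.span_singleton_eq_bot.2 rfl,
    bot_sup_eq, Ideal.mem_span_singleton] at h2
  exact (pow_dvd_pow _ (by omega)).trans h2

theorem sum_eq {Δ S : Type} [CommGroup Δ] [Fintype Δ] [CommRing S] {n r : ℕ} {d : Fin r → Δ}
    (h : Del n d) (D : Δ →* S) : ∑ δ, D δ = ∏ i, ∑ u ∈ range (3 ^ n), D (d i) ^ u := by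
  have q0 : 0 < 3 ^ n := by positivity
  let Ψ : (Fin r → Fin (3 ^ n)) → Δ := fun u => ∏ i, d i ^ (u i : ℕ)
  have hs : Function.Surjective Ψ := fun δ => by
    have hm : δ ∈ Subgroup.closure (Set.range d) := by rw [h.gen]; trivial
    obtain ⟨a, rfl⟩ := Subgroup.mem_closure_range_iff_of_fintype.1 hm
    have q1 : (0 : ℤ) < (3 ^ n : ℕ) := by exact_mod_cast q0
    refine ⟨fun i => ⟨(a i % (3 ^ n : ℕ)).toNat, ?_⟩, prod_congr rfl fun i _ => ?_⟩
    · have := Int.emod_lt_of_pos (a i) q1
      have := Int.emod_nonneg (a i) q1.ne'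
      omega
    · rw [zpow_eq_zpow_emod' (a i) (h.exp (d i)), ← zpow_natCast,
        Int.toNat_of_nonneg (Int.emod_nonneg (a i) q1.ne')]
  have hb : Function.Bijective Ψ :=
    (Fintype.bijective_iff_surjective_and_card Ψ).2 ⟨hs, by simp [h.card]⟩
  rw [← hb.sum_comp, prod_congr rfl fun i _ => (Fin.sum_univ_eq_sum_range _ _).symm,
    prod_univ_sum, Fintype.piFinset_univ]
  exact sum_congr rfl fun u _ => by simp [Ψ, map_prod]

end Mid

open Mid

theorem mid : Spec_MID := by
  intro hP r a v b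
  obtain ⟨j0, hj0⟩ := hP r (3 * a) v b
  refine ⟨j0 + 1, fun j hj G Δ Λ H _ _ _ _ _ _ _ n act π dl ψ ρ σ x h3 hn hD hc htw hg hσ hI hb hv
    w => ?_⟩
  have cd : ∀ δ δ', Commute (dl δ) (dl δ') := fun δ δ' => (Commute.all δ δ').map dl
  have cπ : ∀ δ g, Commute (dl δ) (π g) := fun δ g => by
    rw [htw g]
    exact (cd _ _).mul_right (hc g δ).symm
  obtain ⟨S, _, ι, hι, hT⟩ := exS (Set.range x ∪ Set.range dl) (by
    rintro _ (⟨i, rfl⟩ | ⟨δ, rfl⟩) _ (⟨i', rfl⟩ | ⟨δ', rfl⟩)
    · exact hg.bic i' _ (hg.cen i)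
    · exact (hg.bic i _ (cπ δ')).symm
    · exact hg.bic i' _ (cπ δ)
    · exact cd δ δ')
  choose X hX using fun i => hT (x i) (Or.inl ⟨i, rfl⟩)
  choose D₀ hD₀ using fun δ => hT (dl δ) (Or.inr ⟨δ, rfl⟩)
  let D : Δ →* S :=
    { toFun := D₀
      map_one' := hι (by rw [hD₀, map_one, map_one])
      map_mul' := fun δ δ' => hι (by rw [map_mul, hD₀, hD₀, hD₀, map_mul]) }
  have hDD : ∀ δ, ι (D δ) = dl δ := hD₀
  letI : Module S H := Module.compHom H ι
  have sm : ∀ (z : S) (h : H), z • h = ι z h := fun _ _ => rfl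
  have t3 : ∀ (m : ℕ) (h : H), (3 : S) ^ m • h = 3 ^ m • h := fun m h => by
    rw [← Nat.cast_smul_eq_nsmul S]
    norm_num
  have S3 : (3 : S) ^ j = 0 := hι (by
    ext h
    rw [← sm, t3, map_zero, LinearMap.zero_apply, ← Nat.cast_smul_eq_nsmul Λ]
    push_cast
    rw [h3, zero_smul])
  have fix : ∀ h : H, (∀ i, (D (ψ (σ i)) - 1) • h = 0) → ∀ δ, dl δ h = h := fun h hh δ => by
    have hm : δ ∈ Subgroup.closure (Set.range fun i => ψ (σ i)) := by rw [hD.gen]; trivial
    induction hm using Subgroup.closure_induction with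
    | mem _ hx =>
      obtain ⟨i, rfl⟩ := hx
      have := hh i
      rw [sub_smul, one_smul, sm, hDD, sub_eq_zero] at this
      exact this
    | one => rw [map_one]; rfl
    | mul δ δ' _ _ i1 i2 => rw [map_mul, Module.End.mul_apply, i2, i1]
    | inv δ _ i1 =>
      conv_lhs => rw [← i1]
      rw [← Module.End.mul_apply, ← map_mul, inv_mul_cancel, map_one]
      rfl
  have key := hj0 j (by omega) S H X (fun i => D (ψ (σ i)) - 1) 3
    (fun i => by
      obtain ⟨m, hm⟩ := hg.nil i
      exact ⟨m, fun h => by rw [sm, map_pow, hX, hm]; rfl⟩)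
    (fun h => by rw [S3, zero_smul])
    (le_trans (Nat.card_le_card_of_injective
      (fun z => (⟨z.1, by rw [← pow_one 3, ← t3, pow_one]; exact z.2.1, fix _ z.2.2⟩ :
        {h : H // 3 • h = 0 ∧ ∀ δ, dl δ h = h}))
      fun z z' e => Subtype.ext (Subtype.mk.inj e)) hb)
    (fun h hh i => by
      set m := (3 ^ n + 1) / 2 with hm
      set t := D (ψ (σ i)) with ht
      let s := D (ψ (σ i) ^ m)
      let s' := D ((ψ (σ i))⁻¹ ^ m)
      have ss : s * s' = 1 := by
        rw [← map_mul, ← mul_pow, mul_inv_cancel, one_pow, map_one]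
      have s2 : s * s = t := by
        have o : Odd (3 ^ n) := Odd.pow (by decide)
        rw [← map_mul, ← pow_add, show m + m = 3 ^ n + 1 by have := Nat.odd_iff.1 o; omega,
          pow_succ, hD.exp, one_mul]
      have st : ∀ (z : S) (h : H), (∀ i, X i • h = 0) → ∀ i, X i • z • h = 0 := fun z h hh i => by
        rw [smul_comm, hh, smul_zero]
      have ac : ∀ h : H, (∀ i, X i • h = 0) → act (σ i) h = s • h := fun h hh => by
        have e := hg.one h (fun i => by rw [← hX, ← sm, hh]) _ (hσ i)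
        rw [htw, Module.End.mul_apply, ← hDD, ← sm] at e
        conv_rhs => rw [← e]
        rw [smul_smul, ss, one_smul]
      have F1 : ∀ h : H, (∀ i, X i • h = 0) →
          ((act (σ i) - 1) * (act (σ i) - dl (ψ (σ i))) * (dl (ψ (σ i)) - 1)) h =
            ((s - 1) * (s - t) * (t - 1)) • h := fun h hh => by
        have e1 : (dl (ψ (σ i)) - 1) h = (t - 1) • h := by rw [sm, map_sub, map_one, hDD]
        have e2 : (act (σ i) - dl (ψ (σ i))) ((t - 1) • h) = (s - t) • (t - 1) • h := by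
          rw [LinearMap.sub_apply, ac _ (st _ _ hh), ← hDD, ← sm, ← sub_smul]
        rw [Module.End.mul_apply, Module.End.mul_apply, e1, e2, LinearMap.sub_apply,
          ac _ (st _ _ (st _ _ hh)), mul_smul, mul_smul, sub_smul s 1, one_smul]
        rfl
      have Fa : ∀ (c : ℕ) (h : H), (∀ i, X i • h = 0) →
          (((act (σ i) - 1) * (act (σ i) - dl (ψ (σ i))) * (dl (ψ (σ i)) - 1)) ^ c) h =
            ((s - 1) * (s - t) * (t - 1)) ^ c • h := fun c => by
        induction c with
        | zero => intro h _; rw [pow_zero, pow_zero, one_smul]; rfl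
        | succ c ih =>
          intro h hh
          rw [pow_succ, Module.End.mul_apply, F1 h hh, ih _ (st _ _ hh), smul_smul, ← pow_succ]
      have e : (t - 1) ^ 3 = -((s + 1) ^ 2 * s') * ((s - 1) * (s - t) * (t - 1)) := by
        rw [← s2]
        linear_combination (-(s * s - 1) ^ 3) * ss
      rw [pow_mul, e, mul_pow, mul_smul, ← Fa a h hh, hI i, LinearMap.zero_apply, smul_zero])
    (fun h h1 h2 => by
      rw [t3]
      exact hv h (fix h h2) (hg.tr h fun i => by rw [← hX, ← sm, h1]))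
  choose g hg' using fun i => geo_dvd (D (ψ (σ i))) S3 hn
  have k2 := key ((∏ i, g i) • w) fun i => by
    have e : (D (ψ (σ i)) - 1) ^ j * g i = 0 := by
      rw [show j = j - 1 + 1 by omega, pow_succ', mul_assoc, ← hg', mul_geom_sum, ← map_pow,
        hD.exp, map_one, sub_self]
    rw [smul_smul, ← mul_prod_erase univ g (mem_univ i), ← mul_assoc, e, zero_mul, zero_smul]
  rw [smul_smul, mul_assoc, ← prod_mul_distrib, prod_congr rfl fun i _ => (hg' i).symm,
    ← sum_eq hD D, mul_smul, t3, sum_smul] at k2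
  rw [← k2]
  exact congrArg _ (sum_congr rfl fun δ _ => by rw [sm, hDD])

end Vale.Agent.P027M.TW
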