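import Vale.Agent.P027M.TW.Defs

/-! # P027 route M, block TW: generators of the prime from the tangent space -/

set_option linter.all false

noncomputable section

namespace Vale.Agent.P027M.TW

theorem nak_drop {R : Type} [CommRing R] {m : ℕ} (x z : Fin (m + 1) → R) (j : Fin (m + 1))
    (hz : IsUnit (z j)) (h : ∑ i, z i * x i = 0) :
    Ideal.span (Set.range fun i => x (j.succAbove i)) = Ideal.span (Set.range x) := by
  refine le_antisymm (Ideal.span_mono ?_) (Ideal.span_le.2 ?_)
  · rintro _ ⟨i, rfl⟩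
    exact ⟨_, rfl⟩
  · rintro _ ⟨i, rfl⟩
    rcases Fin.eq_self_or_eq_succAbove j i with rfl | ⟨i, rfl⟩
    · rw [Fin.sum_univ_succAbove _ i] at h
      rw [SetLike.mem_coe, ← Ideal.unit_mul_mem_iff_mem _ hz, eq_neg_of_add_eq_zero_left h]
      exact neg_mem (Ideal.sum_mem _ fun l _ => Ideal.mul_mem_left _ _ (Ideal.subset_span ⟨l, rfl⟩))
    · exact Ideal.subset_span ⟨i, rfl⟩

theorem nak : Spec_NAK := by
  intro Λ R k _ _ _ _ _ lam red r hl hu hD
  classical
  have ex : ∃ n : ℕ, ∃ x : Fin n → R, Ideal.span (Set.range x) = RingHom.ker lam := by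
    obtain ⟨n, ⟨e⟩⟩ := Finite.exists_equiv_fin (RingHom.ker lam)
    refine ⟨n, fun i => (e.symm i : R), le_antisymm (Ideal.span_le.2 ?_) fun z hz => ?_⟩
    · rintro _ ⟨i, rfl⟩
      exact (e.symm i).2
    · exact Ideal.subset_span ⟨e ⟨z, hz⟩, by simp⟩
  obtain ⟨n, ⟨x, hx⟩, hmin⟩ : ∃ n : ℕ, (∃ x : Fin n → R,
      Ideal.span (Set.range x) = RingHom.ker lam) ∧ ∀ m < n, ¬ ∃ x : Fin m → R,
        Ideal.span (Set.range x) = RingHom.ker lam :=
    ⟨Nat.find ex, Nat.find_spec ex, fun m hm => Nat.find_min ex hm⟩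
  by_cases hn : n ≤ r
  · refine ⟨fun i => if h : (i : ℕ) < n then x ⟨i, h⟩ else 0, ?_⟩
    rw [← hx]
    refine le_antisymm (Ideal.span_le.2 ?_) (Ideal.span_mono ?_)
    · rintro _ ⟨i, rfl⟩
      dsimp only
      split_ifs with h
      · exact Ideal.subset_span ⟨_, rfl⟩
      · exact Ideal.zero_mem _
    · rintro _ ⟨i, rfl⟩
      exact ⟨Fin.castLE hn i, by simp⟩
  exfalso
  have hn' : r + 1 ≤ n := by omega
  have rel : ∀ z : Fin n → R, ∑ i, z i * x i = 0 → ∀ j, red (lam (z j)) = 0 := by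
    intro z hz j
    by_contra hc
    obtain ⟨m, rfl⟩ : ∃ m, n = m + 1 := ⟨n - 1, by omega⟩
    exact hmin m (Nat.lt_succ_self m) ⟨_, (nak_drop x z j (hu _ hc) hz).trans hx⟩
  have hc : ∀ z : R, ∃ c : Fin n → R, ∑ i, c i * x i = z - algebraMap Λ R (lam z) := by
    intro z
    rw [← Ideal.mem_span_range_iff_exists_fun, hx, RingHom.mem_ker, map_sub, hl, sub_self]
  choose c hc using hc
  have uq : ∀ (z : R) (c' : Fin n → R), ∑ i, c' i * x i = z - algebraMap Λ R (lam z) →
      ∀ i, red (lam (c z i)) = red (lam (c' i)) := by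
    intro z c' h i
    have := rel (fun i => c z i - c' i) (by
      simp only [sub_mul, Finset.sum_sub_distrib]
      rw [hc, h, sub_self]) i
    rwa [map_sub, map_sub, sub_eq_zero] at this
  let D : Fin n → R →+ k := fun i => AddMonoidHom.mk' (fun z => red (lam (c z i))) fun z w => by
    rw [uq (z + w) (fun i => c z i + c w i) (by
      simp only [add_mul, Finset.sum_add_distrib]
      rw [hc, hc, map_add, map_add]
      ring), map_add, map_add]
  have hDa : ∀ i z, D i z = red (lam (c z i)) := fun _ _ => rfl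
  have hDer : ∀ i, IsDer Λ (red.comp lam) (D i) := fun i => by
    refine ⟨fun z w => ?_, fun a => ?_⟩
    · rw [hDa, hDa, hDa, uq (z * w) (fun i => z * c w i + algebraMap Λ R (lam w) * c z i) (by
        simp only [add_mul, mul_assoc, Finset.sum_add_distrib, ← Finset.mul_sum]
        rw [hc, hc, map_mul, map_mul]
        ring)]
      simp only [map_add, map_mul, hl, RingHom.comp_apply]
    · rw [hDa, uq _ (fun _ => 0) (by simp [hl])]
      simp
  have hxl : ∀ j, lam (x j) = 0 := fun j => by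
    rw [← RingHom.mem_ker, ← hx]
    exact Ideal.subset_span ⟨j, rfl⟩
  have hDx : ∀ i j, D i (x j) = if i = j then 1 else 0 := fun i j => by
    rw [hDa, uq _ (fun i => if i = j then 1 else 0) (by simp [hxl])]
    split_ifs <;> simp
  obtain ⟨κ, hκ, h⟩ := hD (fun i => D (Fin.castLE hn' i)) fun i => hDer _
  refine hκ (funext fun j => ?_)
  have := h (x (Fin.castLE hn' j))
  simpa [hDx, (Fin.castLE_injective hn').eq_iff] using this

end Vale.Agent.P027M.TW
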