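import Vale.Agent.P027M.TW.Defs

/-! # P027, route M: the counting step at one finite level (abstract) -/

set_option linter.all false

namespace Vale.Agent.P027M.TW

open Finset

namespace P

variable {S H : Type*} [CommRing S] [AddCommGroup H] [Module S H]

/-- the image of `N` under multiplication by `z` -/
def im (z : S) (N : Submodule S H) : Submodule S H := N.map (LinearMap.lsmul S H z)

/-- the elements of `N` which are killed by all `z i`, `i ∈ s` -/
def kr {ι : Type*} (z : ι → S) (s : Finset ι) (N : Submodule S H) : Submodule S H where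
  carrier := {h | h ∈ N ∧ ∀ i ∈ s, z i • h = 0}
  add_mem' := fun a b => ⟨N.add_mem a.1 b.1, fun i hi => by rw [smul_add, a.2 i hi, b.2 i hi, add_zero]⟩
  zero_mem' := ⟨N.zero_mem, fun i _ => smul_zero _⟩
  smul_mem' := fun c h a => ⟨N.smul_mem c a.1, fun i hi => by rw [smul_comm, a.2 i hi, smul_zero]⟩

theorem mem_im {z : S} {N : Submodule S H} {h : H} : h ∈ im z N ↔ ∃ y ∈ N, z • y = h := Iff.rfl

theorem mem_kr {ι : Type*} {z : ι → S} {s : Finset ι} {N : Submodule S H} {h : H} :
    h ∈ kr z s N ↔ h ∈ N ∧ ∀ i ∈ s, z i • h = 0 := Iff.rfl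

theorem im_im (z z' : S) (N : Submodule S H) : im z (im z' N) = im (z * z') N := by
  ext h
  simp only [mem_im, mul_smul]
  exact ⟨fun ⟨_, ⟨y, hy, e⟩, e'⟩ => ⟨y, hy, by rw [e, e']⟩, fun ⟨y, hy, e⟩ => ⟨_, ⟨y, hy, rfl⟩, e⟩⟩

theorem im_one (N : Submodule S H) : im (1 : S) N = N := by
  ext h
  simp [mem_im]

theorem im_le (z : S) (N : Submodule S H) : im z N ≤ N := fun _ ⟨y, hy, e⟩ => e ▸ N.smul_mem z hy

theorem card_split (z : S) (N : Submodule S H) :
    Nat.card N = Nat.card (im z N) * Nat.card (N ⊓ LinearMap.ker (LinearMap.lsmul S H z) :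
      Submodule S H) := by
  set f := (LinearMap.lsmul S H z).domRestrict N with hf
  rw [Submodule.card_eq_card_quotient_mul_card (LinearMap.ker f), mul_comm,
    Nat.card_congr f.quotKerEquivRange.toEquiv, hf, LinearMap.range_domRestrict]
  congr 1
  exact Nat.card_congr ⟨fun h => ⟨h.1.1, h.1.2, h.2⟩, fun h => ⟨⟨h.1, h.2.1⟩, h.2.2⟩,
    fun _ => rfl, fun _ => rfl⟩

variable [Finite H]

theorem card_mono {N N' : Submodule S H} (h : N ≤ N') : Nat.card N ≤ Nat.card N' :=
  Nat.card_le_card_of_injective _ (Submodule.inclusion_injective h)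

theorem kf1 (z : S) (n : ℕ) (N : Submodule S H) : Nat.card N ≤ Nat.card (im (z ^ n) N) *
    Nat.card (N ⊓ LinearMap.ker (LinearMap.lsmul S H z) : Submodule S H) ^ n := by
  induction n with
  | zero => simp [im_one]
  | succ n ih =>
    refine ih.trans ?_
    rw [card_split z (im (z ^ n) N), im_im, ← pow_succ', pow_succ' (Nat.card _), mul_assoc]
    exact Nat.mul_le_mul_left _ (Nat.mul_le_mul_right _
      (card_mono (inf_le_inf_right _ (im_le _ _))))

theorem card_im_zero {z : S} {N : Submodule S H} (h : ∀ y ∈ N, z • y = 0) :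
    Nat.card (im z N) = 1 := by
  have : im z N = ⊥ := eq_bot_iff.2 fun _ ⟨y, hy, e⟩ => e ▸ h y hy
  rw [this]
  exact Nat.card_unique

theorem kf {ι : Type*} (z : ι → S) (n : ℕ) (N : Submodule S H) (s : Finset ι)
    (h : ∀ i ∈ s, ∀ y ∈ N, z i ^ n • y = 0) : Nat.card N ≤ Nat.card (kr z s N) ^ n ^ s.card := by
  classical
  induction s using Finset.induction_on with
  | empty =>
    simp only [card_empty, pow_zero, pow_one]
    exact card_mono fun y hy => ⟨hy, by simp⟩
  | insert i s hi ih =>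
    refine (ih fun k hk => h k (mem_insert_of_mem hk)).trans ?_
    rw [card_insert_of_notMem hi, pow_succ', pow_mul]
    refine Nat.pow_le_pow_left ((kf1 (z i) n _).trans ?_) _
    rw [card_im_zero (N := kr z s N) fun y hy => h i (mem_insert_self _ _) y hy.1, one_mul]
    refine Nat.pow_le_pow_left (card_mono ?_) _
    rintro y ⟨⟨h1, h2⟩, h3⟩
    refine ⟨h1, fun k hk => ?_⟩
    rcases mem_insert.1 hk with rfl | hk
    · exact h3
    · exact h2 k hk

theorem lf1 (z : S) (j : ℕ) (N : Submodule S H) (h : ∀ y ∈ N, z ^ (j + 1) • y = 0) (k : ℕ)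
    (hk : k ≤ j + 1) : Nat.card (im (z ^ k) N) * Nat.card (im (z ^ j) N) ^ k ≤ Nat.card N := by
  induction k with
  | zero => simp [im_one]
  | succ k ih =>
    refine le_trans ?_ (ih (by omega))
    rw [card_split z (im (z ^ k) N), im_im, ← pow_succ', pow_succ' (Nat.card _), ← mul_assoc]
    refine Nat.mul_le_mul_right _ (Nat.mul_le_mul_left _ (card_mono ?_))
    rintro _ ⟨y, hy, rfl⟩
    refine ⟨⟨z ^ (j - k) • y, N.smul_mem _ hy, ?_⟩, ?_⟩
    · show z ^ k • z ^ (j - k) • y = z ^ j • y
      rw [← mul_smul, ← pow_add, Nat.add_sub_cancel' (by omega)]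
    · show z • z ^ j • y = 0
      rw [← mul_smul, ← pow_succ', h y hy]

theorem lf {ι : Type*} (z : ι → S) (j : ℕ) (N : Submodule S H) (s : Finset ι)
    (h : ∀ i ∈ s, ∀ y ∈ N, z i ^ (j + 1) • y = 0) :
    Nat.card (im (∏ i ∈ s, z i ^ j) N) ^ (j + 1) ^ s.card ≤ Nat.card N := by
  classical
  induction s using Finset.induction_on with
  | empty => simp [im_one]
  | insert i s hi ih =>
    refine le_trans ?_ (ih fun k hk => h k (mem_insert_of_mem hk))
    rw [card_insert_of_notMem hi, pow_succ', pow_mul, prod_insert hi, ← im_im]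
    refine Nat.pow_le_pow_left ?_ _
    have := lf1 (z i) j (im (∏ i ∈ s, z i ^ j) N)
      (fun y hy => h i (mem_insert_self _ _) y (im_le _ _ hy)) (j + 1) le_rfl
    exact le_trans (Nat.le_mul_of_pos_left _ Nat.card_pos) this

theorem nil_kill {x : S} {N : Submodule S H} {n b : ℕ} (hx : ∀ y ∈ N, x ^ n • y = 0)
    (hb : Nat.card N ≤ 2 ^ b) : ∀ y ∈ N, x ^ b • y = 0 := by
  by_contra k
  push Not at k
  obtain ⟨y, hy, k⟩ := k
  have ex : ∃ m, ∀ y ∈ N, x ^ m • y = 0 := ⟨n, hx⟩
  classical
  have h1 := Nat.find_spec ex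
  have h2 : b < Nat.find ex := by
    by_contra a
    refine k ?_
    rw [← Nat.sub_add_cancel (not_lt.1 a), pow_add, mul_smul, h1 y hy, smul_zero]
  obtain ⟨j, hj⟩ : ∃ j, Nat.find ex = j + 1 := ⟨Nat.find ex - 1, by omega⟩
  have h3 := Nat.find_min ex (show j < Nat.find ex by omega)
  rw [hj] at h1 h2
  push Not at h3
  obtain ⟨u, hu, h3⟩ := h3
  have h4 := lf1 x j N h1 (j + 1) le_rfl
  have : Nontrivial (im (x ^ j) N) := ⟨⟨⟨_, u, hu, rfl⟩, 0, fun e => h3 (congrArg Subtype.val e)⟩⟩
  have h5 : 2 ≤ Nat.card (im (x ^ j) N) := Finite.one_lt_card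
  have h6 := (Nat.pow_le_pow_left h5 (j + 1)).trans
    ((Nat.le_mul_of_pos_left _ Nat.card_pos).trans (h4.trans hb))
  have := (Nat.pow_le_pow_iff_right (by norm_num)).1 h6
  omega

omit [Finite H] in
theorem kill_pow {ι : Type*} [Fintype ι] [Nonempty ι] (z : ι → S) {x : S} {b : ℕ}
    (hx : ∀ y : H, (∀ i, z i • y = 0) → x ^ b • y = 0) (n : ℕ) :
    ∀ e : ι → ℕ, ∑ i, e i ≤ n → ∀ y : H, (∀ i, z i ^ e i • y = 0) → x ^ (b * n) • y = 0 := by
  classical
  induction n with
  | zero =>
    intro e he y hy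
    obtain ⟨i⟩ := ‹Nonempty ι›
    have := hy i
    rw [sum_eq_zero_iff.1 (Nat.le_zero.1 he) i (mem_univ _)] at this
    simpa using this
  | succ n ih =>
    intro e he y hy
    rw [mul_add, mul_one, pow_add, mul_comm, mul_smul]
    refine hx _ fun i => ?_
    by_cases k : e i = 0
    · have := hy i
      rw [k, pow_zero, one_smul] at this
      simp [this]
    rw [smul_comm]
    refine ih (Function.update e i (e i - 1)) ?_ _ fun l => ?_
    · rw [sum_update_of_mem (mem_univ _)]
      rw [← add_sum_erase _ _ (mem_univ i), ← sdiff_singleton_eq_erase] at he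
      omega
    · by_cases c : l = i
      · subst c
        rw [Function.update_self, ← mul_smul, ← pow_succ, Nat.sub_add_cancel (by omega), hy]
      · rw [Function.update_of_ne c, smul_comm, hy, smul_zero]

end P

open P

theorem pcount : Spec_P := by
  intro r e v b
  refine ⟨b * v * e ^ r * (b * (r + 1)) ^ r + 1, fun j hj S H _ _ _ _ x y p hx hp hb h1 h2 w hw => ?_⟩
  classical
  by_contra hne
  obtain ⟨j, rfl⟩ : ∃ m, j = m + 1 := ⟨j - 1, by omega⟩
  set z : Option (Fin r) → S := fun o => o.elim p y with hz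
  have cB : Nat.card (kr z univ (⊤ : Submodule S H)) ≤ 2 ^ b := by
    refine le_trans (le_of_eq (Nat.card_congr (Equiv.subtypeEquivRight fun h => ?_))) hb
    simp [mem_kr, Option.forall, hz]
  set X : Submodule S H := kr x univ ⊤ with hX
  have c1 : Nat.card X ≤ 2 ^ (b * v * e ^ r) := by
    have a1 := kf y e X univ fun i _ h hh => h1 h (fun k => hh.2 k (mem_univ _)) i
    have a2 := kf (fun _ : Unit => p) v (kr y univ X) univ fun _ _ h hh =>
      h2 h (fun k => hh.1.2 k (mem_univ _)) fun k => hh.2 k (mem_univ _)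
    have a3 : kr (fun _ : Unit => p) univ (kr y univ X) ≤ kr z univ ⊤ := fun h hh =>
      ⟨trivial, fun o _ => by
        cases o with
        | none => exact hh.2 () (mem_univ _)
        | some i => exact hh.1.2 i (mem_univ _)⟩
    simp only [card_univ, Fintype.card_fin, Fintype.card_unit, pow_one] at a1 a2
    rw [pow_mul, pow_mul]
    exact a1.trans (Nat.pow_le_pow_left (a2.trans (Nat.pow_le_pow_left
      ((card_mono a3).trans cB) _)) _)
  set M : Submodule S H := kr (fun o => z o ^ (j + 1)) univ ⊤ with hM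
  have c2 := kf x (b * ((r + 1) * (j + 1))) M univ fun i _ h hh => by
    obtain ⟨n, hn⟩ := hx i
    refine kill_pow z (fun u hu => nil_kill (N := kr z univ ⊤) (fun u _ => hn u) cB u
      ⟨trivial, fun o _ => hu o⟩) _ (fun _ => j + 1) (by simp) h fun o => hh.2 o (mem_univ _)
  have c3 := lf z j M univ fun o _ h hh => hh.2 o (mem_univ _)
  have wM : w ∈ M := ⟨trivial, fun o _ => by
    cases o with
    | none => exact hp w
    | some i => exact hw i⟩
  have : Nontrivial (im (∏ o, z o ^ j) M) := ⟨⟨⟨_, w, wM, rfl⟩, 0, fun k => hne (by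
    have := congrArg Subtype.val k
    rw [Fintype.prod_option] at this
    exact this)⟩⟩
  have c4 : 2 ≤ Nat.card (im (∏ o, z o ^ j) M) := Finite.one_lt_card
  have c5 : kr x univ M ≤ X := fun h hh => ⟨trivial, hh.2⟩
  simp only [card_univ, Fintype.card_fin, Fintype.card_option] at c2 c3
  have c6 := (Nat.pow_le_pow_left c4 _).trans (c3.trans (c2.trans
    (Nat.pow_le_pow_left ((card_mono c5).trans c1) _)))
  rw [← pow_mul, Nat.pow_le_pow_iff_right (by norm_num), ← mul_assoc b, mul_pow _ (j + 1),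
    ← mul_assoc, pow_succ'] at c6
  have := Nat.le_of_mul_le_mul_right c6 (by positivity)
  omega

end Vale.Agent.P027M.TW
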