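import Vale.Agent.P027M.TW.Low

/-! # P027 route M, block TW: rows NEW and CUSP -/

noncomputable section

namespace Vale.Agent.P027M.TW

namespace New

variable {G Λ k H : Type} [Group G] [CommRing Λ] [Field k] [AddCommGroup H] [Module Λ H]
  {red : Λ →+* k} {j : ℕ}

theorem unit_of (hc : Coef red j) {a : Λ} (h : red a ≠ 0) : IsUnit a := by
  obtain ⟨b, hb⟩ := hc.surj (red a)⁻¹
  have h1 : IsNilpotent (a * b - 1) := hc.nil _ (by
    rw [map_sub, map_mul, hb, mul_inv_cancel₀ h, map_one, sub_self])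
  have h2 := h1.isUnit_add_one
  rw [sub_add_cancel] at h2
  exact isUnit_of_mul_isUnit_left h2

theorem two_ne (hc : Coef red j) : (2 : k) ≠ 0 := by
  intro h
  have h1 := congrArg red hc.three
  rw [map_pow, map_ofNat, map_zero] at h1
  have h2 : (3 : k) = 0 := (pow_eq_zero_iff'.1 h1).1
  exact one_ne_zero (by linear_combination h2 - h : (1 : k) = 0)

theorem det_ne (ρ : G →* M2 Λ) (g : G) : red (ρ g).det ≠ 0 := by
  have h : (ρ g).det * (ρ g⁻¹).det = 1 := by
    rw [← Matrix.det_mul, ← map_mul, mul_inv_cancel, map_one, Matrix.det_one]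
  have h1 := congrArg red h
  rw [map_mul, map_one] at h1
  exact left_ne_zero_of_mul_eq_one h1

theorem tau_mul (π : G →* Module.End Λ H) (ρ : G →* M2 Λ) (g : G) :
    tau π ρ g * π g = π g * π g + algebraMap Λ (Module.End Λ H) (ρ g).det := by
  rw [tau, add_mul, smul_mul_assoc, ← map_mul π g⁻¹, inv_mul_cancel, map_one,
    Algebra.algebraMap_eq_smul_one]

theorem new_core (hc : Coef red j) {π : G →* Module.End Λ H} {ρ : G →* M2 Λ} {g : G}
    (h : CHat π ρ g) (ht : red (ρ g).trace = 0) {u : Λ} (hu : red u = red (ρ g).det) {φ : H}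
    (e : π g (π g φ) = u • φ) : φ = 0 := by
  have n1 : IsNilpotent (tau π ρ g) := by
    have := Commute.isNilpotent_add (Algebra.commutes (ρ g).trace _).symm h.2
      ((hc.nil _ ht).map (algebraMap Λ (Module.End Λ H)))
    rwa [sub_add_cancel] at this
  have n2 : IsNilpotent (tau π ρ g * π g) := (h.1 g).isNilpotent_mul_right n1
  have u1 : IsUnit (u + (ρ g).det) := unit_of hc (by
    rw [map_add, hu, ← two_mul]
    exact mul_ne_zero (two_ne hc) (det_ne ρ g))
  have u2 := n2.neg.isUnit_add_left_of_commute (u1.map (algebraMap Λ (Module.End Λ H)))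
    (Algebra.commutes _ _).symm
  refine ((Module.End.isUnit_iff _).1 u2).1 ?_
  rw [tau_mul, map_zero]
  simp only [LinearMap.add_apply, LinearMap.neg_apply, Module.End.mul_apply,
    Module.algebraMap_end_apply, e, add_smul]
  abel

theorem cusp_core (hc : Coef red j) {π : G →* Module.End Λ H} {ρ : G →* M2 Λ} {g : G}
    (h : CHat π ρ g) (ht : red (1 - (ρ g).trace + (ρ g).det) ≠ 0) (φ : H) :
    ∃ φ', φ = π g φ' - φ' := by
  have u2 := h.2.isUnit_add_left_of_commute
    ((unit_of hc ht).neg.map (algebraMap Λ (Module.End Λ H))) (Algebra.commutes _ _).symm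
  have e : algebraMap Λ (Module.End Λ H) (-(1 - (ρ g).trace + (ρ g).det)) +
      (tau π ρ g - algebraMap Λ (Module.End Λ H) (ρ g).trace) =
      (π g - 1) * (π g + 1 - tau π ρ g) := by
    have e1 := tau_mul π ρ g
    rw [(h.1 g).eq] at e1
    rw [sub_mul, mul_sub, mul_add, e1, map_neg, map_add, map_sub, map_one, mul_one, one_mul]
    abel
  rw [e] at u2
  obtain ⟨x, hx⟩ := ((Module.End.isUnit_iff _).1 u2).2 φ
  exact ⟨(π g + 1 - tau π ρ g) x, hx.symm⟩

/-- the twisted action -/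
def twist {Δ E : Type} [CommGroup Δ] [Monoid E] (m : ℕ) (act : G →* E) (dl : Δ →* E)
    (ψ : G →* Δ) (hc : ∀ g δ, Commute (act g) (dl δ)) : G →* E where
  toFun g := dl ((ψ g)⁻¹ ^ m) * act g
  map_one' := by simp
  map_mul' g h := by
    rw [map_mul, map_mul, mul_inv, mul_pow, map_mul, mul_assoc, mul_assoc, ← mul_assoc (act g),
      (hc g _).eq, mul_assoc]

end New

open New

theorem new : Spec_NEW := by
  intro hH G ι A Λ k _ _ _ _ red j act T D ρ ln a ε Fr U hc hG h2 g ht u hu φ hφ e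
  obtain ⟨-, π, -, -, hπ, -, hC, -⟩ := hH G Unit ι A Λ k red j 0 act act 1 1 T D ρ ln a ε Fr U hc
    (fun _ => Subsingleton.elim _ _) hG (fun g => (one_mul _).symm) h2
  have := new_core hc (hC g) ht hu (φ := ⟨φ, hφ⟩) (Subtype.ext (by
    rw [hπ, hπ, ← Module.End.mul_apply, ← map_mul, ← pow_two]
    exact e))
  exact congrArg Subtype.val this

theorem cusp : Spec_CUSP := by
  intro hH G Δ ι A Λ k _ _ _ _ _ red j n act dl ψ T D ρ ln a ε Fr U hc hΔ hG h2 g hψ ht φ hφ
  obtain ⟨-, π, -, -, hπ, -, hC, -⟩ := hH G Δ ι A Λ k red j n act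
    (twist ((3 ^ n + 1) / 2) act dl ψ hG.cad) dl ψ T D ρ ln a ε Fr U hc hΔ hG (fun g => rfl) h2
  obtain ⟨φ', e⟩ := cusp_core hc (hC g) ht ⟨φ, hφ⟩
  refine ⟨φ', φ'.2, ?_⟩
  have e1 : twist ((3 ^ n + 1) / 2) act dl ψ hG.cad g = act g := by
    show dl ((ψ g)⁻¹ ^ _) * act g = act g
    rw [hψ, inv_one, one_pow, map_one, one_mul]
  have e2 := congrArg Subtype.val e
  rw [Submodule.coe_sub, hπ, e1] at e2
  rw [map_sub, map_one]
  exact e2

end Vale.Agent.P027M.TW
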