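import Vale.Agent.P027M.TW.TopA
import Vale.Agent.P027M.TW.New
import Vale.Agent.P027M.TW.Hch
import Vale.Agent.P027M.TW.Cy

/-! # P027 route M, block TW: the old part -/

set_option linter.all false

noncomputable section

namespace Vale.Agent.P027M.TW.TOld

open NumberField Vale.Agent.P022 LowP

/-- the good primes for `L`, indexed by `ι` -/
structure Ix (L : ℕ) {ι : Type} (ln : ι → ℕ) (un : ι → (ZMod L)ˣ) : Prop where
  pos : 0 < L
  good : ∀ i, GoodP L (ln i)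
  sur : ∀ l, GoodP L l → ∃ i, ln i = l
  val : ∀ i, (un i : ZMod L) = ln i

theorem good_dvd {M L l : ℕ} (h : M ∣ L) (hl : GoodP L l) : GoodP M l :=
  ⟨hl.1, fun h' => hl.2 (h'.trans (Nat.mul_dvd_mul_left 6 h))⟩

theorem um_cast {M L : ℕ} (h : M ∣ L) {u : (ZMod L)ˣ} {l : ℕ} (e : (u : ZMod L) = l) :
    ((ZMod.unitsMap h u : (ZMod M)ˣ) : ZMod M) = l := by
  rw [ZMod.unitsMap_val, e, ZMod.cast_natCast h]

theorem um_um {K M L : ℕ} (h : K ∣ M) (h' : M ∣ L) (u : (ZMod L)ˣ) :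
    ZMod.unitsMap h (ZMod.unitsMap h' u) = ZMod.unitsMap (h.trans h') u :=
  DFunLike.congr_fun (ZMod.unitsMap_comp h h') u

/-- Dirichlet: every unit modulo a divisor of `L` is a good prime -/
theorem Ix.onto {L M : ℕ} {ι : Type} {ln : ι → ℕ} {un : ι → (ZMod L)ˣ} (h : Ix L ln un)
    (hM : M ∣ L) (u : (ZMod M)ˣ) : ∃ i, ZMod.unitsMap hM (un i) = u := by
  haveI : NeZero M := ⟨(Nat.pos_of_dvd_of_pos hM h.pos).ne'⟩
  obtain ⟨p, h1, h2, h3⟩ := Nat.forall_exists_prime_gt_and_eq_mod u.isUnit (6 * L)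
  obtain ⟨i, hi⟩ := h.sur p ⟨h2, fun hd => by
    have := Nat.le_of_dvd (by have := h.pos; omega) hd
    omega⟩
  exact ⟨i, Units.ext (by rw [um_cast hM (h.val i), hi, h3])⟩

theorem Ix.dens {L : ℕ} {ι : Type} {ln : ι → ℕ} {un : ι → (ZMod L)ˣ} (h : Ix L ln un)
    {U : Subgroup GQ} (hU : IsOpen (U : Set GQ)) (Γ : Type) [Monoid Γ] [Finite Γ] (r : GQ →* Γ)
    (hr : ∀ u ∈ U, r u = 1) : Dens r fun φ => ∃ i, IsFrob (ln i) φ := by
  have h1 : IsOpen (r.ker : Set GQ) := Subgroup.isOpen_mono (fun u hu => hr u hu) hU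
  intro g ps p1 p2 p3
  obtain ⟨φ, ⟨l, l1, l2, l3⟩, m⟩ := TW.dens Γ r h1 (6 * L).primeFactors g ps p1 p2 p3
  obtain ⟨i, rfl⟩ := h.sur l ⟨l1, fun hd => l2 (Nat.mem_primeFactors.2 ⟨l1, hd, by
    have := h.pos
    omega⟩)⟩
  exact ⟨φ, ⟨i, l3⟩, m⟩

theorem red_red (j : ℕ) (ρ : GQ →* M2 O3) :
    redRep (resL j) (redRep (toLa (j + 1)) ρ) = redRep res3 ρ := by
  exact Top.red_red ρ j

theorem red_trace {R S : Type} [CommRing R] [CommRing S] (f : R →+* S) (ρ : GQ →* M2 R) (g : GQ) :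
    (redRep f ρ g).trace = f (ρ g).trace := by
  rw [Matrix.trace_fin_two, Matrix.trace_fin_two, map_add]
  rfl

theorem red_det {R S : Type} [CommRing R] [CommRing S] (f : R →+* S) (ρ : GQ →* M2 R) (g : GQ) :
    (redRep f ρ g).det = f (ρ g).det := (f.map_det (ρ g)).symm

section

variable {X : Mods} {N L : ℕ} {ρ : GQ →* M2 O3} {a : ℕ → O3} {ε : (ZMod N)ˣ →* O3} {ι : Type}
  {ln : ι → ℕ} {un : ι → (ZMod L)ˣ}

theorem two (R : Rho N ρ a ε) (j : ℕ) (g : GQ) :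
    ∃ s : ℕ, redRep (resL j) (redRep (toLa (j + 1)) ρ) g ^ 2 ^ s = 1 := by
  rw [red_red]
  obtain ⟨c, hc⟩ := R.res
  exact hc.two g

/-- a level without `Δ` -/
theorem galU (R : Rho N ρ a ε) (I : Ix L ln un) (hN : N ∣ L) {M : ℕ} (hM : M ∣ L)
    {H : Subgroup (ZMod M)ˣ} {j : ℕ} (V : Lv1 X M H j) (h4 : ∀ u, u ^ 4 ∈ H) :
    GalH j (X.act M H j) (1 : Unit →* AddMonoid.End (X.A M H j)) (1 : GQ →* Unit)
      (fun i => X.T M H j (ln i)) (fun i => X.dia M H j (ZMod.unitsMap hM (un i)))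
      (redRep (toLa j) ρ) ln (fun i => toLa j (a (ln i)))
      (fun i => toLa j (ε (ZMod.unitsMap hN (un i)))) (fun i φ => IsFrob (ln i) φ)
      ((X.act M H j).ker ⊓ (redRep (toLa j) ρ).ker) where
  fin := V.fin
  tor := V.tor
  cTT i i' := V.cTT _ _ (good_dvd hM (I.good i)) (good_dvd hM (I.good i'))
  cTD i i' := V.cTd _ _ (good_dvd hM (I.good i))
  cDD i i' := (Commute.all _ _).map _
  cTa i g := V.cTa _ _ (good_dvd hM (I.good i))
  cDa i g := V.cda _ _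
  cTd i δ := Commute.one_right _
  cDd i δ := Commute.one_right _
  cad g δ := Commute.one_right _
  es i φ h x := V.es _ (good_dvd hM (I.good i)) φ h _ (um_cast hM (I.val i)) x
  tr i φ h := by rw [red_trace, R.tr _ (good_dvd hN (I.good i)) φ h]
  det i φ h := by
    rw [red_det, R.det _ (good_dvd hN (I.good i)) φ h _ (um_cast hN (I.val i)), map_mul,
      map_natCast]
  ord := ⟨4, by decide, fun i => ⟨by rw [← map_pow, V.diaH _ (h4 _)], by
    rw [← map_pow, R.e4, map_one]⟩⟩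
  ex i := (cy.1 _ (I.good i).1).2
  ker u hu := ⟨hu.1, rfl, hu.2⟩
  dens := I.dens (V.opn.inter (R.opn j))

/-- the diamond operators on the `𝔪`-part -/
theorem dia_eq (R : Rho N ρ a ε) (I : Ix L ln un) {M : ℕ} (hN : N ∣ M) (hM : M ∣ L)
    {H : Subgroup (ZMod M)ˣ} {j : ℕ} (V : Lv1 X M H (j + 1)) (h4 : ∀ u, u ^ 4 ∈ H)
    {φ : Hm (La (j + 1)) (X.A M H (j + 1))}
    (hφ : φ ∈ mH (fun i => X.T M H (j + 1) (ln i))
      (fun i => X.dia M H (j + 1) (ZMod.unitsMap hM (un i))) (fun i => toLa (j + 1) (a (ln i)))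
      (fun i => toLa (j + 1) (ε (ZMod.unitsMap (hN.trans hM) (un i))))) (u : (ZMod M)ˣ) (z) :
    X.dia M H (j + 1) u (φ.hom z) = φ.hom (toLa (j + 1) (ε (ZMod.unitsMap hN u)) * z) := by
  obtain ⟨i, rfl⟩ := I.onto hM u
  have h1 := (Submodule.mem_iInf _).1 hφ (.inr i)
  have h2 := loc.2.1 (La (j + 1)) _ _ _ 4 (Hch.unit_of (coef j).three (by decide)) (by decide)
    (by
      show Hm.endo _ _ (X.dia M H (j + 1) (ZMod.unitsMap hM (un i))) ^ 4 = 1
      rw [← map_pow, ← map_pow, V.diaH _ (h4 _), map_one])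
    (by
      show toLa (j + 1) (ε (ZMod.unitsMap (hN.trans hM) (un i))) ^ 4 = 1
      rw [← map_pow, R.e4, map_one]) φ h1
  rw [um_um]
  exact congrArg (fun χ : Hm (La (j + 1)) (X.A M H (j + 1)) => χ.hom z) h2

theorem ok_up (h : Ok N (H4 N)) {M : ℕ} (hN : N ∣ M) (h0 : 0 < M) (h3 : ¬ 3 ∣ M)
    {H : Subgroup (ZMod M)ˣ} (hH : ∀ u, u ∈ H ↔ ZMod.unitsMap hN u ∈ H4 N) : Ok M H :=
  ⟨h0, h.four.trans hN, h3, (hH _).2 (by
    have : ZMod.unitsMap hN (-1) = -1 := by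
      haveI : NeZero M := ⟨h0.ne'⟩
      ext
      rw [ZMod.unitsMap_val, Units.val_neg, Units.val_one, ZMod.cast_neg hN, ZMod.cast_one hN]
      rfl
    rw [this]
    exact h.neg)⟩

theorem pow4_mem {M : ℕ} (hN : N ∣ M) {H : Subgroup (ZMod M)ˣ}
    (hH : ∀ u, u ∈ H ↔ ZMod.unitsMap hN u ∈ H4 N) (u : (ZMod M)ˣ) : u ^ 4 ∈ H :=
  (hH _).2 ⟨ZMod.unitsMap hN u, Or.inl (map_pow _ _ _)⟩

theorem three_nd (h : ¬ 3 ∣ N) {Q : Finset ℕ} (hQ : ∀ q ∈ Q, GoodP N q ∧ q % 12 = 7) :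
    ¬ 3 ∣ N * ∏ q ∈ Q, q := by
  intro hd
  rcases (Nat.Prime.dvd_mul Nat.prime_three).1 hd with h1 | h1
  · exact h h1
  · obtain ⟨p, hp, h2⟩ := (Prime.dvd_finset_prod_iff Nat.prime_three.prime _).1 h1
    have := (hQ p hp).2
    omega

theorem old_aux (tw : Tower X) (R : Rho N ρ a ε) (th : THE X N a ε) (I : Ix L ln un)
    (hNL : N ∣ L) (j : ℕ) (Q : Finset ℕ) :
    (∀ q ∈ Q, GoodP N q ∧ q % 12 = 7) → ∀ (M : ℕ), M = N * ∏ q ∈ Q, q → ∀ (hN : N ∣ M) (hM : M ∣ L)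
      (H : Subgroup (ZMod M)ˣ), (∀ u, u ∈ H ↔ ZMod.unitsMap hN u ∈ H4 N) →
      ∃ β : Fin (2 ^ Q.card) → X.A M H (j + 1) →+ X.A N (H4 N) (j + 1),
        Old (fun i => X.T N (H4 N) (j + 1) (ln i)) (fun i => X.T M H (j + 1) (ln i))
          (fun i => X.dia M H (j + 1) (ZMod.unitsMap hM (un i)))
          (fun i => toLa (j + 1) (a (ln i)))
          (fun i => toLa (j + 1) (ε (ZMod.unitsMap hNL (un i)))) β := by
  classical
  have V0 := tw.lv N (H4 N) (j + 1) R.ok (by omega)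
  induction Q using Finset.induction_on with
  | empty =>
    intro _ M e hN hM H hH
    rw [Finset.prod_empty, mul_one] at e
    subst e
    have eH : H = H4 M := Subgroup.ext fun u => by rw [hH, ZMod.unitsMap_self]; rfl
    subst eH
    refine ⟨fun _ => AddMonoidHom.id _, V0.fin, fun _ _ _ => rfl,
      fun φ _ h => Hm.ext fun z => h 0 z, ?_⟩
    obtain ⟨φ, h0, hT, hD⟩ := th (j + 1) (by omega)
    refine ⟨Hm.mk (φ.comp (resL j).toAddMonoidHom), ?_, fun h => h0 ?_⟩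
    · refine (Submodule.mem_iInf _).2 ?_
      rintro (i | i) <;> refine (Module.End.mem_maxGenEigenspace _ _ _).2 ⟨1, ?_⟩ <;>
        rw [pow_one, LinearMap.sub_apply, sub_eq_zero] <;> refine Hm.ext fun z => ?_
      · refine (hT _ (good_dvd hM (I.good i)) _).trans ?_
        show φ (_ * resL j z) = φ (resL j (toLa (j + 1) _ * z))
        rw [map_mul (resL j), resL_toLa]
      · refine (hD _ _).trans ?_
        show φ (_ * resL j z) = φ (resL j (toLa (j + 1) _ * z))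
        rw [map_mul (resL j), resL_toLa]
    · ext w
      obtain ⟨z, rfl⟩ := (coef j).surj w
      exact congrArg (fun χ : Hm (La (j + 1)) (X.A M (H4 M) (j + 1)) => χ.hom z) h
  | insert q Q hq ih =>
    intro hQ M e hN hM H hH
    have h3 : ¬ 3 ∣ M := e ▸ three_nd R.ok.three hQ
    rw [Finset.prod_insert hq, mul_comm q, ← mul_assoc] at e
    generalize hM' : N * ∏ q ∈ Q, q = M' at e
    subst e
    have hN' : N ∣ M' := hM' ▸ dvd_mul_right _ _
    have hM1 : M' ∣ L := (dvd_mul_right M' q).trans hM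
    obtain ⟨gq, q12⟩ := hQ q (Finset.mem_insert_self _ _)
    have gq' : GoodP M' q := ⟨gq.1, fun hd => by
      rw [← hM', ← mul_assoc] at hd
      rcases (Nat.Prime.dvd_mul gq.1).1 hd with h | h
      · exact gq.2 h
      · obtain ⟨p, hp, h1⟩ := (Prime.dvd_finset_prod_iff gq.1.prime _).1 h
        rw [(Nat.prime_dvd_prime_iff_eq gq.1 (hQ p (Finset.mem_insert_of_mem hp)).1.1).1 h1] at hq
        exact hq hp⟩
    let H' : Subgroup (ZMod M')ˣ := (H4 N).comap (ZMod.unitsMap hN')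
    have hH' : ∀ u, u ∈ H' ↔ ZMod.unitsMap hN' u ∈ H4 N := fun _ => Iff.rfl
    obtain ⟨β, hβ⟩ := ih (fun p hp => hQ p (Finset.mem_insert_of_mem hp)) M' hM'.symm hN' hM1 H' hH'
    have ok' : Ok M' H' := ok_up R.ok hN' (Nat.pos_of_dvd_of_pos hM1 I.pos)
      (fun h => h3 (h.mul_right q)) hH'
    have ok : Ok (M' * q) H := ok_up R.ok hN (Nat.pos_of_dvd_of_pos hM I.pos) h3 hH
    have V' := tw.lv M' H' (j + 1) ok' (by omega)
    have V := tw.lv _ H (j + 1) ok (by omega)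
    obtain ⟨pb, nm, p1, p2, n1, n2, n3, n4⟩ := tw.deg M' q H' H (j + 1) ok' (by omega) gq'
      (fun u => by rw [hH, hH', um_um])
    rw [Finset.card_insert_of_notMem hq]
    let e : Fin (2 ^ Q.card) × Fin 2 ≃ Fin (2 ^ (Q.card + 1)) := finProdFinEquiv
    refine ⟨fun u => (β (e.symm u).1).comp (nm (e.symm u).2), hβ.fin, fun u i y => ?_,
      fun φ hφ h => ?_, ?_⟩
    · show β _ (nm _ (X.T _ H (j + 1) (ln i) y)) = _
      rw [n1 _ _ _ (good_dvd hM (I.good i))]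
      exact hβ.eqv _ i _
    · have k0 : ∀ s z, nm s (φ.hom z) = 0 := fun s z =>
        congrArg (fun χ : Hm (La (j + 1)) (X.A M' H' (j + 1)) => χ.hom z)
          (hβ.inj (Hm.map _ (nm s) φ) (mH_map (nm s)
            (fun i y => n1 s _ y (good_dvd hM (I.good i)))
            (fun i y => by rw [n2, um_um]) hφ) fun u z => by
              have := h (e (u, s)) z
              rwa [Equiv.symm_apply_apply] at this)
      obtain ⟨g, hg⟩ := (cy.1 q gq.1).2
      haveI : NeZero (M' * q) := ⟨ok.pos.ne'⟩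
      obtain ⟨u, hu⟩ := ZMod.unitsMap_surjective (dvd_mul_right M' q)
        (ZMod.unitOfCoprime q ((Nat.Prime.coprime_iff_not_dvd gq.1).2
          fun hd => gq'.2 (hd.mul_left 6)))
      have hu1 : ((ZMod.unitsMap (dvd_mul_right M' q) u : (ZMod M')ˣ) : ZMod M') = q := by
        rw [hu, ZMod.coe_unitOfCoprime]
      have hu2 : ((ZMod.unitsMap hN u : (ZMod N)ˣ) : ZMod N) = q := by
        rw [← um_um hN' (dvd_mul_right M' q)]
        exact um_cast hN' hu1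
      have G := galU R I hNL hM V (pow4_mem hN hH)
      have q3 : (q : k9) = 1 := by
        have e1 : q = 3 * (q / 3) + 1 := by omega
        rw [e1]
        push_cast
        rw [show (3 : k9) = 0 from CharP.cast_eq_zero k9 3, zero_mul, zero_add]
      have nw := new (hch ch loc) GQ ι _ _ k9 (resL j) (j + 1) _ _ _ _ ln _ _ _ _ (coef j) G
        (two R j) g (by rw [red_trace, resL_toLa, R.tr q gq g hg, R.inert q gq (by omega)])
      have hd : resL j (redRep (toLa (j + 1)) ρ g).det = res3 (ε (ZMod.unitsMap hN u)) := by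
        rw [red_det, resL_toLa, R.det q gq g hg _ hu2, map_mul, map_natCast, q3, one_mul]
      set E := toLa (j + 1) (ε (ZMod.unitsMap hN u)) with hE
      have cT : ∀ i, Commute (X.T _ H (j + 1) (ln i)) (X.act _ H (j + 1) g ^ 2) :=
        fun i => (G.cTa i g).pow_right 2
      have cD : ∀ i, Commute (X.dia _ H (j + 1) (ZMod.unitsMap hM (un i)))
          (X.act _ H (j + 1) g ^ 2) := fun i => (G.cDa i g).pow_right 2
      have m1 := Submodule.sub_mem _ (mH_endo _ cT cD hφ) (Submodule.smul_mem _ E hφ)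
      have z1 := nw ((q : La (j + 1)) ^ 2 * E)
        (by rw [hd, map_mul, map_pow, map_natCast, q3, one_pow, one_mul, hE, resL_toLa]) _ m1
        (Hm.ext fun z => by
          have t1 := n4 g hg u hu1 (φ.hom z) fun s => k0 s z
          have t2 : (Hm.endo _ _ (X.act _ H (j + 1) g ^ 2) φ - E • φ).hom z =
              (X.act _ H (j + 1) g ^ 2 - X.dia _ H (j + 1) u) (φ.hom z) := by
            show _ = _ - X.dia _ H (j + 1) u (φ.hom z)
            rw [dia_eq R I hN hM V (pow4_mem hN hH) hφ]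
            rfl
          rw [endo_hom, Hm.smul_hom, mul_assoc, ← Nat.cast_pow, ← nsmul_eq_mul, map_nsmul,
            ← dia_eq R I hN hM V (pow4_mem hN hH) m1, t2]
          exact sub_eq_zero.1 t1)
      exact nw E (by rw [hd, hE, resL_toLa]) φ hφ (sub_eq_zero.1 z1)
    · obtain ⟨φ, hφ, h0⟩ := hβ.ne
      refine ⟨Hm.map _ pb φ, mH_map pb (fun i y => p1 _ y (good_dvd hM (I.good i)))
        (fun i y => by rw [← p2, um_um]) hφ, fun h => h0 ?_⟩
      have u1 : IsUnit ((q + 1 : ℕ) : La (j + 1)) := Hch.unit_of (coef j).three (by omega)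
      refine u1.smul_eq_zero.1 (Hm.ext fun z => ?_)
      have t1 : pb (φ.hom z) = 0 :=
        congrArg (fun χ : Hm (La (j + 1)) (X.A _ H (j + 1)) => χ.hom z) h
      rw [Hm.smul_hom, ← nsmul_eq_mul, map_nsmul, ← n3, t1, map_zero]
      rfl

end

end Vale.Agent.P027M.TW.TOld

namespace Vale.Agent.P027M.TW.Top

open Vale.Agent.P022

theorem old {X : Mods} {N : ℕ} {ρ : GQ →* M2 O3} {a : ℕ → O3} {ε : (ZMod N)ˣ →* O3}
    (hX : Tower X) (hR : Rho N ρ a ε) (hT : THE X N a ε)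
    (hF : ∀ l : ℕ, l.Prime → ∃ φ, IsFrob l φ) (hN : NEW) (j N' s : ℕ) (hs : s % 4 = 1)
    (h0 : 0 < N') (Q : Finset ℕ) (hQ : ∀ q ∈ Q, GoodP N q ∧ q % 4 = 3 ∧ 3 ∣ q - 1) (N1 : ℕ)
    (h : N ∣ N1) (H : Subgroup (ZMod N1)ˣ) (e : N1 = N * ∏ q ∈ Q, q) (h2 : N1 ∣ N')
    (hH : ∀ u, u ∈ H ↔ ZMod.unitsMap h u ∈ H4 N) :
    ∃ β : Fin (2 ^ Q.card) → X.A N1 H (j + 1) →+ X.A N (H4 N) (j + 1),
      Old (TT X N (H4 N) (j + 1) N') (TT X N1 H (j + 1) N') (DD X N1 H (j + 1) N' s)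
        (aa a (j + 1) N') (ee ε (j + 1) N') β := by
  have hQ' : ∀ q ∈ Q, GoodP N q ∧ q % 12 = 7 := fun q hq => by
    obtain ⟨h1, h3, h4⟩ := hQ q hq
    exact ⟨h1, by omega⟩
  have I : TOld.Ix N' (fun i : Ix N' => i.1) fun i => un N' i.1 :=
    ⟨h0, fun i => i.2, fun l hl => ⟨⟨l, hl⟩, rfl⟩, fun i => un_coe (good_cop i.2)⟩
  obtain ⟨β, hβ⟩ := TOld.old_aux hX hR hT I (h.trans h2) j Q hQ' N1 e h h2 H hH
  have V := hX.lv N1 H (j + 1) (TOld.ok_up hR.ok h (Nat.pos_of_dvd_of_pos h2 h0)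
    (e ▸ TOld.three_nd hR.ok.three hQ') hH) (by omega)
  have e1 : DD X N1 H (j + 1) N' s =
      fun i => X.dia N1 H (j + 1) (ZMod.unitsMap h2 (un N' i.1)) := funext fun i => by
    rw [un_map h2 (good_cop i.2), DD, ← Nat.div_add_mod s 4, hs, pow_succ, pow_mul', map_mul,
      V.diaH _ (TOld.pow4_mem h hH _), one_mul]
  have e2 : ee ε (j + 1) N' =
      fun i => toLa (j + 1) (ε (ZMod.unitsMap (h.trans h2) (un N' i.1))) := funext fun i => by
    rw [un_map _ (good_cop i.2), ee]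
  rw [e1, e2]
  exact ⟨β, hβ⟩

end Vale.Agent.P027M.TW.Top
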