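import Vale.Agent.P027M.TW.Defs

/-! # P027 route M, block TW: the tangent space is bounded by the Selmer group -/

set_option linter.all false

noncomputable section

namespace Vale.Agent.P027M.TW

open Matrix

namespace Tan

variable {Λ R k : Type} [CommRing Λ] [CommRing R] [Algebra Λ R] [Field k] {lb : R →+* k}
  {D : R →+ k}

theorem leib (h : IsDer Λ lb D) (M N : M2 R) :
    (M * N).map D = M.map lb * N.map D + M.map D * N.map lb := by
  ext i j
  simp only [map_apply, mul_apply, Fin.sum_univ_two, map_add, h.mul, Matrix.add_apply]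
  ring

theorem one (h : IsDer Λ lb D) : (1 : M2 R).map D = 0 := by
  have : D 1 = 0 := map_one (algebraMap Λ R) ▸ h.const 1
  ext i j
  rw [map_apply, one_apply]
  split_ifs
  exacts [this, map_zero D]

theorem tr0 (h : IsDer Λ lb D) {M : M2 R} (hM : M.det ∈ Set.range (algebraMap Λ R)) {N : M2 k}
    (e : M.map lb * N = 1) : (M.map D * N).trace = 0 := by
  obtain ⟨a, ha⟩ := hM
  have d := h.const a
  have d0 : (M.map lb).det ≠ 0 := left_ne_zero_of_mul_eq_one (by rw [← det_mul, e, det_one])
  have n : (M.map lb).det • N = adjugate (M.map lb) := by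
    rw [← one_mul N, ← smul_mul_assoc, ← adjugate_mul, mul_assoc, e, mul_one]
  refine (mul_eq_zero.1 ?_).resolve_left d0
  rw [← smul_eq_mul, ← trace_smul, ← mul_smul_comm, n, ← d, ha, det_fin_two, map_sub, h.mul, h.mul]
  simp only [adjugate_fin_two, trace_fin_two, mul_apply, Fin.sum_univ_two, map_apply, of_apply,
    cons_val', cons_val_zero, cons_val_one, cons_val_fin_one]
  ring

end Tan

open Tan in
theorem tan : Spec_TAN := by
  intro G Λ R k _ _ _ _ _ lb Φ U Fl Z r h1 h2 h3 h4 h5 h6 D hD
  have i1 : ∀ g, redRep lb Φ g * redRep lb Φ g⁻¹ = 1 := fun g => by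
    rw [← map_mul, mul_inv_cancel, map_one]
  have i2 : ∀ i g, ((Φ g).map (D i) * redRep lb Φ g⁻¹ * redRep lb Φ g).trace = D i (Φ g).trace :=
    fun i g => by
      rw [mul_assoc, ← map_mul, inv_mul_cancel, map_one, mul_one, AddMonoidHom.map_trace]
  obtain ⟨κ, κ0, m, hm⟩ := h6 (fun i g => (Φ g).map (D i) * redRep lb Φ g⁻¹)
    (fun i g h => by
      rw [map_mul, leib (hD i), _root_.mul_inv_rev, map_mul, add_mul, add_comm, ← redRep_apply,
        ← redRep_apply, mul_assoc, ← mul_assoc (redRep lb Φ h), i1, one_mul]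
      simp only [mul_assoc])
    (fun i g => tr0 (hD i) (h2 g) (i1 g)) (fun i u hu => by rw [h3 u hu, one (hD i), zero_mul])
    (fun i θ => ⟨_, h4 (θ.comp (D i).mapMatrix), fun s hs => by
      have := i1 s
      rw [hs, one_mul] at this
      simp [this, one (hD i)]⟩)
    fun i z hz => by
      obtain ⟨a, ha⟩ := h5 z hz
      rw [i2, ← ha, (hD i).const]
  refine ⟨κ, κ0, fun z => ?_⟩
  induction h1 z using Algebra.adjoin_induction with
  | mem x hx =>
    obtain ⟨g, rfl⟩ := hx
    have := congrArg (fun M => (M * redRep lb Φ g).trace) (hm g)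
    simp only [Finset.sum_mul, smul_mul_assoc, trace_sum, trace_smul, i2, smul_eq_mul] at this
    rw [this, sub_mul, mul_assoc, ← map_mul, inv_mul_cancel, map_one, mul_one, trace_sub,
      trace_mul_comm, sub_self]
  | algebraMap a => simp [(hD _).const]
  | add x y _ _ a b => simp only [map_add, mul_add, Finset.sum_add_distrib, a, b, add_zero]
  | mul x y _ _ a b =>
    simp only [(hD _).mul, mul_add, Finset.sum_add_distrib, mul_left_comm (κ _), ← Finset.mul_sum,
      a, b, mul_zero, add_zero]

end Vale.Agent.P027M.TW
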