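import Vale.Agent.P027M.TW.TopB
import Vale.Agent.P027M.TW.TOld
import Vale.Agent.P027M.TW.Cy
import Vale.Agent.P027M.TW.Ram
import Vale.Agent.P027M.TW.Lev
import Vale.Agent.P027M.TW.Spl
import Vale.Agent.P027M.TW.Gen
import Vale.Agent.P027M.TW.Gma
import Vale.Agent.P027M.TW.Tan
import Vale.Agent.P027M.TW.Nak
import Vale.Agent.P027M.TW.Conj
import Vale.Agent.P027M.TW.Mid
import Vale.Agent.P027M.TW.P
import Vale.Agent.P027M.TW.Hch

/-! # P027 route M, block TW: the theorem of the block -/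

namespace Vale.Agent.P027M.TW

theorem twg : TWG :=
  Top.twg_of cy ram lev Spl.spl
    (low2 (hch ch loc) (gen gma tan nak conj) (mid pcount) loc) (cusp2 (hch ch loc))
    fun _ _ _ _ _ hX hR hT hF => Top.old hX hR hT hF (new (hch ch loc))

end Vale.Agent.P027M.TW
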