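import Vale.Agent.P027M.J.Igu
import Vale.Agent.P027M.J.I2
import Vale.Agent.P027M.J.Kr
import Vale.Agent.P027M.J.Kro2
import Vale.Agent.P027M.I.Van3
import Vale.Agent.P027M.G.All
import Vale.Agent.P027M.M.Alk3
import Vale.Agent.P027M.TW.InF
import Vale.Agent.P027M.TW.Top
import Vale.Agent.P027M.TW.RhoG
import Vale.Agent.P027M.TW.EigH
import Vale.Agent.P027M.Kp.Kap2
import Vale.Agent.P027M.Th.InThe
import Vale.Agent.P027M.Th.Kap
import Vale.Agent.P027M.Th.Kbc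
import Vale.Agent.P027M.Th.Kord
import Vale.Agent.P027M.Th.Kpa
import Vale.Agent.P027M.Th.Kpc
import Vale.Agent.P027M.Th.Kwid
import Vale.Agent.P027M.Th.An
import Vale.Agent.P027M.Th.Cst
import Vale.Agent.P027M.Th.Cusp
import Vale.Agent.P027M.Th.Hek
import Vale.Agent.P027M.Th.Lat
import Vale.Agent.P027M.Th.Law
import Vale.Agent.P027M.Th.Per
import Vale.Agent.P027M.Th.Prim

/-! # P027 route M, block TW: from the representation to the eigenclass -/

set_option linter.all false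

noncomputable section

namespace Vale.Agent.P027M.TW

open NumberField Vale.Agent.P022 Vale.Agent.P027M.M

/-- **modularity on Kummer classes** -/
def MODK : Prop := ∀ (X : Mdl) (i : 𝓞 Qb) (N : ℕ) (ε : ZMod N →* GaussianInt) (M : GaussianInt)
  (ξ : GaussianInt →* GaussianInt) (c : ℤ) (a : ℕ → O3) (ρ : GQ →* M2 O3),
  F.GalA i N ε M ξ c a ρ → OutK X N a

/-- **the input of block FORM** -/
def OCC : Prop := ∀ (S : Sys) (i : 𝓞 Qb) (ε : ZMod S.N →* GaussianInt) (M : GaussianInt)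
  (ξ : GaussianInt →* GaussianInt) (c : ℤ) (a : ℕ → O3) (ρ : GQ →* M2 O3),
  F.GalA i S.N ε M ξ c a ρ → ∀ B : ℕ, 6 * S.N ∣ B →
  (∀ l : ℕ, l.Prime → ¬ l ∣ B → a l = S.a iO wO l) → Fo.EigH S (H4 S.N) B

namespace All0

theorem theta0 : Th.THETA :=
  Th.theta_of (Th.per Th.an Th.law Th.cusp (Th.prim Th.an) (Th.Hek.hek Th.an) Th.cst) Th.lat

theorem kbc0 : Th.KBC := mdl.elim fun X => Th.kbc X grp (x_faith X)

theorem kap0 : Th.KAP := mdl.elim fun X => Th.kap grp kbc0 (Th.kord X grp M.exp (Th.kpa X grp kbc0)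
  (Th.kpc X grp (artin X) x_cffs (x_plc X) kbc0 (Th.kwid X grp (artin X) x_cffs M.exp (x_plc X))))

theorem kro10 (X : Mdl) : J.KRO1 X := J.kro1 X x_prim M.exp (x_galx X) grp cf2

theorem kro20 (X : Mdl) : J.KRO2 X := J.kro2 X x_prim M.exp (x_galx X) cf2

theorem krm0 (X : Mdl) : J.KRM X :=
  J.krm X M.exp (x_plc X) (artin X) grp x_cffs (x_faith X) (x_galx X) cf2 (G.g_modg X)
    (G.g_unrm X) (kro10 X)

theorem mIn0 {X : Mdl} (h : ALK X) : MIn X :=
  ⟨grp, x_cffs, artin X, x_faith X, x_galx X, x_unram, x_hec3 X, x_act X, x_comm X,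
    x_es G.g_key X, x_unr G.g_key X, x_open X, x_lev X, h⟩

theorem inIGU0 {X : Mdl} (h : ALK X) : InIGU X :=
  J.Igu.inIGU (mIn0 h) M.exp cf2 (x_shim X) G.ave G.g_winf (G.g_wgal X) I.i1b' I.n0' (krm0 X)

theorem inI20 (X : Mdl) : InI2 X :=
  J.inI2 X M.exp (x_galx X) grp cf2 (x_shim X) (x_hec3 X) serg (x_normf X) G.ave G.g_winf
    (G.g_wgal X) (krm0 X) (kro10 X) (kro20 X) I.n0' I.i2a'

end All0

open All0

theorem modK_of (h : ∀ X, ALK X) : MODK := fun X _ N _ _ _ _ a ρ hG =>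
  twk twg font0 ov3 X (mIn0 (h X)) (inFL (mIn0 (h X)) (G.g_atlm X)) (inIGU0 (h X)) (inI20 X)
    N ρ a _ (rho_of hG) (Th.inTHE X theta0 kap0 grp step hG.hk hG.res)

theorem occ_of (h : MODK) : OCC := fun S i ε M ξ c a ρ hG _ hB hb =>
  mdl.elim fun X => eigH_of grp (rho_of hG).ok (h X i S.N ε M ξ c a ρ hG)
    (inKAP X grp (rho_of hG).ok) hB hb

/-- **modularity on Kummer classes** -/
theorem modK0 : MODK := modK_of x_alk

/-- **the eigenclass exists** -/
theorem occ0 : OCC := occ_of modK0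

end Vale.Agent.P027M.TW
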