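import Vale.Agent.P027M.TW.Defs

/-! # P027 route M, block TW: Cayley-Hamilton for all elements (row CH) -/

set_option linter.all false

noncomputable section

namespace Vale.Agent.P027M.TW

namespace ChAux

theorem ch2 {Λ : Type} [CommRing Λ] (M : M2 Λ) :
    M * M = algebraMap Λ (M2 Λ) M.trace * M - algebraMap Λ (M2 Λ) M.det := by
  rw [← Algebra.smul_def, Algebra.algebraMap_eq_smul_one]
  ext a b
  fin_cases a <;> fin_cases b <;>
    simp [Matrix.mul_apply, Fin.sum_univ_two, Matrix.trace_fin_two, Matrix.det_fin_two] <;> ring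

theorem tr_rec {Λ : Type} [CommRing Λ] (M : M2 Λ) (u : ℕ) :
    (M ^ (u + 2)).trace = M.trace * (M ^ (u + 1)).trace - M.det * (M ^ u).trace := by
  have : M ^ (u + 2) = M.trace • M ^ (u + 1) - M.det • M ^ u := by
    rw [show M ^ (u + 2) = M * M * M ^ u by rw [pow_add, pow_two, (Commute.pow_left
      ((Commute.refl M).mul_right (Commute.refl M)) u).eq], ch2, sub_mul, mul_assoc, ← pow_succ',
      ← Algebra.smul_def, ← Algebra.smul_def]
  rw [this, Matrix.trace_sub, Matrix.trace_smul, Matrix.trace_smul, smul_eq_mul, smul_eq_mul]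

theorem unip {Λ A : Type} [CommRing Λ] [Ring A] [Algebra Λ A] {X n : A} {t d : Λ}
    (hc : Commute n X) (hn : IsNilpotent n) (ht : IsNilpotent (t - 2)) (hd : IsNilpotent (1 - d))
    (h : X * X = (n + algebraMap Λ A t) * X - algebraMap Λ A d) : IsNilpotent (X - 1) := by
  refine IsNilpotent.of_pow (m := 2) ?_
  have e : (X - 1) ^ 2 = (n + algebraMap Λ A (t - 2)) * X + algebraMap Λ A (1 - d) := by
    rw [pow_two, sub_mul, mul_sub, h, map_sub, map_sub, map_one, map_ofNat]
    noncomm_ring
  rw [e]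
  have c1 : Commute (n + algebraMap Λ A (t - 2)) X := hc.add_left (Algebra.commutes _ _)
  refine Commute.isNilpotent_add (Algebra.commutes _ _).symm (c1.isNilpotent_mul_right ?_)
    (hd.map _)
  exact Commute.isNilpotent_add (Algebra.commutes _ _).symm hn (ht.map _)

theorem eq_one {A : Type} [Ring A] {z : A} {p : ℕ} (hn : IsNilpotent (z - 1)) (hp : IsUnit (p : A))
    (h : z ^ p = 1) : z = 1 := by
  have c : ∀ i j : ℕ, Commute (z ^ i - 1) (z ^ j - 1) := fun i j =>
    ((Commute.pow_pow_self z i j).sub_right (Commute.one_right _)).sub_left (Commute.one_left _)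
  have n1 : IsNilpotent (∑ i ∈ Finset.range p, (z ^ i - 1)) :=
    Commute.isNilpotent_sum (fun i _ => by
      rw [← geom_sum_mul]
      refine Commute.isNilpotent_mul_left (Commute.sum_left _ _ _ fun k _ => ?_) hn
      exact (Commute.pow_self z k).sub_right (Commute.one_right _)) fun i j _ _ => c i j
  have u : IsUnit (∑ i ∈ Finset.range p, z ^ i) := by
    have := n1.isUnit_add_right_of_commute hp (Nat.cast_commute p _).symm
    rwa [Finset.sum_sub_distrib, Finset.sum_const, Finset.card_range, nsmul_one,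
      sub_add_cancel] at this
  have e := geom_sum_mul z p
  rw [h, sub_self] at e
  exact sub_eq_zero.1 (u.mul_right_eq_zero.1 e)

variable {G Λ H : Type} [Group G] [CommRing Λ] [AddCommGroup H] [Module Λ H]
  {π : G →* Module.End Λ H} {ρ : G →* M2 Λ}

theorem cm_tau {x : Module.End Λ H} (h : ∀ g, Commute x (π g)) (g : G) :
    Commute x (tau π ρ g) := (h g).add_right ((h _).smul_right _)

theorem tau_rec (φ : G) (u : ℕ) : tau π ρ (φ ^ (u + 2)) =
    tau π ρ φ * tau π ρ (φ ^ (u + 1)) - (ρ φ).det • tau π ρ (φ ^ u) := by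
  have e1 : π φ * π φ⁻¹ ^ (u + 1) = π φ⁻¹ ^ u := by
    rw [pow_succ', ← mul_assoc, ← map_mul, mul_inv_cancel, map_one, one_mul]
  have e2 : π φ⁻¹ * π φ ^ (u + 1) = π φ ^ u := by
    rw [pow_succ', ← mul_assoc, ← map_mul, inv_mul_cancel, map_one, one_mul]
  simp only [tau, ← inv_pow, map_pow, Matrix.det_pow, add_mul, mul_add, smul_mul_assoc,
    mul_smul_comm, e1, e2, ← pow_succ', smul_add, smul_smul]
  module

theorem chat_pow {φ : G} (h : CHat π ρ φ) (u : ℕ) : CHat π ρ (φ ^ u) := by
  have sc : ∀ (a : Λ) (x : Module.End Λ H), Commute (algebraMap Λ _ a) x := fun a x =>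
    Algebra.commutes a x
  induction u using Nat.twoStepInduction with
  | zero =>
    have e : tau π ρ (φ ^ 0) = algebraMap Λ _ (ρ (φ ^ 0)).trace := by
      simp [tau, one_add_one_eq_two, map_ofNat]
    refine ⟨fun g => ?_, ?_⟩
    · rw [e]
      exact sc _ _
    · rw [e, sub_self]
      exact IsNilpotent.zero
  | one => simpa only [pow_one] using h
  | more u h0 h1 =>
    refine ⟨fun g => ?_, ?_⟩
    · rw [tau_rec]
      exact ((h.1 g).mul_left (h1.1 g)).sub_left ((h0.1 g).smul_left _)
    · have e : tau π ρ (φ ^ (u + 2)) - algebraMap Λ _ (ρ (φ ^ (u + 2))).trace =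
          (tau π ρ φ - algebraMap Λ _ (ρ φ).trace) * tau π ρ (φ ^ (u + 1)) +
            (ρ φ).trace • (tau π ρ (φ ^ (u + 1)) - algebraMap Λ _ (ρ (φ ^ (u + 1))).trace) -
            (ρ φ).det • (tau π ρ (φ ^ u) - algebraMap Λ _ (ρ (φ ^ u)).trace) := by
        rw [tau_rec, map_pow, tr_rec, ← map_pow, ← map_pow]
        simp only [Algebra.algebraMap_eq_smul_one, sub_mul, smul_mul_assoc, one_mul]
        module
      rw [e]
      have c0 : ∀ g, Commute ((tau π ρ φ - algebraMap Λ _ (ρ φ).trace) * tau π ρ (φ ^ (u + 1)))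
          (π g) := fun g => ((h.1 g).sub_left (sc _ _)).mul_left (h1.1 g)
      refine Commute.isNilpotent_sub ?_ (Commute.isNilpotent_add ?_ ?_ (h1.2.smul _))
        (h0.2.smul _)
      · exact ((cm_tau (fun g => (c0 g).add_left (((h1.1 g).sub_left (sc _ _)).smul_left _))
          _).sub_right (sc _ _).symm).smul_right _
      · exact ((cm_tau c0 _).sub_right (sc _ _).symm).smul_right _
      · exact (cm_tau (fun g => (h.1 g).sub_left (sc _ _)) _).isNilpotent_mul_right h.2

theorem chat_congr {g g' : G} (h1 : π g = π g') (h2 : ρ g = ρ g') (h : CHat π ρ g) :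
    CHat π ρ g' := by
  have e : π g⁻¹ = π g'⁻¹ := by
    calc π g⁻¹ = π g⁻¹ * (π g' * π g'⁻¹) := by rw [← map_mul, mul_inv_cancel, map_one, mul_one]
      _ = π g'⁻¹ := by rw [← h1, ← mul_assoc, ← map_mul, inv_mul_cancel, map_one, one_mul]
  unfold CHat tau at h ⊢
  rwa [← h1, ← h2, ← e]

end ChAux

open ChAux

theorem ch : Spec_CH := by
  intro G Λ k H _ _ _ _ _ _ red j π ρ Fr C dens two hF g
  haveI := C.fin
  haveI : Finite (Module.End Λ H) := Finite.of_injective _ DFunLike.coe_injective
  have fin : orderOf (π.prod ρ g) ≠ 0 := by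
    have := (isOfFinOrder_of_finite ((π.prod ρ).toHomUnits g)).orderOf_pos
    rw [← orderOf_units] at this
    exact this.ne'
  have key : ∀ p : ℕ, p.Prime → p ∣ orderOf (π.prod ρ g) → p ∈ ({2, 3} : Finset ℕ) := by
    intro p hp hd
    by_contra hn
    simp only [Finset.mem_insert, Finset.mem_singleton, not_or] at hn
    have o1 : orderOf (π.prod ρ (g ^ (orderOf (π.prod ρ g) / p))) = p := by
      rw [map_pow, orderOf_pow_orderOf_div fin hd]
    obtain ⟨φ, hφ, m, hm, e⟩ := dens (g ^ (orderOf (π.prod ρ g) / p)) {p}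
      (fun q hq => by rwa [Finset.mem_singleton.1 hq]) (by
        rw [Finset.sum_singleton, div_lt_one (by exact_mod_cast hp.pos)]
        exact_mod_cast hp.one_lt) fun q hq h => by
        rw [o1] at h
        exact Finset.mem_singleton.2 ((Nat.prime_dvd_prime_iff_eq hq hp).1 h)
    have o2 : orderOf (π.prod ρ φ) = p := by rw [e, hm.symm.orderOf_pow, o1]
    obtain ⟨a, ha⟩ := two φ
    rw [← map_pow, redRep_apply] at ha
    have hh := chat_pow (hF φ hφ) (2 ^ a)
    have z : π.prod ρ (φ ^ 2 ^ a) ^ p = 1 := by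
      rw [map_pow, ← pow_mul, mul_comm, pow_mul, ← o2, pow_orderOf_eq_one, one_pow]
    generalize hv : φ ^ 2 ^ a = v at ha hh z
    have nt : IsNilpotent ((ρ v).trace - 2) := C.nil _ (by
      rw [map_sub, AddMonoidHom.map_trace red, ha, map_ofNat]
      simp)
    have nd : IsNilpotent (1 - (ρ v).det) := C.nil _ (by
      rw [map_sub, RingHom.map_det, RingHom.mapMatrix_apply, ha, map_one, Matrix.det_one, sub_self])
    have pu : IsUnit (p : Λ) := by
      have := (Nat.Coprime.pow_right j ((Nat.coprime_primes hp Nat.prime_three).2 hn.2)).cast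
        (R := Λ)
      rwa [Nat.cast_pow, Nat.cast_ofNat, C.three, isCoprime_zero_right] at this
    have e1 : π v = 1 := by
      refine eq_one (unip ((hh.1 v).sub_left (Algebra.commutes _ _)) hh.2 nt nd ?_)
        (by simpa using pu.map (algebraMap Λ (Module.End Λ H))) (congrArg Prod.fst z)
      rw [sub_add_cancel, tau, add_mul, smul_mul_assoc, ← map_mul π v⁻¹, inv_mul_cancel, map_one,
        Algebra.algebraMap_eq_smul_one, add_sub_cancel_right]
    have e2 : ρ v = 1 := by
      refine eq_one (unip (Commute.zero_left _) IsNilpotent.zero nt nd ?_)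
        (by simpa using pu.map (algebraMap Λ (M2 Λ))) (congrArg Prod.snd z)
      rw [zero_add]
      exact ch2 _
    have e3 : π.prod ρ φ ^ 2 ^ a = 1 := by
      rw [← map_pow, hv]
      exact Prod.ext e1 e2
    have := orderOf_dvd_of_pow_eq_one e3
    rw [o2] at this
    exact hn.1 ((Nat.prime_dvd_prime_iff_eq hp Nat.prime_two).1 (hp.dvd_of_dvd_pow this))
  obtain ⟨φ, hφ, m, hm, e⟩ := dens g {2, 3} (fun q hq => by
    rcases Finset.mem_insert.1 hq with rfl | hq
    · exact Nat.prime_two
    · rw [Finset.mem_singleton.1 hq]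
      exact Nat.prime_three) (by norm_num) key
  obtain ⟨m', hm'⟩ := exists_pow_eq_self_of_coprime hm
  rw [← e, ← map_pow] at hm'
  exact chat_congr (congrArg Prod.fst hm') (congrArg Prod.snd hm') (chat_pow (hF φ hφ) m')

end Vale.Agent.P027M.TW
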