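import Vale.Agent.P027M.TW.Tow
import Vale.Agent.P022.H231.L3.Hec

/-! # P027 route M, block TW: from eigenvectors modulo `3 ^ j` to an eigen-homomorphism -/

set_option linter.all false

noncomputable section

namespace Vale.Agent.P027M.TW

open Vale.Agent.P022.H231.L3
open scoped MatrixGroups nonZeroDivisors

/-- `c'` is the image of `c` under the Hecke operator `T_l` (on `Γ`) -/
def Hec {Y : Type} [AddCommGroup Y] (N : ℕ) (Γ : Subgroup SL(2, ℤ)) (l : ℕ)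
    (c c' : SL(2, ℤ) → Y) : Prop :=
  ∀ d : SL(2, ℤ), IsDel 1 N l d → ∀ γ ∈ Γ,
    ∀ (s : Equiv.Perm (Option (Fin l))) (g : Option (Fin l) → SL(2, ℤ)), (∀ i, g i ∈ Γ) →
      (∀ i, al 1 l d i * (γ : Matrix (Fin 2) (Fin 2) ℤ) =
        (g i : Matrix (Fin 2) (Fin 2) ℤ) * al 1 l d (s i)) → ∑ i, c (g i) = c' γ

/-- `c` kills the parabolic elements of `Γ` -/
def Par {Y : Type} [AddCommGroup Y] (Γ : Subgroup SL(2, ℤ)) (c : SL(2, ℤ) → Y) : Prop :=
  ∀ (g : SL(2, ℤ)) (h : ℤ), g * ModularGroup.T ^ h * g⁻¹ ∈ Γ → c (g * ModularGroup.T ^ h * g⁻¹) = 0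

/-- the bridge from the modules to homomorphisms on `Γ` -/
def KAP (X : Mods) (N : ℕ) (H : Subgroup (ZMod N)ˣ) (Γ : Subgroup SL(2, ℤ)) : Prop :=
  ∀ j, 1 ≤ j → ∃ (Y : Type) (_ : AddCommGroup Y) (κ : X.A N H j →+ (SL(2, ℤ) → Y)),
    (∀ x, AddOn Γ (κ x)) ∧ (∀ x, Par Γ (κ x)) ∧ (∀ x, (∀ γ ∈ Γ, κ x γ = 0) → x = 0) ∧
    ∀ l, GoodP N l → ∀ x, Hec N Γ l (κ x) (κ (X.T N H j l x))

/-- `OUT` for homomorphisms on `Γ` -/
def OutH (N : ℕ) (Γ : Subgroup SL(2, ℤ)) (a : ℕ → O3) : Prop :=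
  ∀ (B : Finset ℕ) (v : ℕ), ∃ (j : ℕ) (Y : Type) (_ : AddCommGroup Y)
    (β : La j →+ (SL(2, ℤ) → Y)), (∀ z, AddOn Γ (β z)) ∧ (∀ z, Par Γ (β z)) ∧
    (∀ l ∈ B, GoodP N l → ∀ z, Hec N Γ l (β z) (β (toLa j (a l) * z))) ∧
    ∃ z, ∃ γ ∈ Γ, β (3 ^ v * z) γ ≠ 0

theorem outH_of {X : Mods} {N : ℕ} {Γ : Subgroup SL(2, ℤ)} {a : ℕ → O3} (hO : OUT X N a)
    (hK : KAP X N (H4 N) Γ) : OutH N Γ a := by
  intro B v
  obtain ⟨j, hj, φ, hφ, hv⟩ := hO B v
  obtain ⟨Y, _, κ, ha, hp, hi, hh⟩ := hK j hj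
  refine ⟨j, Y, inferInstance, κ.comp φ, fun z => ha _, fun z => hp _, fun l hl hG z => ?_, ?_⟩
  · have e := hh l hG (φ z)
    rw [hφ l hl hG] at e
    exact e
  · by_contra hc
    push Not at hc
    apply hv
    ext z
    rw [AddMonoidHom.smul_apply, ← map_nsmul, nsmul_eq_mul, Nat.cast_pow, Nat.cast_ofNat]
    exact hi _ (hc z)

/-- a nonzero parabolic homomorphism with eigenvalues `a l` at the primes in `G` -/
def EIGo {E : Type} [Field E] (N : ℕ) (Γ : Subgroup SL(2, ℤ)) (G : ℕ → Prop) (a : ℕ → E) : Prop :=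
  ∃ u : SL(2, ℤ) → E, AddOn Γ u ∧ Par Γ u ∧ (∃ γ ∈ Γ, u γ ≠ 0) ∧
    ∀ l, G l → Hec N Γ l u fun γ => a l * u γ

/-- a nonzero parabolic homomorphism with eigenvalues `a l` at all good primes -/
def EIG {E : Type} [Field E] (N : ℕ) (Γ : Subgroup SL(2, ℤ)) (a : ℕ → E) : Prop :=
  EIGo N Γ (GoodP N) a

namespace Eig

section abs

variable {R M E : Type} [CommRing R] [IsDomain R] [AddCommGroup M] [Module R M] [Field E]

theorem exists_fun (ι : R →+* E) (hι : Function.Injective ι) [Module.Finite R M]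
    (h : ∀ r : R, r ≠ 0 → ∃ x : M, r • x ≠ 0) :
    ∃ f : M →+ E, (∀ (r : R) x, f (r • x) = ι r * f x) ∧ ∃ x, f x ≠ 0 := by
  have h1 : ¬ Module.IsTorsion R M := by
    intro ht
    obtain ⟨r, hr, hr0⟩ := Submodule.annihilator_top_inter_nonZeroDivisors ht
    obtain ⟨x, hx⟩ := h r (nonZeroDivisors.ne_zero hr0)
    exact hx (Submodule.mem_annihilator.1 hr x Submodule.mem_top)
  obtain ⟨x, hx⟩ : ∃ x : M, ∀ r : R⁰, r • x ≠ 0 := by
    by_contra hc
    push Not at hc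
    exact h1 fun x => hc x
  have h2 : LocalizedModule.mkLinearMap R⁰ M x ≠ 0 := fun e => by
    obtain ⟨r, hr⟩ := (IsLocalizedModule.eq_zero_iff R⁰ (LocalizedModule.mkLinearMap R⁰ M)).1 e
    exact hx r hr
  obtain ⟨φ, hφ⟩ : ∃ φ : Module.Dual (FractionRing R) (LocalizedModule R⁰ M),
      φ (LocalizedModule.mkLinearMap R⁰ M x) ≠ 0 := by
    by_contra hc
    push Not at hc
    exact h2 ((Module.forall_dual_apply_eq_zero_iff (FractionRing R) _).1 hc)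
  let σ : FractionRing R →+* E := IsFractionRing.lift hι
  refine ⟨(σ : FractionRing R →+ E).comp (φ.toAddMonoidHom.comp
    (LocalizedModule.mkLinearMap R⁰ M).toAddMonoidHom), fun r y => ?_, x, ?_⟩
  · change σ (φ (LocalizedModule.mkLinearMap R⁰ M (r • y))) =
      ι r * σ (φ (LocalizedModule.mkLinearMap R⁰ M y))
    rw [map_smul, ← algebraMap_smul (FractionRing R) r, map_smul, smul_eq_mul, map_mul,
      IsFractionRing.lift_algebraMap]
  · exact (map_ne_zero σ).2 hφ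

theorem exists_fun2 [IsNoetherianRing R] (ι : R →+* E) (hι : Function.Injective ι)
    (N₀ : Submodule R M) [Module.Finite R (M ⧸ N₀)] {I : Type} (S : I → Set M)
    (h : ∀ (B : Finset I) (r : R), r ≠ 0 → ∃ Z : Submodule R M, N₀ ≤ Z ∧ (∀ l ∈ B, S l ⊆ Z) ∧
      ∃ x, r • x ∉ Z) :
    ∃ f : M →+ E, (∀ (r : R) x, f (r • x) = ι r * f x) ∧ (∃ x, f x ≠ 0) ∧ (∀ x ∈ N₀, f x = 0) ∧
      ∀ l, ∀ x ∈ S l, f x = 0 := by
  classical
  let p : I → Submodule R (M ⧸ N₀) := fun l => (Submodule.span R (S l)).map N₀.mkQ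
  obtain ⟨t, ht⟩ := IsNoetherian.noetherian (⨆ l, p l)
  have h1 : ∀ x : t, ∃ s : Finset I, (x : M ⧸ N₀) ∈ ⨆ l ∈ s, p l := fun x =>
    Submodule.exists_finset_of_mem_iSup p (ht ▸ Submodule.subset_span x.2)
  choose s hs using h1
  obtain ⟨f, hf, x, hx⟩ := exists_fun (M := (M ⧸ N₀) ⧸ ⨆ l, p l) ι hι fun r hr => by
    obtain ⟨Z, hZ, hB, x, hx⟩ := h (Finset.univ.biUnion s) r hr
    refine ⟨(⨆ l, p l).mkQ (N₀.mkQ x), fun e => hx ?_⟩
    rw [← map_smul, ← map_smul, Submodule.mkQ_apply, Submodule.Quotient.mk_eq_zero] at e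
    have h2 : ⨆ l, p l ≤ Z.map N₀.mkQ := by
      rw [← ht, Submodule.span_le]
      intro y hy
      refine (iSup₂_le fun l hl => ?_ : ⨆ l ∈ s ⟨y, hy⟩, p l ≤ Z.map N₀.mkQ) (hs ⟨y, hy⟩)
      exact Submodule.map_mono (Submodule.span_le.2
        (hB l (Finset.mem_biUnion.2 ⟨_, Finset.mem_univ _, hl⟩)))
    have h3 : r • x ∈ (Z.map N₀.mkQ).comap N₀.mkQ := h2 e
    rwa [Submodule.comap_map_mkQ, sup_eq_right.2 hZ] at h3
  refine ⟨f.comp (((⨆ l, p l).mkQ.comp N₀.mkQ : M →ₗ[R] _) : M →+ _), fun r y => ?_, ?_,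
    fun y hy => ?_, fun l y hy => ?_⟩
  · change f ((⨆ l, p l).mkQ (N₀.mkQ (r • y))) = ι r * f ((⨆ l, p l).mkQ (N₀.mkQ y))
    rw [map_smul, map_smul, hf]
  · obtain ⟨y, rfl⟩ := (⨆ l, p l).mkQ_surjective x
    obtain ⟨z, rfl⟩ := N₀.mkQ_surjective y
    exact ⟨z, hx⟩
  · change f ((⨆ l, p l).mkQ (N₀.mkQ y)) = 0
    rw [N₀.mkQ_apply, (Submodule.Quotient.mk_eq_zero N₀).2 hy, map_zero, map_zero]
  · change f ((⨆ l, p l).mkQ (N₀.mkQ y)) = 0
    rw [(⨆ l, p l).mkQ_apply, (Submodule.Quotient.mk_eq_zero _).2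
      (le_iSup p l ⟨y, Submodule.subset_span hy, rfl⟩), map_zero]

end abs

section grp

variable {R : Type} [CommRing R] (Γ : Subgroup SL(2, ℤ))

open Classical in
/-- the class of `γ` in the free module on `Γ` -/
def cl (γ : SL(2, ℤ)) : Γ →₀ R := if h : γ ∈ Γ then Finsupp.single ⟨γ, h⟩ 1 else 0

variable {Γ} in
theorem cl_of {γ : SL(2, ℤ)} (h : γ ∈ Γ) : (cl Γ γ : Γ →₀ R) = Finsupp.single ⟨γ, h⟩ 1 :=
  dif_pos h

variable (R) in
/-- additivity and parabolicity -/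
def rel0 : Set (Γ →₀ R) :=
  {x | ∃ γ ∈ Γ, ∃ δ ∈ Γ, x = cl Γ (γ * δ) - cl Γ γ - cl Γ δ} ∪
    {x | ∃ (g : SL(2, ℤ)) (h : ℤ), g * ModularGroup.T ^ h * g⁻¹ ∈ Γ ∧
      x = cl Γ (g * ModularGroup.T ^ h * g⁻¹)}

/-- the Hecke relations -/
def relT (N : ℕ) (G : ℕ → Prop) (b : ℕ → R) (l : ℕ) : Set (Γ →₀ R) :=
  {x | G l ∧ ∃ d : SL(2, ℤ), IsDel 1 N l d ∧ ∃ γ ∈ Γ,
    ∃ (s : Equiv.Perm (Option (Fin l))) (g : Option (Fin l) → SL(2, ℤ)), (∀ i, g i ∈ Γ) ∧
      (∀ i, al 1 l d i * (γ : Matrix (Fin 2) (Fin 2) ℤ) =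
        (g i : Matrix (Fin 2) (Fin 2) ℤ) * al 1 l d (s i)) ∧ x = ∑ i, cl Γ (g i) - b l • cl Γ γ}

instance fgSL : Group.FG SL(2, ℤ) :=
  Group.fg_iff.2 ⟨_, SpecialLinearGroup.SL2Z_generators, Set.toFinite _⟩

theorem finite_quot [Γ.FiniteIndex] :
    Module.Finite R ((Γ →₀ R) ⧸ Submodule.span R (rel0 R Γ)) := by
  obtain ⟨S, hS, hf⟩ := Group.fg_iff.1 (inferInstance : Group.FG Γ)
  let c : Γ → (Γ →₀ R) ⧸ Submodule.span R (rel0 R Γ) := fun γ =>
    (Submodule.span R (rel0 R Γ)).mkQ (cl Γ γ)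
  have hc : ∀ γ δ, c (γ * δ) = c γ + c δ := fun γ δ => by
    have h : (Submodule.span R (rel0 R Γ)).mkQ (cl Γ (γ * δ) - cl Γ γ - cl Γ δ) = 0 :=
      (Submodule.Quotient.mk_eq_zero _).2 (Submodule.subset_span (Or.inl ⟨γ, γ.2, δ, δ.2, rfl⟩))
    rw [map_sub, map_sub, sub_sub, sub_eq_zero] at h
    exact h
  have h1 : c 1 = 0 := by
    have h := hc 1 1
    rw [mul_one] at h
    exact left_eq_add.1 h
  have hall : ∀ γ, c γ ∈ Submodule.span R (c '' S) := fun γ => by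
    have hγ : γ ∈ Subgroup.closure S := hS ▸ Subgroup.mem_top γ
    induction hγ using Subgroup.closure_induction with
    | mem x hx => exact Submodule.subset_span ⟨x, hx, rfl⟩
    | one => rw [h1]; exact zero_mem _
    | mul x y _ _ hx hy => rw [hc]; exact add_mem hx hy
    | inv x _ hx =>
      have h := hc x x⁻¹
      rw [mul_inv_cancel, h1] at h
      rw [eq_neg_of_add_eq_zero_right h.symm]
      exact neg_mem hx
  refine ⟨Submodule.fg_def.2 ⟨c '' S, hf.image c, top_unique fun y _ => ?_⟩⟩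
  obtain ⟨x, rfl⟩ := Submodule.mkQ_surjective _ y
  induction x using Finsupp.induction_linear with
  | zero => rw [map_zero]; exact zero_mem _
  | add x y hx hy => rw [map_add]; exact add_mem (hx trivial) (hy trivial)
  | single γ r =>
    have h : Finsupp.single γ r = r • (cl Γ γ : Γ →₀ R) := by
      rw [cl_of γ.2, Finsupp.smul_single, smul_eq_mul, mul_one]
    rw [h, map_smul]
    exact Submodule.smul_mem _ r (hall γ)

variable {Γ}

/-- the pairing attached to a family of functions -/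
def pair {Y : Type} [AddCommGroup Y] (β : R →+ (SL(2, ℤ) → Y)) : (Γ →₀ R) →+ Y :=
  Finsupp.liftAddHom fun γ : Γ => (Pi.evalAddMonoidHom (fun _ => Y) (γ : SL(2, ℤ))).comp β

theorem pair_cl {Y : Type} [AddCommGroup Y] (β : R →+ (SL(2, ℤ) → Y)) (r : R) {γ : SL(2, ℤ)}
    (h : γ ∈ Γ) : pair β (r • cl Γ γ) = β r γ := by
  rw [cl_of h, Finsupp.smul_single, smul_eq_mul, mul_one, pair, Finsupp.liftAddHom_apply_single]
  rfl

/-- the largest submodule inside the kernel -/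
def kerS {Y : Type} [AddCommGroup Y] (f : (Γ →₀ R) →+ Y) : Submodule R (Γ →₀ R) where
  carrier := {x | ∀ r : R, f (r • x) = 0}
  zero_mem' r := by rw [smul_zero, map_zero]
  add_mem' hx hy r := by rw [smul_add, map_add, hx r, hy r, add_zero]
  smul_mem' c x hx r := by rw [smul_smul]; exact hx _

theorem core [IsDomain R] [IsNoetherianRing R] [Γ.FiniteIndex] {E : Type} [Field E] (ι : R →+* E)
    (hι : Function.Injective ι) (N : ℕ) (G : ℕ → Prop) (b : ℕ → R)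
    (h : ∀ (B : Finset ℕ) (r : R), r ≠ 0 → ∃ (Y : Type) (_ : AddCommGroup Y)
      (β : R →+ (SL(2, ℤ) → Y)), (∀ z, AddOn Γ (β z)) ∧ (∀ z, Par Γ (β z)) ∧
      (∀ l ∈ B, G l → ∀ z, Hec N Γ l (β z) (β (z * b l))) ∧ ∃ z, ∃ γ ∈ Γ, β (r * z) γ ≠ 0) :
    EIGo N Γ G fun l => ι (b l) := by
  haveI := finite_quot (R := R) Γ
  obtain ⟨f, hf, ⟨x, hx⟩, h0, hT⟩ := exists_fun2 ι hι (Submodule.span R (rel0 R Γ))
    (relT Γ N G b) fun B r hr => by
      obtain ⟨Y, _, β, ha, hp, hh, z, γ, hγ, hz⟩ := h B r hr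
      refine ⟨kerS (pair β), Submodule.span_le.2 ?_, fun l hl => ?_, z • cl Γ γ, fun e => hz ?_⟩
      · rintro _ (⟨γ, hγ, δ, hδ, rfl⟩ | ⟨g, k, hg, rfl⟩) r
        · rw [smul_sub, smul_sub, map_sub, map_sub, pair_cl β r (mul_mem hγ hδ), pair_cl β r hγ,
            pair_cl β r hδ, ha r γ hγ δ hδ]
          abel
        · rw [pair_cl β r hg]
          exact hp r g k hg
      · rintro _ ⟨hG, d, hd, γ, hγ, s, g, hg, hs, rfl⟩ r
        rw [smul_sub, map_sub, smul_smul, pair_cl β _ hγ, Finset.smul_sum, map_sum,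
          Finset.sum_congr rfl fun i _ => pair_cl β r (hg i), hh l hl hG r d hd γ hγ s g hg hs,
          sub_self]
      · have e1 := e 1
        rwa [one_smul, smul_smul, pair_cl β _ hγ] at e1
  refine ⟨fun γ => f (cl Γ γ), fun γ hγ δ hδ => ?_, fun g k hg => ?_, ?_,
    fun l hG d hd γ hγ s g hg hs => ?_⟩
  · have e := h0 _ (Submodule.subset_span (Or.inl ⟨γ, hγ, δ, hδ, rfl⟩))
    rwa [map_sub, map_sub, sub_sub, sub_eq_zero] at e
  · exact h0 _ (Submodule.subset_span (Or.inr ⟨g, k, hg, rfl⟩))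
  · by_contra hc
    push Not at hc
    apply hx
    clear hx
    induction x using Finsupp.induction_linear with
    | zero => exact map_zero f
    | add x y hx hy => rw [map_add, hx, hy, add_zero]
    | single γ r =>
      have e : Finsupp.single γ r = r • (cl Γ γ : Γ →₀ R) := by
        rw [cl_of γ.2, Finsupp.smul_single, smul_eq_mul, mul_one]
      rw [e, hf, hc γ γ.2, mul_zero]
  · have e := hT l _ ⟨hG, d, hd, γ, hγ, s, g, hg, hs, rfl⟩
    rwa [map_sub, map_sum, hf, sub_eq_zero] at e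

end grp

theorem of_out {R E : Type} [CommRing R] [IsNoetherianRing R] [Field E] (f : R →+* O3)
    (hf : Function.Injective f) (hs : ∀ j, Function.Surjective fun r => toLa j (f r))
    (ι : R →+* E) (hι : Function.Injective ι) {N : ℕ} {Γ : Subgroup SL(2, ℤ)}
    [Γ.FiniteIndex] {a : ℕ → O3} (hO : OutH N Γ a) {G : ℕ → Prop}
    (hG : ∀ l, G l → GoodP N l) (b : ℕ → R) (hb : ∀ l, G l → a l = f (b l)) :
    EIGo N Γ G fun l => ι (b l) := by
  haveI : IsDomain R := hf.isDomain f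
  refine core ι hι N G b fun B r hr => ?_
  obtain ⟨v, y, hy⟩ := dvd_three_pow ((map_ne_zero_iff f hf).2 hr)
  obtain ⟨j, Y, _, β, ha, hp, hh, z, γ, hγ, hz⟩ := hO B v
  refine ⟨Y, inferInstance, β.comp ((toLa j).comp f : R →+* La j), fun z => ha _,
    fun z => hp _, fun l hl hGl z => ?_, ?_⟩
  · have e := hh l hl (hG l hGl) (toLa j (f z))
    rw [hb l hGl, ← map_mul, ← map_mul, mul_comm] at e
    exact e
  · obtain ⟨r', hr'⟩ := hs j (toLa j y * z)
    refine ⟨r', γ, hγ, fun e => hz ?_⟩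
    have e' : β (toLa j (f (r * r'))) γ = 0 := e
    dsimp only at hr'
    rwa [map_mul, map_mul, hr', ← mul_assoc, ← map_mul, ← hy, map_pow, map_ofNat] at e'

instance finQO (R : Type) [CommRing R] : Module.Finite R (QO R) :=
  Module.Finite.equiv (QO.coord R).symm

theorem glob_surj (j : ℕ) : Function.Surjective fun r => toLa j (glob r) := by
  intro z
  obtain ⟨a, ha⟩ := ZMod.intCast_surjective z.re.re
  obtain ⟨b, hb⟩ := ZMod.intCast_surjective z.re.im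
  obtain ⟨c, hc⟩ := ZMod.intCast_surjective z.im.re
  obtain ⟨d, hd⟩ := ZMod.intCast_surjective z.im.im
  refine ⟨⟨⟨a, b⟩, ⟨c, d⟩⟩, ?_⟩
  ext
  · exact (map_intCast (PadicInt.toZModPow j) a).trans ha
  · exact (map_intCast (PadicInt.toZModPow j) b).trans hb
  · exact (map_intCast (PadicInt.toZModPow j) c).trans hc
  · exact (map_intCast (PadicInt.toZModPow j) d).trans hd

end Eig

/-- **EIG**, global eigenvalues at the primes in `G` -/
theorem eig_glob_off {E : Type} [Field E] (ι : QO ℤ →+* E) (hι : Function.Injective ι)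
    {N : ℕ} {Γ : Subgroup SL(2, ℤ)} [Γ.FiniteIndex] {a : ℕ → O3} (hO : OutH N Γ a)
    {G : ℕ → Prop} (hG : ∀ l, G l → GoodP N l) (b : ℕ → QO ℤ)
    (hb : ∀ l, G l → a l = glob (b l)) : EIGo N Γ G fun l => ι (b l) :=
  haveI : IsNoetherianRing (QO ℤ) := IsNoetherianRing.of_finite ℤ _
  Eig.of_out glob glob_inj Eig.glob_surj ι hι hO hG b hb

/-- **EIG**, global eigenvalues -/
theorem eig_glob {E : Type} [Field E] (ι : QO ℤ →+* E) (hι : Function.Injective ι)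
    {N : ℕ} {Γ : Subgroup SL(2, ℤ)} [Γ.FiniteIndex] {a : ℕ → O3} (hO : OutH N Γ a)
    (b : ℕ → QO ℤ) (hb : ∀ l, GoodP N l → a l = glob (b l)) : EIG N Γ fun l => ι (b l) :=
  eig_glob_off ι hι hO (fun _ h => h) b hb

/-- **EIG**, eigenvalues in `O3` -/
theorem eig_O3 {E : Type} [Field E] (ι : O3 →+* E) (hι : Function.Injective ι)
    {N : ℕ} {Γ : Subgroup SL(2, ℤ)} [Γ.FiniteIndex] {a : ℕ → O3} (hO : OutH N Γ a) :
    EIG N Γ fun l => ι (a l) :=
  haveI : IsNoetherianRing O3 := IsNoetherianRing.of_finite ℤ_[3] _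
  Eig.of_out (RingHom.id O3) Function.injective_id toLa_surj ι hι hO (fun _ h => h) a
    fun _ _ => rfl

/-- the embedding `i ↦ I`, `w ↦ √3` -/
def toC : QO ℤ →+* ℂ :=
  (QO.lift (R := ℤ) Complex.I ((√3 : ℝ) : ℂ) Complex.I_mul_I
    (by rw [← Complex.ofReal_mul, Real.mul_self_sqrt (by norm_num)]; norm_num) (mul_comm _ _) :
      QO ℤ →ₐ[ℤ] ℂ)

theorem toC_apply (z : QO ℤ) : toC z = z.re.re + z.re.im * Complex.I + z.im.re * ((√3 : ℝ) : ℂ) +
    z.im.im * (Complex.I * ((√3 : ℝ) : ℂ)) := by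
  change z.re.re • (1 : ℂ) + z.re.im • Complex.I + z.im.re • ((√3 : ℝ) : ℂ) +
    z.im.im • (Complex.I * ((√3 : ℝ) : ℂ)) = _
  simp only [zsmul_eq_mul, mul_one]

theorem toC_iO : toC iO = Complex.I := by simp [toC_apply, iO]

theorem toC_wO : toC wO = ((√3 : ℝ) : ℂ) := by
  rw [toC_apply]
  change ((0 : ℤ) : ℂ) + ((0 : ℤ) : ℂ) * _ + ((1 : ℤ) : ℂ) * _ + ((0 : ℤ) : ℂ) * _ = _
  simp

theorem toC_inj : Function.Injective toC := by
  have key : ∀ a c : ℤ, (a : ℝ) + c * √3 = 0 → a = 0 ∧ c = 0 := fun a c h => by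
    have hi : Irrational √3 := by simpa using Nat.Prime.irrational_sqrt (p := 3) (by norm_num)
    have hc : c = 0 := by
      by_contra hc
      exact ((hi.intCast_mul hc).intCast_add a).ne_zero h
    rw [hc, Int.cast_zero, zero_mul, add_zero] at h
    exact ⟨by exact_mod_cast h, hc⟩
  refine (injective_iff_map_eq_zero _).2 fun z hz => ?_
  rw [toC_apply] at hz
  have h1 := key z.re.re z.im.re (by simpa using congrArg Complex.re hz)
  have h2 := key z.re.im z.im.im (by simpa using congrArg Complex.im hz)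
  ext
  exacts [h1.1, h2.1, h1.2, h2.2]

end Vale.Agent.P027M.TW
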