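import Vale.Agent.P027M.TW.Glue

/-! # P027 route M, block TW: from `Fl` and `FONT` to the condition at `3` -/

set_option linter.all false

noncomputable section

namespace Vale.Agent.P027M.TW

open NumberField Vale.Agent.P022

theorem flg : Spec_FLG := by
  intro F P O Γ w hP h3 hO hB hw hΓ A Λ _ _ act tw ρ e h1 h2 I _ B hb f b
  have w3 : w ^ 3 = 1 := by linear_combination (w - 1) * hw
  have wO : w ∈ O := (O.mem_or_inv_mem w).elim id fun h => by
    have := O.toSubring.pow_mem h 2
    rwa [inv_pow, ← eq_inv_of_mul_eq_one_left (a := w) (by rw [← pow_succ', w3])] at this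
  have k := ((h1.prod h2).pi I).of_inj
    (b := fun g (b : B) => ⟨fun i => (tw g (b.1 i).1, (ρ g).mulVec (b.1 i).2), hb g b b.2⟩)
    B.subtype Subtype.val_injective (fun g s y => by funext i; simp [e g s])
    ((AddChar.zmodChar 3 w3).compAddMonoidHom f) b
  refine F P O Γ w hP h3 hO hB hw hΓ _ ?_
  convert mul_mem k (D.const_mem (O.toSubring.pow_mem wO (-f b).val)) using 2 with σ
  rw [← AddChar.zmodChar_apply w3, sub_eq_add_neg, AddChar.map_add_eq_mul]
  rfl

end Vale.Agent.P027M.TW
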