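import Vale.Agent.P027M.TW.Low

/-! # P027 route M, block TW, row GD: descent for homomorphisms -/

set_option linter.all false

noncomputable section

namespace Vale.Agent.P027M.TW

open scoped Classical

namespace Gd

variable {S Δ : Type} [Group S] [CommGroup Δ] {Γ Γ' : Subgroup S} {d : Γ →* Δ}

theorem mem (hk : ∀ γ : S, γ ∈ Γ' ↔ ∃ h : γ ∈ Γ, d ⟨γ, h⟩ = 1) (x : Γ) (hx : d x = 1) :
    (x : S) ∈ Γ' := (hk x).2 ⟨x.2, hx⟩

theorem dm (hk : ∀ γ : S, γ ∈ Γ' ↔ ∃ h : γ ∈ Γ, d ⟨γ, h⟩ = 1) (x : Γ) (hx : (x : S) ∈ Γ') :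
    d x = 1 := by
  obtain ⟨h, e⟩ := (hk x).1 hx
  exact e

theorem add_one {X : Type} [AddCommGroup X] {y : S → X} (hy : AddOn Γ y) : y 1 = 0 := by
  have := hy 1 Γ.one_mem 1 Γ.one_mem
  rw [mul_one] at this
  simpa using this

theorem p1 {I X : Type} [Fintype I] [AddCommGroup X] (s : Δ → Γ) (hs : ∀ δ, d (s δ) = δ)
    (hk : ∀ γ : S, γ ∈ Γ' ↔ ∃ h : γ ∈ Γ, d ⟨γ, h⟩ = 1) (g : I → Γ → Γ) (p : Γ → Equiv.Perm I)
    (hg : ∀ i γ γ', g i (γ * γ') = g i γ * g (p γ i) γ') (hd : ∀ i γ, d (g i γ) = d γ)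
    (φ : S → X) (ha : AddOn Γ' φ) (hc : ∀ γ ∈ Γ, ∀ x ∈ Γ', φ (γ * x * γ⁻¹) = φ x) :
    ∃ y : S → X, AddOn Γ y ∧ ∀ x : Γ, (x : S) ∈ Γ' →
      y x = ∑ i, φ (g i x) - Fintype.card I • φ x := by
  let ft : Γ → X := fun γ => φ ((γ * (s (d γ))⁻¹ : Γ) : S)
  let β : Δ → Δ → X := fun a b => φ ((s a * s b * (s (a * b))⁻¹ : Γ) : S)
  have m1 : ∀ γ : Γ, ((γ * (s (d γ))⁻¹ : Γ) : S) ∈ Γ' := fun γ =>
    mem hk _ (by rw [map_mul, map_inv, hs, mul_inv_cancel])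
  have key : ∀ γ γ' : Γ, ft (γ * γ') = ft γ + ft γ' + β (d γ) (d γ') := by
    intro γ γ'
    have m2 : ((s (d γ) * (γ' * (s (d γ'))⁻¹) * (s (d γ))⁻¹ : Γ) : S) ∈ Γ' :=
      mem hk _ (by simp [hs])
    have m3 : ((s (d γ) * s (d γ') * (s (d γ * d γ'))⁻¹ : Γ) : S) ∈ Γ' :=
      mem hk _ (by simp [hs])
    have e : ((γ * γ' * (s (d (γ * γ')))⁻¹ : Γ) : S) = ((γ * (s (d γ))⁻¹ : Γ) : S) *
        ((s (d γ) * (γ' * (s (d γ'))⁻¹) * (s (d γ))⁻¹ : Γ) : S) *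
        ((s (d γ) * s (d γ') * (s (d γ * d γ'))⁻¹ : Γ) : S) := by
      rw [← Subgroup.coe_mul, ← Subgroup.coe_mul, map_mul]
      congr 1
      group
    have c := hc (s (d γ)) (s (d γ)).2 _ (m1 γ')
    show φ _ = φ _ + φ _ + φ _
    rw [e, ha _ (Γ'.mul_mem (m1 γ) m2) _ m3, ha _ (m1 γ) _ m2, ← c]
    rfl
  refine ⟨fun γ => if h : γ ∈ Γ then ∑ i, ft (g i ⟨γ, h⟩) - Fintype.card I • ft ⟨γ, h⟩ else 0,
    ?_, ?_⟩
  · intro γ h γ' h'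
    simp only [dif_pos h, dif_pos h', dif_pos (Γ.mul_mem h h')]
    have e : (⟨γ * γ', Γ.mul_mem h h'⟩ : Γ) = ⟨γ, h⟩ * ⟨γ', h'⟩ := rfl
    rw [e]
    simp only [hg, key, hd, Finset.sum_add_distrib, Finset.sum_const, Finset.card_univ, smul_add]
    rw [Equiv.sum_comp (p ⟨γ, h⟩) (fun i => ft (g i ⟨γ', h'⟩))]
    abel
  · intro x hx
    have h1 : (((s 1)⁻¹ : Γ) : S) ∈ Γ' := mem hk _ (by simp [hs])
    have f1 : ∀ u : Γ, d u = 1 → ft u = φ u + φ (((s 1)⁻¹ : Γ) : S) := by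
      intro u hu
      show φ _ = _
      rw [hu, Subgroup.coe_mul, ha _ (mem hk u hu) _ h1]
    have hx1 := dm hk x hx
    simp only [dif_pos x.2, Subtype.coe_eta]
    rw [f1 x hx1, Finset.sum_congr rfl fun i _ => f1 (g i x) ((hd i x).trans hx1)]
    simp only [Finset.sum_add_distrib, Finset.sum_const, Finset.card_univ, smul_add]
    abel

theorem p2 {I X : Type} [Fintype I] [AddCommGroup X]
    (hk : ∀ γ : S, γ ∈ Γ' ↔ ∃ h : γ ∈ Γ, d ⟨γ, h⟩ = 1) (g : I → Γ → Γ)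
    (hd : ∀ i γ, d (g i γ) = d γ) (y : S → X) (ha : AddOn Γ y) (h0 : ∀ x ∈ Γ', y x = 0) (γ : Γ) :
    ∑ i, y (g i γ) = Fintype.card I • y γ := by
  have e : ∀ i, y (g i γ) = y γ := by
    intro i
    have m : ((g i γ * γ⁻¹ : Γ) : S) ∈ Γ' := mem hk _ (by simp [hd])
    have := ha _ (g i γ * γ⁻¹ : Γ).2 _ γ.2
    rw [h0 _ m, zero_add, ← Subgroup.coe_mul, inv_mul_cancel_right] at this
    exact this
  simp only [e, Finset.sum_const, Finset.card_univ]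

theorem div3 {j : ℕ} (hj : 1 ≤ j) (a : ZMod (3 ^ j)) (h : 3 • a = 0) :
    ∃ c : ZMod (3 ^ j), 3 ^ (j - 1) • c = a := by
  haveI : NeZero (3 ^ j) := ⟨by positivity⟩
  have e : ((3 * a.val : ℕ) : ZMod (3 ^ j)) = 0 := by
    rw [Nat.cast_mul, ZMod.natCast_zmod_val, ← nsmul_eq_mul, h]
  rw [ZMod.natCast_eq_zero_iff] at e
  obtain ⟨c, hc⟩ := e
  have e2 : 3 ^ j = 3 * 3 ^ (j - 1) := by
    rw [← pow_succ']
    congr 1
    omega
  have e3 : a.val = 3 ^ (j - 1) * c := by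
    have : 3 * a.val = 3 * (3 ^ (j - 1) * c) := by
      rw [hc, ← mul_assoc, ← e2]
    omega
  refine ⟨c, ?_⟩
  rw [nsmul_eq_mul, ← Nat.cast_mul, ← e3, ZMod.natCast_zmod_val]

/-- the norm map on the wreath product -/
def nrm (Δ : Type) [CommGroup Δ] [Fintype Δ] (R : Type) [AddCommGroup R] (k : ℕ) :
    RegularWreathProduct (Multiplicative R) Δ →* Multiplicative R × Δ where
  toFun a := (Multiplicative.ofAdd (k • ∑ δ, (a.left δ).toAdd), a.right)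
  map_one' := by
    ext
    · simp
    · rfl
  map_mul' a b := by
    ext
    · simp only [RegularWreathProduct.mul_left, Pi.mul_apply, toAdd_mul, Finset.sum_add_distrib,
        smul_add, Prod.fst_mul, ofAdd_add]
      rw [← Equiv.sum_comp (Equiv.mulLeft a.right⁻¹) (fun δ => (b.left δ).toAdd)]
      rfl
    · rfl

theorem p3 [Fintype Δ] (s : Δ → Γ) (hs : ∀ δ, d (s δ) = δ)
    (hk : ∀ γ : S, γ ∈ Γ' ↔ ∃ h : γ ∈ Γ, d ⟨γ, h⟩ = 1) (z : S) (hP : Proj Γ z) (hz : z * z = 1)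
    (ho : Odd (Fintype.card Δ)) (j : ℕ) (hj : 1 ≤ j) (y : S → ZMod (3 ^ j)) (ha : AddOn Γ y)
    (h3 : ∀ γ ∈ Γ, 3 • y γ = 0) :
    ∃ w : S → ZMod (3 ^ j), AddOn Γ' w ∧ ∀ x ∈ Γ',
      3 ^ (j - 1) • ∑ δ, w (s δ * x * (s δ : S)⁻¹) = y x := by
  let f := nrm Δ (ZMod (3 ^ j)) (3 ^ (j - 1))
  let h0 : Γ →* Multiplicative (ZMod (3 ^ j)) × Δ :=
    { toFun := fun γ => (Multiplicative.ofAdd (y γ), d γ)
      map_one' := by
        ext
        · show Multiplicative.ofAdd (y 1) = 1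
          rw [add_one ha]
          rfl
        · exact map_one d
      map_mul' := fun a b => by
        ext
        · show Multiplicative.ofAdd (y (a * b)) = Multiplicative.ofAdd (y a + y b)
          rw [ha _ a.2 _ b.2]
        · exact map_mul d a b }
  have hr : ∀ γ, h0 γ ∈ f.range := by
    intro γ
    obtain ⟨c, hc⟩ := div3 hj (y γ) (h3 _ γ.2)
    refine ⟨⟨fun δ => Multiplicative.ofAdd (if δ = 1 then c else 0), d γ⟩, ?_⟩
    ext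
    · show Multiplicative.ofAdd (3 ^ (j - 1) • ∑ δ : Δ, (if δ = 1 then c else 0)) =
        Multiplicative.ofAdd (y γ)
      rw [Finset.sum_ite_eq', if_pos (Finset.mem_univ _), hc]
    · rfl
  obtain ⟨h', hh⟩ := hP _ _ f.rangeRestrict f.rangeRestrict_surjective (h0.codRestrict _ hr) (by
    intro hzm
    have z2 : (⟨z, hzm⟩ : Γ) * ⟨z, hzm⟩ = 1 := Subtype.ext hz
    have a2 : y z + y z = 0 := by rw [← ha _ hzm _ hzm, hz, add_one ha]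
    have a3 := h3 z hzm
    have a1 : y z = 0 := by
      rw [three_nsmul, a2, add_zero] at a3
      exact a3
    have d2 : d ⟨z, hzm⟩ * d ⟨z, hzm⟩ = 1 := by rw [← map_mul, z2, map_one]
    have d1 : d ⟨z, hzm⟩ = 1 := by
      obtain ⟨k, hk⟩ := ho
      have := pow_card_eq_one (x := d ⟨z, hzm⟩)
      rw [hk, pow_succ, pow_mul, sq, d2, one_pow, one_mul] at this
      exact this
    apply Subtype.ext
    ext
    · show Multiplicative.ofAdd (y z) = 1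
      rw [a1]
      rfl
    · exact d1)
  have e1 : ∀ γ, 3 ^ (j - 1) • ∑ δ, ((h' γ).left δ).toAdd = y γ := fun γ =>
    congrArg (fun t : f.range => (t : Multiplicative (ZMod (3 ^ j)) × Δ).1.toAdd) (hh γ)
  have e2 : ∀ γ, (h' γ).right = d γ := fun γ =>
    congrArg (fun t : f.range => (t : Multiplicative (ZMod (3 ^ j)) × Δ).2) (hh γ)
  refine ⟨fun γ => if h : γ ∈ Γ then ((h' ⟨γ, h⟩).left 1).toAdd else 0, ?_, ?_⟩
  · intro γ h γ' h2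
    obtain ⟨g1, d1⟩ := (hk γ).1 h
    obtain ⟨g2, d2⟩ := (hk γ').1 h2
    simp only [dif_pos g1, dif_pos g2, dif_pos (Γ.mul_mem g1 g2)]
    have e : (⟨γ * γ', Γ.mul_mem g1 g2⟩ : Γ) = ⟨γ, g1⟩ * ⟨γ', g2⟩ := rfl
    rw [e, map_mul]
    simp [e2, d1]
  · intro x hx
    obtain ⟨g1, d1⟩ := (hk x).1 hx
    rw [← e1 ⟨x, g1⟩, ← Equiv.sum_comp (Equiv.inv Δ) (fun δ => ((h' ⟨x, g1⟩).left δ).toAdd)]
    congr 1
    refine Finset.sum_congr rfl fun δ _ => ?_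
    have m : (s δ : S) * x * (s δ : S)⁻¹ ∈ Γ := (s δ * ⟨x, g1⟩ * (s δ)⁻¹ : Γ).2
    have e : (⟨_, m⟩ : Γ) = s δ * ⟨x, g1⟩ * (s δ)⁻¹ := rfl
    simp only [dif_pos m]
    rw [e, map_mul, map_mul, map_inv]
    simp [e2, d1, hs]

end Gd

theorem gd : Spec_GD := by
  intro S Δ I _ _ _ _ Γ Γ' d s hs hk
  exact ⟨fun X _ g p hg hd => ⟨Gd.p1 s hs hk g p hg hd, Gd.p2 hk g hd⟩, Gd.p3 s hs hk⟩

end Vale.Agent.P027M.TW
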