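import Vale.Agent.P027M.TW.InDef
import Vale.Agent.P027M.K.Pic

/-! # P027 route M, block TW: the tower on Kummer classes, one level -/

set_option linter.all false

noncomputable section

namespace Vale.Agent.P027M.TW

open NumberField Vale.Agent.P022 Vale.Agent.P022.H231.L3 Vale.Agent.P019P Vale.Agent.P027M.M
  P025H816
open scoped MatrixGroups

namespace In

theorem mid (hG : GRP) {N : ℕ} {H : Subgroup (ZMod N)ˣ} (h : Ok N H) : Mid N (GH N H) :=
  ((hG N h.lv).2.2.2.2.2.2.2 H).2.1 h.neg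

theorem fidx (hG : GRP) {N : ℕ} {H : Subgroup (ZMod N)ˣ} (h : Ok N H) : (GH N H).FiniteIndex :=
  haveI := (hG N h.lv).1
  Subgroup.finiteIndex_of_le (mid hG h).lo

theorem ex_level {X : Mdl} (hX : MIn X) (N : ℕ) (H : Subgroup (ZMod N)ˣ) (j : ℕ) :
    ∃ (B : Type) (_ : AddCommGroup B) (act : GQ →* AddMonoid.End B) (T : ℕ → AddMonoid.End B)
      (dia : (ZMod N)ˣ →* AddMonoid.End B), Ok N H →
      ∃ (_ : CFF Qb (L (GH N H))) (A : Act X N H (3 ^ j))
        (e : B ≃+ HA Qb (L (GH N H)) (3 ^ j)), (∀ g y, e (act g y) = A.act g (e y)) ∧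
        (∀ l y, e (T l y) = A.T l (e y)) ∧ ∀ u y, e (dia u y) = A.dia u (e y) := by
  by_cases h : Ok N H
  · have c := hX.cffs _ (mid hX.grp h).hi (fidx hX.grp h)
    obtain ⟨A⟩ := hX.act N H h.lv h.neg (3 ^ j)
    exact ⟨HA Qb (L (GH N H)) (3 ^ j), inferInstance, A.act, A.T, A.dia, fun _ =>
      ⟨c, A, AddEquiv.refl _, fun _ _ => rfl, fun _ _ => rfl, fun _ _ => rfl⟩⟩
  · exact ⟨PUnit, inferInstance, 1, 1, 1, fun h' => absurd h' h⟩

theorem ex_link {X : Mdl} (hX : MIn X) : ∃ Y : Mods, Link X Y := by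
  choose B grp act T dia h using ex_level hX
  exact ⟨@Mods.mk B grp act T dia, h⟩

theorem three_ne (j : ℕ) : ((3 ^ j : ℕ) : Qb) ≠ 0 := by
  exact_mod_cast pow_ne_zero j (by norm_num : (3 : ℕ) ≠ 0)

theorem good {N l : ℕ} (h : GoodP N l) (j : ℕ) : ¬ l ∣ N ∧ ¬ l ∣ 3 ^ j :=
  ⟨fun d => h.2 (d.mul_left _), fun d => h.2
    (((h.1.dvd_of_dvd_pow d).trans (by norm_num : 3 ∣ 6)).mul_right _)⟩

section tr

variable {A B : Type} [AddCommGroup A] {e : A → B}

theorem eq_of (he : Function.Injective e) {f g : AddMonoid.End A} (h : ∀ y, e (f y) = e (g y)) :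
    f = g :=
  AddMonoidHom.ext fun y => he (h y)

theorem comm_of (he : Function.Injective e) {f g : AddMonoid.End A} {f' g' : B → B}
    (hf : ∀ y, e (f y) = f' (e y)) (hg : ∀ y, e (g y) = g' (e y))
    (h : ∀ z, f' (g' z) = g' (f' z)) : Commute f g :=
  eq_of he fun y => by
    show e (f (g y)) = e (g (f y))
    rw [hf, hg, hg, hf, h]

theorem one_iff (he : Function.Bijective e) {f : AddMonoid.End A} {f' : B → B}
    (hf : ∀ y, e (f y) = f' (e y)) : f = 1 ↔ ∀ z, f' z = z := by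
  refine ⟨fun h z => ?_, fun h => eq_of he.1 fun y => (hf y).trans (h _)⟩
  obtain ⟨y, rfl⟩ := he.2 z
  rw [← hf, h]
  rfl

end tr

theorem lv1 {X : Mdl} {Y : Mods} (hX : MIn X) (hF : InFL X) (hL : Link X Y) (N : ℕ)
    (H : Subgroup (ZMod N)ˣ) (j : ℕ) (h : Ok N H) (hj : 1 ≤ j) : Lv1 Y N H j := by
  obtain ⟨c, A, e, ea, eT, ed⟩ := hL N H j h
  obtain ⟨c1, c2, c3, c4, c5⟩ := hX.comm N H h.lv h.neg (3 ^ j) A
  have := HA_finite (k := Qb) (F := L (GH N H)) (three_ne j)
  have i := e.injective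
  have b := e.bijective
  refine ⟨Finite.of_equiv _ e.symm.toEquiv, fun y => i ?_,
    fun u hu => (one_iff b (ed u)).2 (DFunLike.congr_fun (c5 u hu)),
    fun l l' _ _ => comm_of i (eT l) (eT l') (DFunLike.congr_fun (c1 l l').eq),
    fun l u _ => comm_of i (eT l) (ed u) (DFunLike.congr_fun (c2 l u).eq),
    fun l g _ => comm_of i (eT l) (ea g) (DFunLike.congr_fun (c3 l g).eq),
    fun u g => comm_of i (ed u) (ea g) (DFunLike.congr_fun (c4 u g).eq), ?_,
    fun l hl P p1 p2 g hg => ?_, fun l hl φ hφ u hu y => i ?_, fun P O p1 p2 p3 => ?_⟩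
  · rw [map_nsmul, map_zero]
    exact HA_tor _
  · have := hX.opn N H h.lv h.neg (3 ^ j) A (by positivity)
    convert this using 2
    exact funext fun g => propext ((one_iff b (ea g)).trans
      ⟨fun h => AddMonoidHom.ext h, fun h => DFunLike.congr_fun h⟩)
  · exact (one_iff b (ea g)).2 (DFunLike.congr_fun (hX.unr N H h.lv h.neg (3 ^ j) A l hl.1
      (good hl j).1 (good hl j).2 g ⟨P, p1, p2, hg⟩))
  · rw [eT, map_add, map_nsmul, ea, ea, ed]
    exact hX.es N H h.lv h.neg (3 ^ j) A l hl.1 (good hl j).1 (good hl j).2 φ hφ u hu _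
  · exact (hF N H j h hj A P O p1 p2 p3).of_inj (AddMonoidHom.mk' e e.map_add') i
      fun g _ y => ea g y

theorem card3 (k F : Type) [Field k] [Field F] [Algebra k F] [CFF k F] {m : ℕ} (hm : m ≠ 0)
    (h3 : ((3 : ℕ) : k) ≠ 0) : Nat.card {y : HA k F m // 3 • y = 0} ≤ 2 ^ (4 * gen k F) := by
  choose x hx e using cl_surj (k := k) (F := F) (m := m)
  have c := card_pic_tors (F := F) h3
  have : Finite (tors (Pc k F) 3) := Nat.finite_of_card_ne_zero (by rw [c]; positivity)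
  let f : {y : HA k F m // 3 • y = 0} → tors (Pc k F) 3 := fun y =>
    ⟨P027M.K.tP k m (x y), by
      rw [mem_tors, ← P027M.K.tP_pow hm (hx y), P027M.K.tP_eq_zero_iff hm (pow_mem (hx y) 3),
        ← cl_eq_zero (pow_mem (hx y) 3), cl_pow (hx y) 3, e]
      exact y.2⟩
  have hf : Function.Injective f := fun y y' h => by
    have h1 := (P027M.K.tP_eq_iff hm (hx y) (hx y')).1 (congrArg Subtype.val h)
    refine Subtype.ext ?_
    rw [← e y, ← e y', eq_comm, cl_eq, div_eq_inv_mul]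
    exact h1
  refine (Nat.card_le_card_of_injective f hf).trans ?_
  rw [c, show 4 * gen k F = 2 * (2 * gen k F) by ring, pow_mul 2 2]
  exact Nat.pow_le_pow_left (by norm_num) _

theorem b3 {X : Mdl} {Y : Mods} (hL : Link X Y) : B3 Y := by
  intro N H h
  obtain ⟨c, -⟩ := hL N H 0 h
  refine ⟨4 * gen Qb (L (GH N H)), fun j _ => ?_⟩
  obtain ⟨_, A, e, -⟩ := hL N H j h
  refine le_trans (le_of_eq (Nat.card_congr (e.toEquiv.subtypeEquiv fun y => ?_)))
    (card3 Qb (L (GH N H)) (m := 3 ^ j) (by positivity) (by norm_num))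
  show _ ↔ 3 • e y = 0
  rw [← map_nsmul, map_eq_zero_iff e e.injective]

theorem igu {X : Mdl} {Y : Mods} (hI : InIGU X) (hL : Link X Y) : IGU Y := by
  intro M q H j h hj hq hS P p1 p2 σ hσ s hs τ hτ
  obtain ⟨c, A, e, ea, eT, ed⟩ := hL _ H j h
  refine eq_of e.injective fun y => ?_
  have := hI M q H j h hj hq hS A P p1 p2 σ hσ s hs τ hτ (e y) _ _ rfl rfl
  show e (Y.act _ H j σ (Y.act _ H j σ (Y.dia _ H j τ y - y) - Y.dia _ H j s (Y.dia _ H j τ y - y)) -
    (Y.act _ H j σ (Y.dia _ H j τ y - y) - Y.dia _ H j s (Y.dia _ H j τ y - y))) = e 0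
  have es : ∀ a b, e (a - b) = e a - e b := fun a b => map_sub e a b
  simp only [map_zero, es, ea, ed]
  exact sub_eq_zero.2 this

end In

/-- transfer of the residual eigenvector -/
theorem the_of_link {X : Mdl} {Y : Mods} (hL : Link X Y) {N : ℕ} (h : Ok N (H4 N)) {a : ℕ → O3}
    {ε : (ZMod N)ˣ →* O3} (hT : InTHE X N a ε) : THE Y N a ε := by
  intro j hj
  obtain ⟨c, A, e, ea, eT, ed⟩ := hL N _ j h
  obtain ⟨φ, ⟨z, hz⟩, h1, h2⟩ := hT j hj A
  refine ⟨e.symm.toAddMonoidHom.comp φ, fun h0 => hz ?_, fun l hl z => e.injective ?_,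
    fun u z => e.injective ?_⟩
  · exact e.symm.injective ((DFunLike.congr_fun h0 z).trans (map_zero e.symm).symm)
  · exact (eT l _).trans ((congrArg (A.T l) (e.apply_symm_apply _)).trans
      ((h1 l hl z).trans (e.apply_symm_apply _).symm))
  · exact (ed u _).trans ((congrArg (A.dia u) (e.apply_symm_apply _)).trans
      ((h2 u z).trans (e.apply_symm_apply _).symm))

/-- transfer of the output -/
theorem out_of_link {X : Mdl} {Y : Mods} (hL : Link X Y) {N : ℕ} (h : Ok N (H4 N)) {a : ℕ → O3}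
    (hO : OUT Y N a) : OutK X N a := by
  intro B v
  obtain ⟨j, hj, φ, h1, h2⟩ := hO B v
  obtain ⟨c, A, e, ea, eT, ed⟩ := hL N _ j h
  refine ⟨j, hj, c, A, e.toAddMonoidHom.comp φ, fun l hl hg z => ?_, ?_⟩
  · exact (eT l _).symm.trans (congrArg e (h1 l hl hg z))
  · by_contra h3
    push Not at h3
    refine h2 (AddMonoidHom.ext fun z => e.injective ?_)
    exact (map_nsmul e _ _).trans ((h3 z).trans (map_zero e).symm)

end Vale.Agent.P027M.TW
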