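import Vale.Agent.P027M.TW.InA

/-! # P027 route M, block TW: the tower on Kummer classes, degeneracy maps -/

set_option linter.all false

noncomputable section

namespace Vale.Agent.P027M.TW

open NumberField Vale.Agent.P022 Vale.Agent.P022.H231.L3 Vale.Agent.P019P Vale.Agent.P027M.M
  P025H816 Matrix OnePoint
open scoped MatrixGroups

namespace In

theorem mem_up {M q : ℕ} {H : Subgroup (ZMod M)ˣ} (h0 : M * q ≠ 0) (hc : q.Coprime M)
    {γ : SL(2, ℤ)} : γ ∈ GH (M * q) (up H q) ↔ γ ∈ GH M H ∧ (q : ℤ) ∣ γ 1 0 := by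
  constructor
  · rintro ⟨h1, u, hu, h2⟩
    rw [Nat.cast_mul] at h1
    refine ⟨⟨(dvd_mul_right _ _).trans h1, _, hu, ?_⟩, (dvd_mul_left _ _).trans h1⟩
    rw [ZMod.unitsMap_val, h2, ZMod.cast_intCast (dvd_mul_right M q)]
  · rintro ⟨⟨h1, u, hu, h2⟩, h3⟩
    have h4 : ((M * q : ℕ) : ℤ) ∣ γ 1 0 := by
      rw [Nat.cast_mul]
      exact (Nat.isCoprime_iff_coprime.2 hc.symm).mul_dvd h1 h3
    have hdet := γ.det_coe
    rw [Matrix.det_fin_two] at hdet
    have h5 : ((γ 1 1 : ℤ) : ZMod (M * q)) * ((γ 0 0 : ℤ) : ZMod (M * q)) = 1 := by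
      have h6 := congrArg (Int.cast : ℤ → ZMod (M * q)) hdet
      push_cast at h6
      rw [(ZMod.intCast_zmod_eq_zero_iff_dvd _ _).2 h4, mul_zero, sub_zero] at h6
      exact (mul_comm _ _).trans h6
    refine ⟨h4, Units.mkOfMulEqOne _ _ h5, ?_, rfl⟩
    show ZMod.unitsMap _ _ ∈ H
    convert hu using 1
    refine Units.ext ?_
    rw [ZMod.unitsMap_val, h2, Units.val_mkOfMulEqOne, ZMod.cast_intCast (dvd_mul_right M q)]

theorem idx {M q : ℕ} (H : Subgroup (ZMod M)ˣ) (h0 : M ≠ 0) (hq : q.Prime) (hM : ¬ q ∣ M) :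
    (GH (M * q) (up H q)).relIndex (GH M H) = q + 1 := by
  haveI := Fact.mk hq
  classical
  let f : GH M H →* GL (Fin 2) (ZMod q) :=
    (SpecialLinearGroup.toGL.comp (SpecialLinearGroup.map (Int.castRingHom (ZMod q)))).comp
      (GH M H).subtype
  have fe : ∀ (γ : GH M H) a b, f γ a b = (((γ : SL(2, ℤ)) a b : ℤ) : ZMod q) := fun _ _ _ => rfl
  letI : MulAction (GH M H) (OnePoint (ZMod q)) := MulAction.compHom _ f
  have hs : (GH (M * q) (up H q)).subgroupOf (GH M H) =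
      MulAction.stabilizer (GH M H) (∞ : OnePoint (ZMod q)) := by
    ext γ
    rw [Subgroup.mem_subgroupOf, mem_up (mul_ne_zero h0 hq.ne_zero)
      ((Nat.Prime.coprime_iff_not_dvd hq).2 hM), MulAction.mem_stabilizer_iff]
    show _ ↔ f γ • (∞ : OnePoint (ZMod q)) = ∞
    rw [smul_infty_eq_self_iff, fe, ZMod.intCast_zmod_eq_zero_iff_dvd]
    exact and_iff_right γ.2
  have hM' : ((M : ℤ) : ZMod q) ≠ 0 := by
    rw [Ne, ZMod.intCast_zmod_eq_zero_iff_dvd]
    exact_mod_cast hM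
  have ho : MulAction.orbit (GH M H) (∞ : OnePoint (ZMod q)) = Set.univ := by
    refine Set.eq_univ_of_forall fun x => ?_
    induction x with
    | infty => exact MulAction.mem_orbit_self _
    | coe t =>
      obtain ⟨k, hk⟩ := ZMod.intCast_surjective (t - ((M : ℤ) : ZMod q)⁻¹)
      let γ : SL(2, ℤ) := ⟨!![1 + k * M, k; M, 1], by rw [Matrix.det_fin_two_of]; ring⟩
      refine ⟨⟨γ, dvd_rfl, 1, H.one_mem, by simp [γ]⟩, ?_⟩
      show f _ • (∞ : OnePoint (ZMod q)) = _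
      rw [smul_infty_eq_ite, fe, fe]
      refine (if_neg hM').trans (congrArg _ ?_)
      show (((1 + k * M : ℤ)) : ZMod q) / ((M : ℤ) : ZMod q) = t
      rw [Int.cast_add, Int.cast_mul, hk]
      field_simp
      simp
  rw [Subgroup.relIndex, hs, MulAction.index_stabilizer, ho, Set.ncard_univ]
  show Nat.card (Option (ZMod q)) = _
  rw [Finite.card_option, Nat.card_zmod]

theorem ok_up {M q : ℕ} {H : Subgroup (ZMod M)ˣ} (h : Ok M H) (hq : GoodP M q) :
    Ok (M * q) (up H q) := by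
  refine ⟨Nat.mul_pos h.pos hq.1.pos, h.four.mul_right _, fun d => ?_, ?_⟩
  · rcases (Nat.Prime.dvd_mul Nat.prime_three).1 d with d | d
    · exact h.three d
    · obtain rfl := (Nat.prime_dvd_prime_iff_eq Nat.prime_three hq.1).1 d
      exact hq.2 (Dvd.dvd.mul_right (by norm_num) _)
  · show ZMod.unitsMap _ _ ∈ H
    convert h.neg using 1
    refine Units.ext ?_
    rw [ZMod.unitsMap_def, Units.coe_map, Units.val_neg, Units.val_neg, Units.val_one,
      Units.val_one, MonoidHom.coe_coe, map_neg, map_one]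

theorem ex_al {M q : ℕ} (hq : q.Prime) (hM : ¬ q ∣ M) : ∃ d, IsAL M q d := by
  obtain ⟨x, y, h⟩ := Nat.isCoprime_iff_coprime.2 ((Nat.Prime.coprime_iff_not_dvd hq).2 hM)
  exact ⟨⟨!![x, -y; M, q], by rw [Matrix.det_fin_two_of]; linear_combination h⟩,
    ⟨dvd_rfl, one_dvd _, by simp⟩, dvd_rfl⟩

theorem deg {X : Mdl} {Y : Mods} (hX : MIn X) (hI : InI2 X) (hL : Link X Y) : DEG Y := by
  intro M q H H' j h hj hq hH
  obtain rfl : H' = up H q := Subgroup.ext hH
  have h' := ok_up h hq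
  have hM := (good hq 0).1
  obtain ⟨c, A, e, ea, eT, ed⟩ := hL M H j h
  obtain ⟨c', A', e', ea', eT', ed'⟩ := hL _ _ j h'
  have le : GH (M * q) (up H q) ≤ GH M H := fun γ hγ =>
    ((mem_up h'.pos.ne' ((Nat.Prime.coprime_iff_not_dvd hq.1).2 hM)).1 hγ).1
  obtain ⟨io, nm, -, n0, -, -, n1, n2, n3, n4⟩ := hX.lev M (M * q) (dvd_mul_right M q) H _ h.lv
    h'.lv h.neg h'.neg le (3 ^ j) A A'
  obtain ⟨d, hd⟩ := ex_al hq.1 hM
  obtain ⟨-, W, w1, -, -, w2, w3⟩ := hX.alk M q hq.1 H h.lv h.neg hM d hd (3 ^ j) A'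
  rw [idx H h.pos.ne' hq.1 hM] at n4
  have w2' : ∀ l, ¬ l ∣ M * q → ∀ z, W (A'.T l z) = A'.T l (W z) := fun l hl =>
    DFunLike.congr_fun (w2 l hl).eq
  have w3' : ∀ a z, W (A'.dia a z) = A'.dia a (W z) := fun a => DFunLike.congr_fun (w3 a).eq
  obtain ⟨pb, p⟩ : ∃ pb : Y.A M H j →+ Y.A _ (up H q) j, ∀ y, e' (pb y) = io (e y) :=
    ⟨AddMonoidHom.mk' (fun y => e'.symm (io (e y))) fun a b => by rw [map_add, map_add, map_add],
      fun y => e'.apply_symm_apply _⟩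
  obtain ⟨m0, q0⟩ : ∃ m0 : Y.A _ (up H q) j →+ Y.A M H j, ∀ y, e (m0 y) = nm (e' y) :=
    ⟨AddMonoidHom.mk' (fun y => e.symm (nm (e' y))) fun a b => by rw [map_add, map_add, map_add],
      fun y => e.apply_symm_apply _⟩
  obtain ⟨m1, q1⟩ : ∃ m1 : Y.A _ (up H q) j →+ Y.A M H j, ∀ y, e (m1 y) = nm (W (e' y)) :=
    ⟨AddMonoidHom.mk' (fun y => e.symm (nm (W (e' y)))) fun a b => by
      rw [map_add, map_add, map_add, map_add], fun y => e.apply_symm_apply _⟩
  refine ⟨pb, ![m0, m1], fun l y hl => e'.injective ?_, fun u y => e'.injective ?_,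
    fun i l y hl => e.injective ?_, fun i u y => e.injective ?_, fun y => e.injective ?_,
    fun φ hφ u hu y hy => e'.injective ?_⟩
  · rw [p, eT, eT', p, (n1 l (good hl 0).1).1]
  · rw [p, ed, ed', p, n2]
  · fin_cases i
    · show e (m0 _) = e (Y.T M H j l (m0 y))
      rw [q0, eT, eT', q0, (n1 l (good hl 0).1).2]
    · show e (m1 _) = e (Y.T M H j l (m1 y))
      rw [q1, eT, eT', q1, w2' l (good hl 0).1, (n1 l (good hl 0).1).2]
  · fin_cases i
    · show e (m0 _) = e (Y.dia M H j _ (m0 y))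
      rw [q0, ed, ed', q0, n3]
    · show e (m1 _) = e (Y.dia M H j _ (m1 y))
      rw [q1, ed, ed', q1, w3', n3]
  · show e (m0 _) = _
    rw [q0, p, n4, map_nsmul]
  · have y0 : nm (e' y) = 0 := by rw [← q0, show m0 y = 0 from hy 0, map_zero]
    have y1 : nm (W (e' y)) = 0 := by rw [← q1, show m1 y = 0 from hy 1, map_zero]
    have := hI M q hq.1 H j h hj hq d hd le A' nm W n0 w1 φ hφ u hu (e' y) y0 y1 _ rfl
    have es : ∀ a b, e' (a - b) = e' a - e' b := fun a b => map_sub e' a b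
    rw [pow_two (Y.act _ _ j φ)]
    show e' (Y.act _ _ j φ (Y.act _ _ j φ (Y.act _ _ j φ (Y.act _ _ j φ y) - Y.dia _ _ j u y)) -
      q ^ 2 • Y.dia _ _ j u (Y.act _ _ j φ (Y.act _ _ j φ y) - Y.dia _ _ j u y)) = e' 0
    rw [map_zero, es, map_nsmul]
    simp only [es, ea', ed']
    exact sub_eq_zero.2 this

end In

end Vale.Agent.P027M.TW
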