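import Vale.Agent.P027M.TW.Defs

/-! # P027 route M, block TW: row LOC -/

set_option linter.all false

noncomputable section

namespace Vale.Agent.P027M.TW

open Finset

namespace LocAux

theorem idem {E : Type} [Monoid E] [Finite E] (u : E) (k : ℕ) :
    ∃ N : ℕ, k ≤ N ∧ u ^ N * u ^ N = u ^ N := by
  obtain ⟨a, b, hab, e⟩ := Finite.exists_ne_map_eq_of_infinite fun n : ℕ => u ^ n
  wlog h : a < b generalizing a b
  · exact this b a hab.symm e.symm (by omega)
  obtain ⟨p, rfl⟩ := Nat.exists_eq_add_of_lt h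
  have h1 : ∀ c, u ^ (a + c * (p + 1)) = u ^ a := by
    intro c
    induction c with
    | zero => simp
    | succ c ih =>
      have e' : u ^ a = u ^ (a + p + 1) := e
      rw [show a + (c + 1) * (p + 1) = a + p + 1 + c * (p + 1) by ring, pow_add, ← e', ← pow_add, ih]
  have h2 : a + k ≤ (a + k) * (p + 1) := Nat.le_mul_of_pos_right _ (Nat.succ_pos _)
  obtain ⟨t, ht⟩ := Nat.exists_eq_add_of_le (show a ≤ (a + k) * (p + 1) by omega)
  refine ⟨(a + k) * (p + 1), by omega, ?_⟩
  rw [← pow_add]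
  calc u ^ ((a + k) * (p + 1) + (a + k) * (p + 1)) = u ^ (a + (a + k) * (p + 1) + t) := by
        congr 1; omega
    _ = u ^ ((a + k) * (p + 1)) := by rw [pow_add, h1, ← pow_add, ← ht]

section

variable {Λ M M' : Type} [CommRing Λ] [AddCommGroup M] [Module Λ M] [AddCommGroup M'] [Module Λ M']

theorem map_pow' {u : Module.End Λ M} {u' : Module.End Λ M'} {f : M →ₗ[Λ] M'}
    (h : ∀ x, f (u x) = u' (f x)) (n : ℕ) (x : M) : f ((u ^ n) x) = (u' ^ n) (f x) := by
  induction n with
  | zero => rfl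
  | succ n ih => rw [pow_succ', pow_succ', Module.End.mul_apply, Module.End.mul_apply, h, ih]

theorem one [Finite M] {ι : Type} (u : ι → Module.End Λ M) (u' : ι → Module.End Λ M')
    (f : M →ₗ[Λ] M') (hc : ∀ i i', Commute (u i) (u i')) (h : ∀ i x, f (u i x) = u' i (f x))
    (x : M) (hx : ∀ i, ∃ k, (u' i ^ k) (f x) = 0) :
    ∃ x', f x' = f x ∧ ∀ i, ∃ k, (u i ^ k) x' = 0 := by
  classical
  haveI : Finite (Module.End Λ M) := DFunLike.finite _
  haveI := Fintype.ofFinite (Module.End Λ M)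
  suffices H : ∀ s : Finset (Module.End Λ M), ∃ x', f x' = f x ∧ ∀ i, u i ∈ s → ∃ k, (u i ^ k) x' = 0 by
    obtain ⟨x', h1, h2⟩ := H univ
    exact ⟨x', h1, fun i => h2 i (mem_univ _)⟩
  intro s
  induction s using Finset.induction_on with
  | empty => exact ⟨x, rfl, fun i hi => absurd hi (notMem_empty _)⟩
  | insert v s _ ih =>
    obtain ⟨y, h1, h2⟩ := ih
    by_cases hv : ∃ i, u i = v
    · obtain ⟨i, rfl⟩ := hv
      obtain ⟨k, hk⟩ := hx i
      obtain ⟨N, hN, e⟩ := idem (u i) k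
      obtain ⟨t, rfl⟩ := Nat.exists_eq_add_of_le' hN
      refine ⟨y - (u i ^ (t + k)) y, ?_, fun j hj => ?_⟩
      · rw [map_sub, map_pow' (h i), h1, pow_add, Module.End.mul_apply, hk, map_zero, sub_zero]
      · rcases mem_insert.1 hj with hj | hj
        · exact ⟨t + k, by rw [hj, map_sub, ← Module.End.mul_apply, e, sub_self]⟩
        · obtain ⟨l, hl⟩ := h2 j hj
          refine ⟨l, ?_⟩
          rw [map_sub, ← Module.End.mul_apply, ((hc j i).pow_pow l (t + k)).eq,
            Module.End.mul_apply, hl, map_zero, sub_zero]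
    · exact ⟨y, h1, fun j hj => h2 j ((mem_insert.1 hj).resolve_left fun e => hv ⟨j, e⟩)⟩

theorem two (u : Module.End Λ M) (ε : Λ) (n : ℕ) (hn : IsUnit (n : Λ)) (n0 : 0 < n) (hu : u ^ n = 1)
    (hε : ε ^ n = 1) (k : ℕ) (x : M) (hx : ((u - ε • (1 : Module.End Λ M)) ^ k) x = 0) :
    u x = ε • x := by
  set w := u - ε • (1 : Module.End Λ M) with hw
  have wx : ∀ y, w y = u y - ε • y := fun y => rfl
  have key : ∀ y, w (w y) = 0 → w y = 0 := by
    intro y hy
    have c : Commute u (ε • (1 : Module.End Λ M)) := (Commute.one_right u).smul_right ε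
    have g := c.geom_sum₂_mul n
    rw [smul_pow, one_pow, hε, one_smul, hu, sub_self, ← hw] at g
    have h1 : u (w y) = ε • w y := sub_eq_zero.1 ((wx _).symm.trans hy)
    have h2 : ∀ i, (u ^ i) (w y) = ε ^ i • w y := by
      intro i
      induction i with
      | zero => simp
      | succ i ih => rw [pow_succ', Module.End.mul_apply, ih, map_smul, h1, smul_smul, pow_succ]
    have h3 := congrArg (fun g : Module.End Λ M => g y) g
    simp only [Module.End.mul_apply, LinearMap.sum_apply, LinearMap.zero_apply, smul_pow, one_pow,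
      LinearMap.smul_apply, Module.End.one_apply, map_smul, h2, smul_smul] at h3
    rw [sum_congr rfl (g := fun _ => ε ^ (n - 1) • w y) fun i hi => by
      rw [← pow_add]; congr 2; have := mem_range.1 hi; omega, sum_const, card_range,
      ← Nat.cast_smul_eq_nsmul Λ, smul_smul] at h3
    have h4 : IsUnit (ε ^ (n - 1)) := (IsUnit.of_pow_eq_one hε n0.ne').pow _
    exact (hn.mul h4).smul_eq_zero.1 h3
  rw [← sub_eq_zero, ← wx]
  induction k with
  | zero => rw [show x = 0 from hx, map_zero]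
  | succ k ih =>
    rcases k with _ | k
    · simpa using hx
    · refine ih ?_
      rw [pow_succ', pow_succ', Module.End.mul_apply, Module.End.mul_apply] at hx
      rw [pow_succ', Module.End.mul_apply]
      exact key _ hx

end

theorem span {Λ : Type} [AddCommGroup Λ] {m f : ℕ} (e : Λ ≃+ (Fin f → ZMod m)) (z : Λ)
    (c : Fin f → ℤ) (hc : ∀ i, (c i : ZMod m) = e z i) :
    z = ∑ i, c i • e.symm (Pi.single i 1) := by
  apply e.injective
  rw [map_sum]
  funext j
  simp only [map_zsmul, AddEquiv.apply_symm_apply, Finset.sum_apply, Pi.smul_apply, Pi.single_apply,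
    smul_ite, smul_zero, sum_ite_eq, mem_univ, if_true, zsmul_one, hc]

theorem three {Λ A A' : Type} [CommRing Λ] [AddCommGroup A] [AddCommGroup A'] {m f : ℕ}
    (e : Λ ≃+ (Fin f → ZMod m)) (Rl : A → A' → Prop) (h0 : Rl 0 0)
    (ha : ∀ x y x' y', Rl x y → Rl x' y' → Rl (x + x') (y + y')) (hm : ∀ x : A, m • x = 0)
    (m0 : 0 < m) (χ : Hm Λ A') (hχ : ∀ z, ∃ x, Rl x (χ.hom z)) :
    ∃ φ : Hm Λ A, ∀ z, Rl (φ.hom z) (χ.hom z) := by
  haveI : NeZero m := ⟨m0.ne'⟩
  choose x hx using fun i => hχ (e.symm (Pi.single i 1))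
  let ψ : Fin f → ZMod m →+ A := fun i =>
    ZMod.lift m ⟨zmultiplesHom A (x i), by simpa using hm (x i)⟩
  have hψ : ∀ i (c : ZMod m), ψ i c = c.val • x i := by
    intro i c
    have : c = ((c.val : ℤ) : ZMod m) := by simp
    conv_lhs => rw [this]
    simp only [ψ, ZMod.lift_coe, zmultiplesHom_apply, natCast_zsmul]
  refine ⟨Hm.mk (∑ i, (ψ i).comp ((Pi.evalAddMonoidHom (fun _ => ZMod m) i).comp e.toAddMonoidHom)),
    fun z => ?_⟩
  have h1 : ∀ (n : ℕ) x y, Rl x y → Rl (n • x) (n • y) := by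
    intro n x y h
    induction n with
    | zero => simpa using h0
    | succ n ih => rw [succ_nsmul, succ_nsmul]; exact ha _ _ _ _ ih h
  have h2 : χ.hom z = ∑ i, (e z i).val • χ.hom (e.symm (Pi.single i 1)) := by
    conv_lhs => rw [span e z (fun i => (e z i).val) fun i => by simp]
    simp only [map_sum, natCast_zsmul, map_nsmul]
  have h3 : (Hm.mk (∑ i, (ψ i).comp ((Pi.evalAddMonoidHom (fun _ => ZMod m) i).comp
      e.toAddMonoidHom)) : Hm Λ A).hom z = ∑ i, (e z i).val • x i := by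
    show (∑ i, (ψ i).comp ((Pi.evalAddMonoidHom (fun _ => ZMod m) i).comp e.toAddMonoidHom)) z = _
    rw [AddMonoidHom.finsetSum_apply]
    exact sum_congr rfl fun i _ => hψ i _
  rw [h2, h3]
  exact Finset.induction_on (motive := fun s => Rl (∑ i ∈ s, (e z i).val • x i)
    (∑ i ∈ s, (e z i).val • χ.hom (e.symm (Pi.single i 1)))) univ (by simpa using h0)
    fun i s hi ih => by rw [sum_insert hi, sum_insert hi]; exact ha _ _ _ _ (h1 _ _ _ (hx i)) ih

theorem four {Λ A : Type} [CommRing Λ] [AddCommGroup A] [Finite A] {m f b : ℕ}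
    (e : Λ ≃+ (Fin f → ZMod m)) (h : Nat.card {x : A // 3 • x = 0} ≤ 2 ^ b) :
    Nat.card {φ : Hm Λ A // 3 • φ = 0} ≤ 2 ^ (b * f) := by
  let F : {φ : Hm Λ A // 3 • φ = 0} → Fin f → {x : A // 3 • x = 0} := fun φ i =>
    ⟨φ.1.hom (e.symm (Pi.single i 1)), DFunLike.congr_fun (show 3 • φ.1.hom = 0 from φ.2) _⟩
  have hF : Function.Injective F := by
    intro φ χ hh
    refine Subtype.ext (Hm.ext fun z => ?_)
    rw [span e z (fun i => (e z i).cast) fun i => ZMod.intCast_zmod_cast _, map_sum, map_sum]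
    refine sum_congr rfl fun i _ => ?_
    rw [map_zsmul, map_zsmul]
    exact congrArg _ (congrArg Subtype.val (congrFun hh i))
  refine (Nat.card_le_card_of_injective F hF).trans ?_
  rw [Nat.card_fun, Nat.card_eq_fintype_card (α := Fin f), Fintype.card_fin, pow_mul]
  exact Nat.pow_le_pow_left h f

end LocAux

theorem loc : Spec_LOC := by
  refine ⟨?_, ?_, ?_, ?_⟩
  · intro Λ M M' ι _ _ _ _ _ _ _ T T' a f hc h x hx
    simp only [mP, Submodule.mem_iInf, Module.End.mem_maxGenEigenspace] at hx ⊢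
    obtain ⟨x', h1, h2⟩ := LocAux.one (fun i => T i - a i • 1) (fun i => T' i - a i • 1) f
      (fun i i' => ((hc i i').sub_right ((Commute.one_right _).smul_right _)).sub_left
        ((Commute.one_left _).smul_left _)) (fun i x => by simp [h]) x hx
    exact ⟨x', h2, h1⟩
  · intro Λ M _ _ _ u ε n hn n0 hu hε x hx
    obtain ⟨k, hk⟩ := (Module.End.mem_maxGenEigenspace u ε x).1 hx
    exact LocAux.two u ε n hn n0 hu hε k x hk
  · intro Λ A A' _ _ _ m f e Rl h0 ha hm m0 χ hχ
    exact LocAux.three e Rl h0 ha hm m0 χ hχ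
  · intro Λ A _ _ _ m f b e h
    exact LocAux.four e h

end Vale.Agent.P027M.TW
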