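import Vale.Agent.P027M.TW.Defs

/-! # P027 route M, blocks TW + P: the data at one Taylor-Wiles level, row LOW, NEW, group rows -/

noncomputable section

namespace Vale.Agent.P027M.TW

open scoped MatrixGroups

/-- Galois module with Hecke operators at one level. `ι` indexes the good primes `ln i`;
`D i` is the prime-to-`3` diamond operator, `dl (ψ φ)` the diamond operator in `Δ`. -/
structure GalH {G Δ ι A Λ : Type} [Group G] [CommGroup Δ] [AddCommGroup A] [CommRing Λ] (j : ℕ)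
    (act : G →* AddMonoid.End A) (dl : Δ →* AddMonoid.End A) (ψ : G →* Δ)
    (T D : ι → AddMonoid.End A) (ρ : G →* M2 Λ) (ln : ι → ℕ) (a ε : ι → Λ) (Fr : ι → G → Prop)
    (U : Subgroup G) : Prop where
  fin : Finite A
  tor : ∀ x : A, 3 ^ j • x = 0
  cTT : ∀ i i', Commute (T i) (T i')
  cTD : ∀ i i', Commute (T i) (D i')
  cDD : ∀ i i', Commute (D i) (D i')
  cTa : ∀ i g, Commute (T i) (act g)
  cDa : ∀ i g, Commute (D i) (act g)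
  cTd : ∀ i δ, Commute (T i) (dl δ)
  cDd : ∀ i δ, Commute (D i) (dl δ)
  cad : ∀ g δ, Commute (act g) (dl δ)
  es : ∀ i φ, Fr i φ → ∀ x, T i x = act φ x + ln i • act φ⁻¹ (D i (dl (ψ φ) x))
  tr : ∀ i φ, Fr i φ → (ρ φ).trace = a i
  det : ∀ i φ, Fr i φ → (ρ φ).det = ln i * ε i
  ord : ∃ M : ℕ, ¬ 3 ∣ M ∧ ∀ i, D i ^ M = 1 ∧ ε i ^ M = 1
  ex : ∀ i, ∃ φ, Fr i φ
  ker : ∀ u ∈ U, act u = 1 ∧ ψ u = 1 ∧ ρ u = 1
  dens : ∀ (Γ : Type) [Monoid Γ] [Finite Γ] (r : G →* Γ), (∀ u ∈ U, r u = 1) →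
    Dens r fun φ => ∃ i, Fr i φ

/-- descent from level `L` to level `K` up to the Eisenstein operator `E = T i0 - d0` -/
structure Desc {Δ ι AK AL : Type} [CommGroup Δ] [Fintype Δ] [AddCommGroup AK] [AddCommGroup AL]
    (j : ℕ) (dl : Δ →* AddMonoid.End AL) (TK DK : ι → AddMonoid.End AK)
    (TL DL : ι → AddMonoid.End AL) (io : AK →+ AL) (i0 : ι) (d0 : ℕ) : Prop where
  fin : Finite AK
  tor : ∀ y : AK, 3 ^ j • y = 0
  cTT : ∀ i i', Commute (TK i) (TK i')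
  cTD : ∀ i i', Commute (TK i) (DK i')
  cDD : ∀ i i', Commute (DK i) (DK i')
  ioT : ∀ i y, io (TK i y) = TL i (io y)
  ioD : ∀ i y, io (DK i y) = DL i (io y)
  d1 : ∀ x : AL, (∀ δ, dl δ x = x) → ∃ y, io y = TL i0 x - d0 • x
  d2 : ∀ y : AK, io y = 0 → TK i0 y = d0 • y
  d3 : ∀ y : AK, 3 • y = 0 → ∃ w : AL, 3 ^ (j - 1) • ∑ δ, dl δ w = io y

/-- the `𝔪`-part at level `K` is nonzero and embeds in `C` copies of level zero -/
structure Old {ι A0 AK Λ : Type} [AddCommGroup A0] [AddCommGroup AK] [CommRing Λ] {C : ℕ}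
    (T0 : ι → AddMonoid.End A0) (TK DK : ι → AddMonoid.End AK) (a ε : ι → Λ)
    (β : Fin C → AK →+ A0) : Prop where
  fin : Finite A0
  eqv : ∀ u i y, β u (TK i y) = T0 i (β u y)
  inj : ∀ φ ∈ mH TK DK a ε, (∀ u z, β u (φ.hom z) = 0) → φ = 0
  ne : ∃ φ ∈ mH TK DK a ε, φ ≠ 0

/-- raw form of `FlB`, for the twisted action `tw` on `A` -/
def FlRaw {G A Λ : Type} [Group G] [AddCommGroup A] [CommRing Λ] (tw : G →* AddMonoid.End A)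
    (ρ : G →* M2 Λ) (Fl : (G → ZMod 3) → Prop) : Prop :=
  ∀ (I : Type) [Fintype I] (B : AddSubgroup (I → A × (Fin 2 → Λ)))
    (hB : ∀ g, ∀ b ∈ B, (fun i => (tw g (b i).1, (ρ g).mulVec (b i).2)) ∈ B)
    (f : B →+ ZMod 3) (b : B),
    Fl fun g => f ⟨fun i => (tw g (b.1 i).1, (ρ g).mulVec (b.1 i).2), hB g b b.2⟩ - f b

/-- residual data -/
structure Resid {G Λ k : Type} [Group G] [CommRing Λ] [Field k] (red : Λ →+* k)
    (ρ : G →* M2 Λ) (c : G) : Prop where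
  cc : c * c = 1
  det : (ρ c).det = -1
  span : ∀ m : M2 k, m ∈ Submodule.span k (Set.range fun g => (ρ g).map red)
  two : ∀ g, ∃ a : ℕ, redRep red ρ g ^ 2 ^ a = 1

/-- the statement proved in row LOW: no Taylor-Wiles level of large depth `j` exists when all
eigenvectors at level zero are killed by `3 ^ v` -/
def LOW : Prop :=
  ∀ r e v b f C : ℕ, ∃ j0 : ℕ, ∀ j, j0 ≤ j →
    ∀ (G Δ ι A0 AK AL Λ k : Type) [Group G] [CommGroup Δ] [Fintype Δ] [AddCommGroup A0]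
    [AddCommGroup AK] [AddCommGroup AL] [CommRing Λ] [Field k] (red : Λ →+* k)
    (_ : Λ ≃+ (Fin f → ZMod (3 ^ j))) (n : ℕ) (act tw : G →* AddMonoid.End AL)
    (dl : Δ →* AddMonoid.End AL) (ψ : G →* Δ) (T0 : ι → AddMonoid.End A0)
    (TK DK : ι → AddMonoid.End AK) (TL DL : ι → AddMonoid.End AL) (ρ : G →* M2 Λ) (ln : ι → ℕ)
    (a ε : ι → Λ) (Fr : ι → G → Prop) (U : Subgroup G) (io : AK →+ AL) (i0 : ι) (d0 : ℕ)
    (β : Fin C → AK →+ A0) (Fl : (G → ZMod 3) → Prop) (Z : Set G) (c : G) (σ : Fin r → G),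
    Coef red j → 2 * j ≤ n → Del n (fun i => ψ (σ i)) →
    GalH j act dl ψ TL DL ρ ln a ε Fr U → Desc j dl TK DK TL DL io i0 d0 →
    red (a i0) ≠ d0 → Old T0 TK DK a ε β → Nat.card {x : A0 // 3 • x = 0} ≤ 2 ^ b →
    Resid red ρ c → IsTw n act dl ψ tw → FlRaw tw ρ Fl →
    (∀ z ∈ Z, ψ z = 1 ∧ (ρ z).trace = 1 + (ρ z).det ∧ ∀ φ ∈ mH TL DL a ε,
      ((Hm.endo Λ AL (act z) - 1) * (Hm.endo Λ AL (act z) -
        algebraMap Λ (Module.End Λ (Hm Λ AL)) (ρ z).det)) φ = 0) →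
    SEL (redRep red ρ) U Fl Z r → (∀ i, ρ (σ i) = 1) →
    (∀ i, ∀ φ ∈ mH TL DL a ε, Hm.endo Λ AL
      (((act (σ i) - 1) * (act (σ i) - dl (ψ (σ i))) * (dl (ψ (σ i)) - 1)) ^ e) φ = 0) →
    ∃ φ : Λ →+ A0, (∀ i z, T0 i (φ z) = φ (a i * z)) ∧ 3 ^ v • φ ≠ 0

/-- the statement proved in row HCH: Cayley-Hamilton on the `𝔪`-part -/
def HCH : Prop :=
  ∀ (G Δ ι A Λ k : Type) [Group G] [CommGroup Δ] [AddCommGroup A] [CommRing Λ] [Field k]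
    (red : Λ →+* k) (j n : ℕ) (act tw : G →* AddMonoid.End A) (dl : Δ →* AddMonoid.End A)
    (ψ : G →* Δ) (T D : ι → AddMonoid.End A) (ρ : G →* M2 Λ) (ln : ι → ℕ) (a ε : ι → Λ)
    (Fr : ι → G → Prop) (U : Subgroup G), Coef red j → (∀ δ : Δ, δ ^ 3 ^ n = 1) →
    GalH j act dl ψ T D ρ ln a ε Fr U → IsTw n act dl ψ tw →
    (∀ g, ∃ s : ℕ, redRep red ρ g ^ 2 ^ s = 1) →
    ∃ (act' π : G →* Module.End Λ (mH T D a ε)) (dl' : Δ →* Module.End Λ (mH T D a ε)),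
      (∀ g φ, (act' g φ : Hm Λ A) = Hm.endo Λ A (act g) φ) ∧
      (∀ g φ, (π g φ : Hm Λ A) = Hm.endo Λ A (tw g) φ) ∧
      (∀ δ φ, (dl' δ φ : Hm Λ A) = Hm.endo Λ A (dl δ) φ) ∧ (∀ g, CHat π ρ g) ∧
      (∀ i φ, φ ∈ mH T D a ε → Hm.endo Λ A (D i) φ = ε i • φ) ∧
      ∀ i g, Fr i g → ∀ φ : mH T D a ε, (∀ δ, dl' δ φ = φ) →
        (tau π ρ g φ : Hm Λ A) = Hm.endo Λ A (T i) φ

/-- row HCH -/
def Spec_HCH : Prop := Spec_CH → Spec_LOC → HCH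

/-- row LOW -/
def Spec_LOW : Prop := HCH → GEN → MID → Spec_LOC → LOW

/-- row NEW: an element of the `𝔪`-part killed by a product of operators `g² - u` vanishes, if
`g` has residual trace zero and the `u` are congruent to `det g` -/
def NEW : Prop :=
  ∀ (G ι A Λ k : Type) [Group G] [AddCommGroup A] [CommRing Λ] [Field k]
    (red : Λ →+* k) (j : ℕ) (act : G →* AddMonoid.End A) (T D : ι → AddMonoid.End A)
    (ρ : G →* M2 Λ) (ln : ι → ℕ) (a ε : ι → Λ) (Fr : ι → G → Prop) (U : Subgroup G),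
    Coef red j → GalH j act (1 : Unit →* AddMonoid.End A) (1 : G →* Unit) T D ρ ln a ε Fr U →
    (∀ g, ∃ s : ℕ, redRep red ρ g ^ 2 ^ s = 1) →
    ∀ g, red (ρ g).trace = 0 → ∀ u : Λ, red u = red (ρ g).det → ∀ φ ∈ mH T D a ε,
      Hm.endo Λ A (act g ^ 2) φ = u • φ → φ = 0

/-- row NEW -/
def Spec_NEW : Prop := HCH → NEW

/-- row CUSP: `g - 1` is onto on the `𝔪`-part if `1` is not a residual eigenvalue of `g` -/
def CUSP : Prop :=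
  ∀ (G Δ ι A Λ k : Type) [Group G] [CommGroup Δ] [AddCommGroup A] [CommRing Λ] [Field k]
    (red : Λ →+* k) (j n : ℕ) (act : G →* AddMonoid.End A) (dl : Δ →* AddMonoid.End A)
    (ψ : G →* Δ) (T D : ι → AddMonoid.End A) (ρ : G →* M2 Λ) (ln : ι → ℕ) (a ε : ι → Λ)
    (Fr : ι → G → Prop) (U : Subgroup G), Coef red j → (∀ δ : Δ, δ ^ 3 ^ n = 1) →
    GalH j act dl ψ T D ρ ln a ε Fr U → (∀ g, ∃ s : ℕ, redRep red ρ g ^ 2 ^ s = 1) →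
    ∀ g, ψ g = 1 → red (1 - (ρ g).trace + (ρ g).det) ≠ 0 → ∀ φ ∈ mH T D a ε,
      ∃ φ' ∈ mH T D a ε, φ = Hm.endo Λ A (act g - 1) φ'

/-- row CUSP -/
def Spec_CUSP : Prop := HCH → CUSP

/-! ## group theory -/

/-- homomorphisms from `Γ` that kill `z` lift along surjections -/
def Proj {S : Type} [Group S] (Γ : Subgroup S) (z : S) : Prop :=
  ∀ (P Q : Type) [Group P] [Group Q] (f : P →* Q), Function.Surjective f →
    ∀ h : Γ →* Q, (∀ hz : z ∈ Γ, h ⟨z, hz⟩ = 1) → ∃ h' : Γ →* P, ∀ γ, f (h' γ) = h γ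

/-- row FREE: subgroups of `Γ₀(4)` containing `-1` are free modulo `-1` -/
def Spec_FREE : Prop :=
  ∀ Γ : Subgroup SL(2, ℤ), (∀ γ ∈ Γ, (4 : ℤ) ∣ γ 1 0) → -1 ∈ Γ → Proj Γ (-1)

/-- `φ` is additive on `Γ` -/
def AddOn {S X : Type} [Group S] [AddCommGroup X] (Γ : Subgroup S) (φ : S → X) : Prop :=
  ∀ γ ∈ Γ, ∀ γ' ∈ Γ, φ (γ * γ') = φ γ + φ γ'

/-- row GD: descent for homomorphisms. `d : Γ → Δ` onto, `Γ'` its kernel; a Hecke operator is a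
family `g i γ` with a permutation cocycle `p γ`, preserving `d` -/
def Spec_GD : Prop :=
  ∀ (S Δ I : Type) [Group S] [CommGroup Δ] [Fintype Δ] [Fintype I] (Γ Γ' : Subgroup S)
    (d : Γ →* Δ) (s : Δ → Γ), (∀ δ, d (s δ) = δ) → (∀ γ : S, γ ∈ Γ' ↔ ∃ h : γ ∈ Γ, d ⟨γ, h⟩ = 1) →
    (∀ (X : Type) [AddCommGroup X] (g : I → Γ → Γ) (p : Γ → Equiv.Perm I),
      (∀ i γ γ', g i (γ * γ') = g i γ * g (p γ i) γ') → (∀ i γ, d (g i γ) = d γ) →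
      (∀ φ : S → X, AddOn Γ' φ → (∀ γ ∈ Γ, ∀ x ∈ Γ', φ (γ * x * γ⁻¹) = φ x) →
        ∃ y : S → X, AddOn Γ y ∧ ∀ x : Γ, (x : S) ∈ Γ' →
          y x = ∑ i, φ (g i x) - Fintype.card I • φ x) ∧
      ∀ y : S → X, AddOn Γ y → (∀ x ∈ Γ', y x = 0) →
        ∀ γ : Γ, ∑ i, y (g i γ) = Fintype.card I • y γ) ∧
    ∀ z : S, Proj Γ z → z * z = 1 → Odd (Fintype.card Δ) → ∀ j : ℕ, 1 ≤ j →
      ∀ y : S → ZMod (3 ^ j), AddOn Γ y → (∀ γ ∈ Γ, 3 • y γ = 0) →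
        ∃ w : S → ZMod (3 ^ j), AddOn Γ' w ∧ ∀ x ∈ Γ',
          3 ^ (j - 1) • ∑ δ, w (s δ * x * (s δ : S)⁻¹) = y x

end Vale.Agent.P027M.TW
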