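import Vale.Agent.P027M.TW.Low

/-! # P027 route M, row LOW: tools -/

noncomputable section

namespace Vale.Agent.P027M.TW.LowP

open Vale.Agent.P027M.TW

theorem unit_of {Λ k : Type} [CommRing Λ] [Field k] {red : Λ →+* k} {j : ℕ} (hC : Coef red j)
    {x : Λ} (hx : red x ≠ 0) : IsUnit x := by
  obtain ⟨b, hb⟩ := hC.surj (red x)⁻¹
  have h1 : IsNilpotent (1 - b * x) := hC.nil _ (by simp [hb, hx])
  have h2 : IsUnit (1 - (1 - b * x)) := h1.isUnit_one_sub
  rw [sub_sub_cancel] at h2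
  exact isUnit_of_mul_isUnit_right h2

section gen

variable {Λ M M' ι : Type} [CommRing Λ] [AddCommGroup M] [Module Λ M] [AddCommGroup M']
  [Module Λ M']

theorem mP_map {T : ι → Module.End Λ M} {T' : ι → Module.End Λ M'} {a : ι → Λ} (f : M →ₗ[Λ] M')
    (hf : ∀ i x, f (T i x) = T' i (f x)) {x : M} (hx : x ∈ mP T a) : f x ∈ mP T' a := by
  rw [mP, Submodule.mem_iInf] at hx ⊢
  intro i
  obtain ⟨n, hn⟩ := (Module.End.mem_maxGenEigenspace _ _ _).1 (hx i)
  refine (Module.End.mem_maxGenEigenspace _ _ _).2 ⟨n, ?_⟩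
  have key : ∀ (n : ℕ) (x : M), ((T' i - a i • (1 : Module.End Λ M')) ^ n) (f x) =
      f (((T i - a i • (1 : Module.End Λ M)) ^ n) x) := by
    intro n
    induction n with
    | zero => intro x; rfl
    | succ n ih =>
      intro x
      rw [pow_succ, pow_succ, Module.End.mul_apply, Module.End.mul_apply, ← ih]
      simp [hf]
  rw [key, hn, map_zero]

theorem eig_zero {T : Module.End Λ M} {a d : Λ} (hu : IsUnit (d - a)) {x : M}
    (hx : x ∈ T.maxGenEigenspace a) (h : T x = d • x) : x = 0 := by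
  obtain ⟨n, hn⟩ := (Module.End.mem_maxGenEigenspace _ _ _).1 hx
  have key : ∀ n : ℕ, ((T - a • (1 : Module.End Λ M)) ^ n) x = (d - a) ^ n • x := by
    intro n
    induction n with
    | zero => simp
    | succ n ih =>
      rw [pow_succ, Module.End.mul_apply]
      have : (T - a • (1 : Module.End Λ M)) x = (d - a) • x := by simp [h, sub_smul]
      rw [this, map_smul, ih, smul_smul, pow_succ']
  rw [key] at hn
  exact ((hu.pow n).smul_eq_zero).1 hn

/-- `u` is the restriction of `U` -/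
def Lf {p : Submodule Λ M} (u : Module.End Λ p) (U : Module.End Λ M) : Prop :=
  ∀ φ : p, (u φ : M) = U φ

variable {p : Submodule Λ M} {u u' : Module.End Λ p} {U U' : Module.End Λ M}

theorem Lf.one : Lf (1 : Module.End Λ p) (1 : Module.End Λ M) := fun _ => rfl

theorem Lf.mul (h : Lf u U) (h' : Lf u' U') : Lf (u * u') (U * U') := fun φ => by
  rw [Module.End.mul_apply, Module.End.mul_apply, h, h']

theorem Lf.sub (h : Lf u U) (h' : Lf u' U') : Lf (u - u') (U - U') := fun φ => by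
  rw [LinearMap.sub_apply, LinearMap.sub_apply, Submodule.coe_sub, h, h']

theorem Lf.pow (h : Lf u U) (n : ℕ) : Lf (u ^ n) (U ^ n) := by
  induction n with
  | zero => rw [pow_zero, pow_zero]; exact Lf.one
  | succ n ih => rw [pow_succ, pow_succ]; exact ih.mul h

theorem Lf.alg (a : Λ) : Lf (algebraMap Λ (Module.End Λ p) a) (algebraMap Λ (Module.End Λ M) a) :=
  fun _ => rfl

theorem Lf.uniq (h : Lf u U) (h' : Lf u' U) : u = u' :=
  LinearMap.ext fun φ => Subtype.ext ((h φ).trans (h' φ).symm)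

theorem Lf.eq_zero (h : Lf u U) (h0 : ∀ φ ∈ p, U φ = 0) : u = 0 :=
  LinearMap.ext fun φ => Subtype.ext ((h φ).trans (h0 φ φ.2))

end gen

section hm

variable {Λ A A' ι : Type} [CommRing Λ] [AddCommGroup A] [AddCommGroup A']

theorem fin_Hm [Finite Λ] [Finite A] : Finite (Hm Λ A) := DFunLike.finite (Λ →+ A)

theorem endo_hom (u : AddMonoid.End A) (φ : Hm Λ A) (x : Λ) :
    (Hm.endo Λ A u φ).hom x = u (φ.hom x) := rfl

theorem nsmul_hom (n : ℕ) (φ : Hm Λ A) (x : Λ) : (n • φ).hom x = n • φ.hom x := rfl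

theorem mH_map {T D : ι → AddMonoid.End A} {T' D' : ι → AddMonoid.End A'} {a ε : ι → Λ}
    (f : A →+ A') (hT : ∀ i y, f (T i y) = T' i (f y)) (hD : ∀ i y, f (D i y) = D' i (f y))
    {φ : Hm Λ A} (h : φ ∈ mH T D a ε) : Hm.map Λ f φ ∈ mH T' D' a ε := by
  refine mP_map _ ?_ h
  rintro (i | i) x
  · exact Hm.ext fun z => hT i _
  · exact Hm.ext fun z => hD i _

theorem mH_endo {T D : ι → AddMonoid.End A} {a ε : ι → Λ} (u : AddMonoid.End A)
    (hT : ∀ i, Commute (T i) u) (hD : ∀ i, Commute (D i) u)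
    {φ : Hm Λ A} (h : φ ∈ mH T D a ε) : Hm.endo Λ A u φ ∈ mH T D a ε :=
  mH_map u (fun i y => DFunLike.congr_fun (hT i).eq.symm y)
    (fun i y => DFunLike.congr_fun (hD i).eq.symm y) h

theorem mH_zero {k : Type} [Field k] {red : Λ →+* k} {j : ℕ} (hC : Coef red j)
    {T D : ι → AddMonoid.End A} {a ε : ι → Λ} {i0 : ι} {d0 : ℕ} (hd : red (a i0) ≠ d0)
    {φ : Hm Λ A} (h : φ ∈ mH T D a ε) (h0 : ∀ z, T i0 (φ.hom z) = d0 • φ.hom z) : φ = 0 := by
  rw [mH, mP, Submodule.mem_iInf] at h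
  refine eig_zero (d := (d0 : Λ)) (unit_of hC ?_) (h (.inl i0)) ?_
  · rw [map_sub, map_natCast, sub_ne_zero]
    exact hd.symm
  · rw [Nat.cast_smul_eq_nsmul]
    exact Hm.ext h0

/-- lifting into the `𝔪`-part along an equivariant map -/
theorem lift (hL : Spec_LOC) [Finite Λ] [Finite A] [Finite A'] {m f : ℕ} (hm : 0 < m)
    (e : Λ ≃+ (Fin f → ZMod m)) (tor : ∀ x : A, m • x = 0)
    {T D : ι → AddMonoid.End A} {T' D' : ι → AddMonoid.End A'} {a ε : ι → Λ}
    (cTT : ∀ i i', Commute (T i) (T i')) (cTD : ∀ i i', Commute (T i) (D i'))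
    (cDD : ∀ i i', Commute (D i) (D i'))
    (g : A →+ A') (hT : ∀ i y, g (T i y) = T' i (g y)) (hD : ∀ i y, g (D i y) = D' i (g y))
    {χ : Hm Λ A'} (h : χ ∈ mH T' D' a ε) (hex : ∀ z, ∃ x, g x = χ.hom z) :
    ∃ φ ∈ mH T D a ε, Hm.map Λ g φ = χ := by
  obtain ⟨φ, hφ⟩ := hL.2.2.1 Λ A A' m f e (fun x y => g x = y) (map_zero g)
    (fun x y x' y' h1 h2 => by rw [map_add, h1, h2]) tor hm χ hex
  have h1 : Hm.map Λ g φ = χ := Hm.ext hφ
  have := fin_Hm (Λ := Λ) (A := A)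
  have := fin_Hm (Λ := Λ) (A := A')
  obtain ⟨φ', h2, h3⟩ := hL.1 Λ (Hm Λ A) (Hm Λ A') (ι ⊕ ι)
    (fun i => Hm.endo Λ A (Sum.elim T D i)) (fun i => Hm.endo Λ A' (Sum.elim T' D' i))
    (Sum.elim a ε) (Hm.map Λ g) (by
      rintro (i | i) (i' | i')
      · exact (cTT i i').map _
      · exact (cTD i i').map _
      · exact (cTD i' i).symm.map _
      · exact (cDD i i').map _) (by
      rintro (i | i) x
      · exact Hm.ext fun z => hT i _
      · exact Hm.ext fun z => hD i _) φ (by rw [h1]; exact h)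
  exact ⟨φ', h2, h3.trans h1⟩

/-- flatness on a stable submodule of `Hm` -/
theorem flB {G : Type} [Group G] [Finite Λ] {p : Submodule Λ (Hm Λ A)}
    {tw : G →* AddMonoid.End A} {π : G →* Module.End Λ p} {ρ : G →* M2 Λ}
    {Fl : (G → ZMod 3) → Prop} (hπ : ∀ g φ, (π g φ : Hm Λ A) = Hm.endo Λ A (tw g) φ)
    (h : FlRaw tw ρ Fl) : FlB π ρ Fl := by
  intro I _ B hB f b
  have : Fintype (I × Λ) := Fintype.ofFinite _
  let Θ : (I → p × (Fin 2 → Λ)) →+ (I × Λ → A × (Fin 2 → Λ)) :=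
    { toFun := fun b q => (((b q.1).1 : Hm Λ A).hom q.2, (b q.1).2)
      map_zero' := rfl
      map_add' := fun _ _ => rfl }
  have hinj : Function.Injective Θ := by
    intro b b' hb
    funext i
    refine Prod.ext (Subtype.ext (Hm.ext fun z => ?_)) ?_
    · exact congrArg Prod.fst (congrFun hb (i, z))
    · have h1 := congrArg Prod.snd (congrFun hb (i, 0))
      exact h1
  have hΘ : ∀ g b, Θ (actW π ρ g b) = fun q => (tw g (Θ b q).1, (ρ g).mulVec (Θ b q).2) := by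
    intro g b
    funext q
    refine Prod.ext ?_ rfl
    show ((π g (b q.1).1 : p) : Hm Λ A).hom q.2 = _
    rw [hπ]
    rfl
  let E := B.equivMapOfInjective Θ hinj
  have hB' : ∀ g, ∀ b ∈ B.map Θ,
      (fun q => (tw g (b q).1, (ρ g).mulVec (b q).2)) ∈ B.map Θ := by
    rintro g _ ⟨b, hb, rfl⟩
    exact ⟨_, hB g b hb, hΘ g b⟩
  have := h (I × Λ) (B.map Θ) hB' (f.comp E.symm.toAddMonoidHom) (E b)
  convert this using 3 with g
  · refine congrArg f (E.injective ?_)
    simp only [AddEquiv.toAddMonoidHom_eq_coe, AddMonoidHom.coe_coe, AddEquiv.apply_symm_apply]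
    exact Subtype.ext (hΘ g b)
  · simp

end hm

end Vale.Agent.P027M.TW.LowP
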