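import Vale.Agent.P027M.TW.HA
import Vale.Agent.P027M.TW.LowA
import Vale.Agent.P027M.TW.New

/-! # P027 route M, rows LOW2 and CUSP2 -/

set_option linter.all false

noncomputable section

namespace Vale.Agent.P027M.TW

namespace Low2P

open Vale.Agent.P027M.TW.LowP

section desc

variable {Δ ι A0 AK AL Λ k : Type} [CommGroup Δ] [Fintype Δ] [AddCommGroup A0] [AddCommGroup AK]
  [AddCommGroup AL] [CommRing Λ] [Field k] {red : Λ →+* k} {j : ℕ} {dl : Δ →* AddMonoid.End AL}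
  {TK DK : ι → AddMonoid.End AK} {TL DL : ι → AddMonoid.End AL} {io : AK →+ AL}
  {EK : AddMonoid.End AK} {EL : AddMonoid.End AL} {a ε : ι → Λ}

theorem io_inj (hD : Desc2 j dl TK DK TL DL io EK EL)
    (hd : ∀ φ ∈ mH TK DK a ε, Hm.endo Λ AK EK φ = 0 → φ = 0)
    {y : Hm Λ AK} (hy : y ∈ mH TK DK a ε) (h0 : Hm.map Λ io y = 0) : y = 0 :=
  hd y hy (Hm.ext fun z => hD.d2 _ (congrArg (fun φ : Hm Λ AL => φ.hom z) h0))

theorem io_surj (hL : Spec_LOC) (hC : Coef red j) (hD : Desc2 j dl TK DK TL DL io EK EL)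
    (hd : ∀ φ ∈ mH TL DL a ε, Hm.endo Λ AL EL φ = 0 → φ = 0) [Finite AL] {f : ℕ}
    (e : Λ ≃+ (Fin f → ZMod (3 ^ j))) {φ : Hm Λ AL} (hφ : φ ∈ mH TL DL a ε)
    (hi : ∀ δ, Hm.endo Λ AL (dl δ) φ = φ) : ∃ y ∈ mH TK DK a ε, Hm.map Λ io y = φ := by
  have := hC.fin
  have := hD.fin
  have := fin_Hm (Λ := Λ) (A := AL)
  let X := {φ : Hm Λ AL // φ ∈ mH TL DL a ε ∧ ∀ δ, Hm.endo Λ AL (dl δ) φ = φ}
  let E : X → X := fun φ => ⟨Hm.endo Λ AL EL φ.1,
    mH_endo _ hD.cTE' hD.cDE' φ.2.1, fun δ => by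
      rw [← Module.End.mul_apply, ← map_mul, (hD.cdE δ).eq, map_mul,
        Module.End.mul_apply, φ.2.2]⟩
  have hinj : Function.Injective E := by
    intro φ φ' h
    have h1 : Hm.endo Λ AL EL φ.1 = Hm.endo Λ AL EL φ'.1 := congrArg Subtype.val h
    exact Subtype.ext (sub_eq_zero.1 (hd _ (sub_mem φ.2.1 φ'.2.1) (by rw [map_sub, h1, sub_self])))
  obtain ⟨φ', h⟩ := Finite.injective_iff_surjective.1 hinj ⟨φ, hφ, hi⟩
  have h1 : Hm.endo Λ AL EL φ'.1 = φ := congrArg Subtype.val h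
  refine lift hL (by positivity) e hD.tor hD.cTT hD.cTD hD.cDD io hD.ioT hD.ioD hφ fun z => ?_
  rw [← h1]
  exact hD.d1 _ fun δ => congrArg (fun φ : Hm Λ AL => φ.hom z) (φ'.2.2 δ)

theorem ex_three (hD : Desc2 j dl TK DK TL DL io EK EL) {φ : Hm Λ AK} (hφ : φ ∈ mH TK DK a ε)
    (h0 : φ ≠ 0) : ∃ y ∈ mH TK DK a ε, y ≠ 0 ∧ 3 • y = 0 := by
  have key : ∀ n : ℕ, 3 ^ n • φ = 0 → ∃ y ∈ mH TK DK a ε, y ≠ 0 ∧ 3 • y = 0 := by
    intro n
    induction n with
    | zero => intro h; exact absurd (by simpa using h) h0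
    | succ n ih =>
      intro h
      by_cases h1 : 3 ^ n • φ = 0
      · exact ih h1
      · exact ⟨_, nsmul_mem hφ _, h1, by rw [smul_smul, ← pow_succ']; exact h⟩
  exact key j (Hm.ext fun z => hD.tor _)

end desc

theorem cusp_core {G Λ k H : Type} [Group G] [CommRing Λ] [Field k] [AddCommGroup H] [Module Λ H]
    {red : Λ →+* k} {j : ℕ} (hc : Coef red j) {π : G →* Module.End Λ H} {ρ : G →* M2 Λ} {g : G}
    (h : CHat π ρ g) (ht : red (1 - (ρ g).trace + (ρ g).det) ≠ 0) {φ : H} (h0 : π g φ - φ = 0) :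
    φ = 0 := by
  have u2 := h.2.isUnit_add_left_of_commute
    ((New.unit_of hc ht).neg.map (algebraMap Λ (Module.End Λ H))) (Algebra.commutes _ _).symm
  have e : algebraMap Λ (Module.End Λ H) (-(1 - (ρ g).trace + (ρ g).det)) +
      (tau π ρ g - algebraMap Λ (Module.End Λ H) (ρ g).trace) =
      (π g + 1 - tau π ρ g) * (π g - 1) := by
    have e1 := New.tau_mul π ρ g
    rw [mul_sub, sub_mul, add_mul, e1, map_neg, map_add, map_sub, map_one, mul_one, one_mul]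
    abel
  rw [e] at u2
  refine ((Module.End.isUnit_iff _).1 u2).1 ?_
  rw [map_zero, Module.End.mul_apply, LinearMap.sub_apply (π g), Module.End.one_apply, h0,
    map_zero]

end Low2P

open Vale.Agent.P027M.TW.LowP Low2P in
theorem low2 : Spec_LOW2 := by
  intro hH hG hM hL r e v b f C
  obtain ⟨j0, hj0⟩ := hM r e v (b * f * C)
  refine ⟨j0, fun j hj G Δ ι A0 AK AL Λ k _ _ _ _ _ _ _ _ red eq n act tw dl ψ T0 TK DK TL DL ρ ln
    a ε Fr U io EK EL β Fl Z c σ hC hn hDel hGal hD hd hd' hO hb hR htw hFl hZ hS hσ hI => ?_⟩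
  by_contra hcon
  push Not at hcon
  have := hC.fin
  have := hGal.fin
  have := hD.fin
  have := hO.fin
  have := fin_Hm (Λ := Λ) (A := AL)
  have := fin_Hm (Λ := Λ) (A := A0)
  obtain ⟨act', π, dl', ha, hπ, hdl, hCH, -, hT⟩ :=
    hH G Δ ι AL Λ k red j n act tw dl ψ TL DL ρ ln a ε Fr U hC hDel.exp hGal htw hR.two
  have La : ∀ g, Lf (act' g) (Hm.endo Λ AL (act g)) := ha
  have Lπ : ∀ g, Lf (π g) (Hm.endo Λ AL (tw g)) := hπ
  have Ld : ∀ δ, Lf (dl' δ) (Hm.endo Λ AL (dl δ)) := hdl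
  have htw' : IsTw n act' dl' ψ π := fun g => (Lπ g).uniq (by
    rw [htw g, map_mul]; exact (Ld _).mul (La g))
  have hπ1 : ∀ g, ψ g = 1 → π g = act' g := fun g hg => by
    rw [htw' g, hg, inv_one, one_pow, map_one, one_mul]
  obtain ⟨x, hx⟩ := hG G Λ k (mH TL DL a ε) red j r π ρ U Fl Z c hC hCH hR.cc hR.det hR.span
    (fun u hu => ⟨by
      rw [hπ1 u (hGal.ker u hu).2.1]
      exact (La u).uniq (by rw [(hGal.ker u hu).1, map_one]; exact Lf.one), (hGal.ker u hu).2.2⟩)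
    (flB hπ hFl) (fun z hz => by
      obtain ⟨h1, h2, h3⟩ := hZ z hz
      have h4 := (((La z).sub Lf.one).mul ((La z).sub (Lf.alg (ρ z).det))).eq_zero h3
      rw [← hπ1 z h1] at h4
      have h5 : π z * π z⁻¹ = 1 := by rw [← map_mul, mul_inv_cancel, map_one]
      have h6 := congrArg (· * π z⁻¹) h4
      simp only [zero_mul, mul_assoc, sub_mul, one_mul, mul_sub, h5, mul_one,
        Algebra.algebraMap_eq_smul_one, smul_mul_assoc, mul_smul_comm] at h6
      rw [tau, h2, map_add, map_one, Algebra.algebraMap_eq_smul_one]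
      rw [← sub_eq_zero, ← h6, smul_sub]
      abel) hS
  have hsurj : ∀ h : mH TL DL a ε, (∀ δ, dl' δ h = h) →
      ∃ y ∈ mH TK DK a ε, Hm.map Λ io y = h := fun h hh =>
    Low2P.io_surj hL hC hD hd' eq h.2 fun δ => by rw [← hdl, hh]
  have hcard : Nat.card {h : mH TL DL a ε // 3 • h = 0 ∧ ∀ δ, dl' δ h = h} ≤ 2 ^ (b * f * C) := by
    choose y hy hy' using hsurj
    have h3 : ∀ h : {h : mH TL DL a ε // 3 • h = 0 ∧ ∀ δ, dl' δ h = h}, 3 • y h.1 h.2.2 = 0 :=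
      fun h => Low2P.io_inj hD hd (nsmul_mem (hy _ _) _) (by
        rw [map_nsmul, hy']; exact congrArg Subtype.val h.2.1)
    let F : {h : mH TL DL a ε // 3 • h = 0 ∧ ∀ δ, dl' δ h = h} →
        (Fin C → {φ : Hm Λ A0 // 3 • φ = 0}) := fun h u =>
      ⟨Hm.map Λ (β u) (y h.1 h.2.2), by rw [← map_nsmul, h3, map_zero]⟩
    have hF : Function.Injective F := by
      intro h h' hh
      have h1 : y h.1 h.2.2 - y h'.1 h'.2.2 = 0 :=
        hO.inj _ (sub_mem (hy _ _) (hy _ _)) fun u z => by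
          have h2 := congrArg (fun φ : {φ : Hm Λ A0 // 3 • φ = 0} => φ.1.hom z) (congrFun hh u)
          rw [Hm.sub_hom, map_sub, sub_eq_zero]
          exact h2
      refine Subtype.ext (Subtype.ext ?_)
      rw [← hy' h.1 h.2.2, ← hy' h'.1 h'.2.2, sub_eq_zero.1 h1]
    refine (Nat.card_le_card_of_injective F hF).trans ?_
    rw [Nat.card_fun, Nat.card_eq_fintype_card (α := Fin C), Fintype.card_fin, pow_mul]
    exact Nat.pow_le_pow_left (hL.2.2.2 Λ A0 (3 ^ j) f b eq hb) C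
  have heig : ∀ h : mH TL DL a ε, (∀ δ, dl' δ h = h) →
      (∀ g, tau π ρ g h = (ρ g).trace • h) → 3 ^ v • h = 0 := by
    intro h hh ht
    obtain ⟨y, hy, hy'⟩ := hsurj h hh
    have h1 : ∀ i, Hm.endo Λ AK (TK i) y = a i • y := by
      intro i
      obtain ⟨φ, hφ⟩ := hGal.ex i
      have h2 := hT i φ hφ h hh
      rw [ht, hGal.tr i φ hφ, ← hy'] at h2
      refine sub_eq_zero.1 (Low2P.io_inj hD hd (sub_mem (mH_endo _ (fun i' => hD.cTT i' i)
        (fun i' => (hD.cTD i i').symm) hy) (Submodule.smul_mem _ _ hy)) ?_)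
      rw [map_sub, map_smul, hy', sub_eq_zero]
      exact (Hm.ext fun z => hD.ioT i _).trans h2.symm
    have h2 : 3 ^ v • y = 0 := hO.inj _ (nsmul_mem hy _) fun u z => by
      have h3 := hcon ((β u).comp y.hom) fun i z => by
        rw [AddMonoidHom.comp_apply, AddMonoidHom.comp_apply, ← hO.eqv, ← endo_hom, h1,
          Hm.smul_hom]
      rw [nsmul_hom, map_nsmul]
      exact DFunLike.congr_fun h3 z
    refine Subtype.ext ?_
    rw [Submodule.coe_smul_of_tower, ← hy', ← map_nsmul, h2, map_zero, Submodule.coe_zero]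
  have hfin := hj0 j hj G Δ Λ (mH TL DL a ε) n act' π dl' ψ ρ σ x hC.three hn hDel
    (fun g δ => ((La g).mul (Ld δ)).uniq (by
      rw [← map_mul, (hGal.cad g δ).eq, map_mul]; exact (Ld δ).mul (La g))) htw' hx hσ
    (fun i => (((((La _).sub Lf.one).mul ((La _).sub (Ld _))).mul
      ((Ld _).sub Lf.one)).pow e).eq_zero fun φ hφ => by
        have := hI i φ hφ
        simpa only [map_pow, map_mul, map_sub, map_one] using this) hcard heig
  obtain ⟨φ, hφ, hφ0⟩ := hO.ne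
  obtain ⟨y, hy, hy0, hy3⟩ := Low2P.ex_three hD hφ hφ0
  let N : AddMonoid.End AL := 3 ^ (j - 1) • ∑ δ, dl δ
  have hN : ∀ w, N w = 3 ^ (j - 1) • ∑ δ, dl δ w := fun w => by
    show 3 ^ (j - 1) • (∑ δ, dl δ) w = _
    exact congrArg _ (AddMonoidHom.finsetSum_apply _ _ _)
  have cN : ∀ u : AddMonoid.End AL, (∀ δ, Commute u (dl δ)) → ∀ w, N (u w) = u (N w) := by
    intro u hu w
    rw [hN, hN, map_nsmul, map_sum]
    exact congrArg _ (Finset.sum_congr rfl fun δ _ => DFunLike.congr_fun (hu δ).eq.symm w)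
  obtain ⟨w, hw, hw'⟩ := lift hL (by positivity) eq hGal.tor hGal.cTT hGal.cTD hGal.cDD N
    (fun i => cN _ (hGal.cTd i)) (fun i => cN _ (hGal.cDd i))
    (mH_map io hD.ioT hD.ioD (mH_endo EK hD.cTE hD.cDE hy))
    fun z => by
      obtain ⟨w, hw⟩ := hD.d3 (y.hom z) (congrArg (fun φ : Hm Λ AK => φ.hom z) hy3)
      exact ⟨w, (hN w).trans hw⟩
  refine hy0 (hd y hy (Low2P.io_inj hD hd (mH_endo EK hD.cTE hD.cDE hy) ?_))
  have h1 := congrArg Subtype.val (hfin ⟨w, hw⟩)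
  rw [Submodule.coe_smul_of_tower, Submodule.coe_sum, Submodule.coe_zero] at h1
  simp only [hdl] at h1
  rw [← hw', ← h1]
  show Hm.endo Λ AL (3 ^ (j - 1) • ∑ δ, dl δ) w = _
  rw [map_nsmul, map_sum, LinearMap.smul_apply, LinearMap.sum_apply]

open New in
theorem cusp2 : Spec_CUSP2 := by
  intro hH G Δ ι A Λ k _ _ _ _ _ red j n act dl ψ T D ρ ln a ε Fr U hc hΔ hG h2 g hψ ht φ hφ h0
  obtain ⟨-, π, -, -, hπ, -, hC, -⟩ := hH G Δ ι A Λ k red j n act
    (twist ((3 ^ n + 1) / 2) act dl ψ hG.cad) dl ψ T D ρ ln a ε Fr U hc hΔ hG (fun g => rfl) h2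
  have e1 : twist ((3 ^ n + 1) / 2) act dl ψ hG.cad g = act g := by
    show dl ((ψ g)⁻¹ ^ _) * act g = act g
    rw [hψ, inv_one, one_pow, map_one, one_mul]
  have := Low2P.cusp_core hc (hC g) ht (φ := ⟨φ, hφ⟩) (Subtype.ext (by
    rw [Submodule.coe_sub, hπ, e1]
    rw [map_sub, map_one] at h0
    exact h0))
  exact congrArg Subtype.val this

end Vale.Agent.P027M.TW
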