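import Vale.Agent.P027M.TW.Tow
import Vale.Agent.P027M.TW.Dens
import Vale.Agent.P027M.TW.Loc
import Vale.Agent.P027M.TW.LowA
import Vale.Agent.P027M.TW.Ch

/-! # P027 route M, block TW: tools for the global assembly -/

set_option linter.all false

noncomputable section

namespace Vale.Agent.P027M.TW.Top

open NumberField Vale.Agent.P022

/-- the unit defined by a number prime to the level -/
def un (N l : ℕ) : (ZMod N)ˣ := if h : l.Coprime N then ZMod.unitOfCoprime l h else 1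

theorem un_coe {N l : ℕ} (h : l.Coprime N) : (un N l : ZMod N) = l := by
  rw [un, dif_pos h, ZMod.coe_unitOfCoprime]

theorem um_um {A B C : ℕ} (h1 : A ∣ B) (h2 : B ∣ C) (h3 : A ∣ C) (u : (ZMod C)ˣ) :
    ZMod.unitsMap h1 (ZMod.unitsMap h2 u) = ZMod.unitsMap h3 u :=
  DFunLike.congr_fun (ZMod.unitsMap_comp h1 h2) u

theorem um_coe {M N l : ℕ} (h : M ∣ N) {u : (ZMod N)ˣ} (hu : (u : ZMod N) = l) :
    ((ZMod.unitsMap h u : (ZMod M)ˣ) : ZMod M) = l := by
  rw [ZMod.unitsMap_def, Units.coe_map, MonoidHom.coe_coe, hu, map_natCast]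

theorem un_map {M N l : ℕ} (h : M ∣ N) (hl : l.Coprime N) :
    ZMod.unitsMap h (un N l) = un M l :=
  Units.ext ((um_coe h (un_coe hl)).trans (un_coe (hl.coprime_dvd_right h)).symm)

theorem good_mono {M N l : ℕ} (h : M ∣ N) (hl : GoodP N l) : GoodP M l :=
  ⟨hl.1, fun h1 => hl.2 (h1.trans (Nat.mul_dvd_mul_left 6 h))⟩

theorem good_nd {N l : ℕ} (hl : GoodP N l) : ¬ l ∣ N := fun h => hl.2 (h.mul_left 6)

theorem good_cop {N l : ℕ} (hl : GoodP N l) : l.Coprime N :=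
  (Nat.Prime.coprime_iff_not_dvd hl.1).2 (good_nd hl)

theorem good_three {N l : ℕ} (hl : GoodP N l) (j : ℕ) : ¬ l ∣ 3 ^ j := fun h =>
  hl.2 (((hl.1.dvd_of_dvd_pow h).trans (by norm_num : 3 ∣ 6)).mul_right N)

theorem ex_good {N N' : ℕ} (h0 : 0 < N) (h0' : 0 < N') (u : (ZMod N)ˣ) :
    ∃ l, GoodP N' l ∧ (u : ZMod N) = l := by
  haveI : NeZero N := ⟨h0.ne'⟩
  obtain ⟨l, h1, h2, h3⟩ := Nat.forall_exists_prime_gt_and_eq_mod u.isUnit (6 * N')
  exact ⟨l, ⟨h2, Nat.not_dvd_of_pos_of_lt (by omega) h1⟩, h3.symm⟩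

/-- the good primes -/
abbrev Ix (N : ℕ) : Type := {l : ℕ // GoodP N l}

/-- the Hecke operators -/
def TT (X : Mods) (N : ℕ) (H : Subgroup (ZMod N)ˣ) (j N' : ℕ) (i : Ix N') :
    AddMonoid.End (X.A N H j) := X.T N H j i.1

/-- the diamond operators -/
def DD (X : Mods) (N : ℕ) (H : Subgroup (ZMod N)ˣ) (j N' s : ℕ) (i : Ix N') :
    AddMonoid.End (X.A N H j) := X.dia N H j (un N i.1 ^ s)

/-- the traces -/
def aa (a : ℕ → O3) (j N' : ℕ) (i : Ix N') : La j := toLa j (a i.1)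

/-- the character values -/
def ee {N : ℕ} (ε : (ZMod N)ˣ →* O3) (j N' : ℕ) (i : Ix N') : La j := toLa j (ε (un N i.1))

theorem tr_red {G Λ k : Type} [Group G] [CommRing Λ] [CommRing k] (f : Λ →+* k) (ρ : G →* M2 Λ)
    (g : G) : (redRep f ρ g).trace = f (ρ g).trace := by
  rw [redRep_apply, Matrix.trace_fin_two, Matrix.trace_fin_two, map_add]
  rfl

theorem det_red {G Λ k : Type} [Group G] [CommRing Λ] [CommRing k] (f : Λ →+* k) (ρ : G →* M2 Λ)
    (g : G) : (redRep f ρ g).det = f (ρ g).det := by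
  rw [redRep_apply, RingHom.map_det]
  rfl

theorem red_red (ρ : GQ →* M2 O3) (j : ℕ) :
    redRep (resL j) (redRep (toLa (j + 1)) ρ) = redRep res3 ρ := by
  refine MonoidHom.ext fun g => Matrix.ext fun a b => ?_
  exact resL_toLa j _

theorem resid {ρ : GQ →* M2 O3} {c : GQ} (h : Resid res3 ρ c) (j : ℕ) :
    Resid (resL j) (redRep (toLa (j + 1)) ρ) c where
  cc := h.cc
  det := by rw [det_red, h.det, map_neg, map_one]
  span m := by
    have e : (fun g => (redRep (toLa (j + 1)) ρ g).map (resL j)) = fun g => (ρ g).map res3 :=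
      funext fun g => DFunLike.congr_fun (red_red ρ j) g
    rw [e]
    exact h.span m
  two g := by rw [red_red]; exact h.two g

section gal

variable {X : Mods} {N N₁ N' : ℕ} {H : Subgroup (ZMod N₁)ˣ} {j : ℕ} {ρ : GQ →* M2 O3}
  {a : ℕ → O3} {ε : (ZMod N)ˣ →* O3}

theorem dia_comm (u u' : (ZMod N₁)ˣ) : Commute (X.dia N₁ H j u) (X.dia N₁ H j u') :=
  (Commute.all u u').map _

theorem galH (hR : Rho N ρ a ε) (hL : Lv1 X N₁ H j) (h1 : N ∣ N') (h2 : N₁ ∣ N') (h0 : 0 < N')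
    (hF : ∀ l : ℕ, l.Prime → ∃ φ, IsFrob l φ) {Δ : Type} [CommGroup Δ]
    (dl : Δ →* AddMonoid.End (X.A N₁ H j)) (ψ : GQ →* Δ) (s : ℕ)
    (hdl : ∀ δ, ∃ u, dl δ = X.dia N₁ H j u) (hs : ∀ u : (ZMod N₁)ˣ, (u ^ s) ^ 4 ∈ H)
    (hψ : IsOpen {g : GQ | ψ g = 1})
    (hes : ∀ l, GoodP N' l → ∀ φ, IsFrob l φ →
      X.dia N₁ H j (un N₁ l ^ s) * dl (ψ φ) = X.dia N₁ H j (un N₁ l)) :
    GalH j (X.act N₁ H j) dl ψ (TT X N₁ H j N') (DD X N₁ H j N' s) (redRep (toLa j) ρ)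
      (fun i => i.1) (aa a j N') (ee ε j N') (fun i φ => IsFrob i.1 φ)
      ((X.act N₁ H j).ker ⊓ ψ.ker ⊓ (redRep (toLa j) ρ).ker) where
  fin := hL.fin
  tor := hL.tor
  cTT i i' := hL.cTT _ _ (good_mono h2 i.2) (good_mono h2 i'.2)
  cTD i _ := hL.cTd _ _ (good_mono h2 i.2)
  cDD _ _ := dia_comm _ _
  cTa i _ := hL.cTa _ _ (good_mono h2 i.2)
  cDa _ _ := hL.cda _ _
  cTd i δ := by
    obtain ⟨u, hu⟩ := hdl δ
    rw [hu]
    exact hL.cTd _ _ (good_mono h2 i.2)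
  cDd i δ := by
    obtain ⟨u, hu⟩ := hdl δ
    rw [hu]
    exact dia_comm _ _
  cad g δ := by
    obtain ⟨u, hu⟩ := hdl δ
    rw [hu]
    exact (hL.cda _ _).symm
  es i φ hφ x := by
    have e := DFunLike.congr_fun (hes i.1 i.2 φ hφ) x
    have e2 := hL.es i.1 (good_mono h2 i.2) φ hφ (un N₁ i.1)
      (un_coe (good_cop (good_mono h2 i.2))) x
    rw [← e] at e2
    exact e2
  tr i φ hφ := by rw [tr_red, hR.tr i.1 (good_mono h1 i.2) φ hφ]; rfl
  det i φ hφ := by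
    rw [det_red, hR.det i.1 (good_mono h1 i.2) φ hφ _ (un_coe (good_cop (good_mono h1 i.2))),
      map_mul, map_natCast]
    rfl
  ord := ⟨4, by norm_num, fun i => ⟨by rw [DD, ← map_pow]; exact hL.diaH _ (hs _), by
    rw [ee, ← map_pow, hR.e4, map_one]⟩⟩
  ex i := hF i.1 i.2.1
  ker u hu := ⟨hu.1.1, hu.1.2, hu.2⟩
  dens Γ _ _ r hr := by
    have ho : IsOpen {g : GQ | r g = 1} :=
      Subgroup.isOpen_mono (H₂ := r.ker) hr ((hL.opn.inter hψ).inter (hR.opn j))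
    intro g ps p1 p2 p3
    obtain ⟨φ, ⟨l, l1, l2, l3⟩, h⟩ := dens Γ r ho (6 * N').primeFactors g ps p1 p2 p3
    exact ⟨φ, ⟨⟨l, l1, fun hd => l2 (Nat.mem_primeFactors.2 ⟨l1, hd, by omega⟩)⟩, l3⟩, h⟩

theorem four_unit (j : ℕ) : IsUnit ((4 : ℕ) : La (j + 1)) :=
  LowP.unit_of (coef j) (by rw [map_natCast]; decide)

/-- the diamond operators act on the `𝔪`-part by the character -/
theorem dia_smul (hR : Rho N ρ a ε) (hL : Lv1 X N₁ H (j + 1)) (h1 : N ∣ N₁) (h2 : N₁ ∣ N')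
    (h0 : 0 < N') {s : ℕ} (hs : ∀ u : (ZMod N₁)ˣ, (u ^ s) ^ 4 ∈ H) (u : (ZMod N₁)ˣ)
    {φ : Hm (La (j + 1)) (X.A N₁ H (j + 1))}
    (hφ : φ ∈ mH (TT X N₁ H (j + 1) N') (DD X N₁ H (j + 1) N' s) (aa a (j + 1) N')
      (ee ε (j + 1) N')) :
    Hm.endo _ _ (X.dia N₁ H (j + 1) (u ^ s)) φ = toLa (j + 1) (ε (ZMod.unitsMap h1 u)) • φ := by
  obtain ⟨l, hl, hu⟩ := ex_good (Nat.pos_of_dvd_of_pos h2 h0) h0 u
  have hc := good_cop (good_mono h2 hl)
  obtain rfl : u = un N₁ l := Units.ext (hu.trans (un_coe hc).symm)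
  rw [mH, mP, Submodule.mem_iInf] at hφ
  rw [un_map h1 hc]
  refine loc.2.1 _ _ _ _ 4 (four_unit j) (by norm_num) ?_ ?_ φ (hφ (.inr ⟨l, hl⟩))
  · rw [← map_pow, ← map_pow, hL.diaH _ (hs _), map_one]
  · rw [← map_pow, hR.e4, map_one]

end gal

/-- a homomorphism which kills almost all Frobenius elements is trivial -/
theorem chr_triv {Γ : Type} [Monoid Γ] [Finite Γ] (r : GQ →* Γ) (ho : IsOpen {g : GQ | r g = 1})
    (S : Finset ℕ) (h : ∀ l : ℕ, l.Prime → l ∉ S → ∀ φ, IsFrob l φ → r φ = 1) (g : GQ) :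
    r g = 1 := by
  by_contra hg
  have hf : IsOfFinOrder (r g) := by
    have := isOfFinOrder_of_finite (r.toHomUnits g)
    exact (Units.coeHom Γ).isOfFinOrder this
  have hp : (orderOf (r g)).minFac.Prime := Nat.minFac_prime (by rwa [Ne, orderOf_eq_one_iff])
  obtain ⟨m, hm⟩ := Nat.minFac_dvd (orderOf (r g))
  have m0 : m ≠ 0 := by
    rintro rfl
    exact hf.orderOf_pos.ne' (by simpa using hm)
  have ho' : orderOf (r (g ^ m)) = (orderOf (r g)).minFac := by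
    rw [map_pow, orderOf_pow_of_dvd m0 ⟨_, hm.trans (mul_comm _ _)⟩]
    exact Nat.div_eq_of_eq_mul_left (Nat.pos_of_ne_zero m0) hm
  obtain ⟨φ, ⟨l, l1, l2, l3⟩, k, k1, k2⟩ := dens Γ r ho S (g ^ m) {(orderOf (r g)).minFac}
    (by simpa using hp) (by
      rw [Finset.sum_singleton, div_lt_one (by exact_mod_cast hp.pos)]
      exact_mod_cast hp.one_lt) (fun p p1 p2 => by
      rw [ho'] at p2
      simpa using (Nat.prime_dvd_prime_iff_eq p1 hp).1 p2)
  rw [h l l1 l2 φ l3] at k2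
  have := orderOf_dvd_of_pow_eq_one k2.symm
  rw [ho'] at this k1
  exact hp.one_lt.ne' (Nat.Coprime.eq_one_of_dvd k1.symm this)

/-- the determinant on elements which fix the roots of unity of order `3 ^ j` -/
theorem det_eq {N : ℕ} {ρ : GQ →* M2 O3} {a : ℕ → O3} {ε : (ZMod N)ˣ →* O3} (hR : Rho N ρ a ε)
    (j : ℕ) (cy : GQ →* (ZMod N)ˣ) (c3 : GQ →* (ZMod (3 ^ j))ˣ) (o1 : IsOpen {g : GQ | cy g = 1})
    (o2 : IsOpen {g : GQ | c3 g = 1})
    (f1 : ∀ l, GoodP N l → ∀ φ, IsFrob l φ → (cy φ : ZMod N) = l)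
    (f2 : ∀ l, GoodP N l → ∀ φ, IsFrob l φ → (c3 φ : ZMod (3 ^ j)) = l) (z : GQ)
    (hz : c3 z = 1) : (redRep (toLa j) ρ z).det = toLa j (ε (cy z)) := by
  let r : GQ →* La j :=
    { toFun := fun g => (redRep (toLa j) ρ g).det * toLa j (ε (cy g)⁻¹) *
        algebraMap (ZMod (3 ^ j)) (La j) ((c3 g)⁻¹ : (ZMod (3 ^ j))ˣ)
      map_one' := by simp only [map_one, Matrix.det_one, inv_one, Units.val_one, mul_one]
      map_mul' := fun g h => by
        simp only [map_mul, Matrix.det_mul, mul_inv, Units.val_mul]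
        ring }
  have hr : ∀ g, r g = (redRep (toLa j) ρ g).det * toLa j (ε (cy g)⁻¹) *
      algebraMap (ZMod (3 ^ j)) (La j) ((c3 g)⁻¹ : (ZMod (3 ^ j))ˣ) := fun g => rfl
  have e1 : ∀ u, toLa j (ε u) * toLa j (ε u⁻¹) = 1 := fun u => by
    rw [← map_mul, ← map_mul, mul_inv_cancel, map_one, map_one]
  have h := chr_triv r (Subgroup.isOpen_mono (H₂ := r.ker)
    (H₁ := (redRep (toLa j) ρ).ker ⊓ cy.ker ⊓ c3.ker) (fun g hg => by
      have g1 : redRep (toLa j) ρ g = 1 := hg.1.1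
      have g2 : cy g = 1 := hg.1.2
      have g3 : c3 g = 1 := hg.2
      show r g = 1
      simp only [hr, g1, g2, g3, map_one, Matrix.det_one, inv_one, Units.val_one, mul_one]) (((hR.opn j).inter o1).inter o2)) (6 * N).primeFactors
    (fun l l1 l2 φ hφ => by
      have hl : GoodP N l :=
        ⟨l1, fun hd => l2 (Nat.mem_primeFactors.2 ⟨l1, hd, by have := hR.ok.pos; omega⟩)⟩
      rw [hr, det_red, hR.det l hl φ hφ _ (f1 l hl φ hφ), map_mul, map_natCast, mul_assoc (l : La j),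
        e1, mul_one, ← map_natCast (algebraMap (ZMod (3 ^ j)) (La j)), ← f2 l hl φ hφ, ← map_mul,
        Units.mul_inv, map_one]) z
  rw [hr, hz, inv_one, Units.val_one, map_one, mul_one] at h
  linear_combination toLa j (ε (cy z)) * h - (redRep (toLa j) ρ z).det * e1 (cy z)

/-- a commutator without the residual eigenvalue one -/
theorem ex_comm {G : Type} [Group G] (ρ : G →* M2 k9)
    (h1 : ∀ m : M2 k9, m ∈ Submodule.span k9 (Set.range ρ)) (h2 : ∀ g, ∃ a : ℕ, ρ g ^ 2 ^ a = 1) :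
    ∃ g h : G, 1 - (ρ (g * h * g⁻¹ * h⁻¹)).trace + (ρ (g * h * g⁻¹ * h⁻¹)).det ≠ 0 := by
  by_contra hcon
  push Not at hcon
  have hc : ∀ g h, ρ g * ρ h = ρ h * ρ g := by
    intro g h
    have hd : (ρ (g * h * g⁻¹ * h⁻¹)).det = 1 := by
      have e : ∀ x, (ρ x).det * (ρ x⁻¹).det = 1 := fun x => by
        rw [← Matrix.det_mul, ← map_mul, mul_inv_cancel, map_one, Matrix.det_one]
      simp only [map_mul, Matrix.det_mul]
      linear_combination (ρ h).det * (ρ h⁻¹).det * e g + e h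
    have ht := hcon g h
    obtain ⟨a, ha⟩ := h2 (g * h * g⁻¹ * h⁻¹)
    generalize hγ : ρ (g * h * g⁻¹ * h⁻¹) = γ at hd ht ha
    have h3 : (3 : k9) = 0 := by decide
    have hγ3 : γ ^ 3 = 1 := by
      have c := ChAux.ch2 γ
      have t2 : γ.trace = 2 := by linear_combination hd - ht
      have h3' : (3 : M2 k9) = 0 := by
        rw [← map_ofNat (algebraMap k9 (M2 k9)) 3, h3, map_zero]
      rw [t2, hd, map_one, map_ofNat] at c
      have c' : γ * γ - (γ + γ) + 1 = 0 := by rw [c, two_mul]; abel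
      have e : γ ^ 3 - 1 = (γ + 1 + 1) * (γ * γ - (γ + γ) + 1) + (1 + 1 + 1) * (γ - 1) := by
        noncomm_ring
      have h3'' : (1 + 1 + 1 : M2 k9) = 0 := by rw [← h3']; norm_num
      rw [c', h3'', mul_zero, zero_mul, add_zero] at e
      exact sub_eq_zero.1 e
    have h1' : γ = 1 := by
      have := pow_gcd_eq_one.2 ⟨hγ3, ha⟩
      rwa [(Nat.Coprime.pow_right a (by norm_num : Nat.Coprime 3 2)).gcd_eq_one, pow_one] at this
    have e : g * h = (g * h * g⁻¹ * h⁻¹) * (h * g) := by group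
    rw [← map_mul, ← map_mul, e, map_mul, hγ, h1', one_mul]
  have key : ∀ x : M2 k9, (∀ g, Commute x (ρ g)) → ∀ m, Commute x m := by
    intro x hx m
    refine Submodule.span_induction (p := fun m _ => Commute x m) ?_ (Commute.zero_right _)
      (fun y z _ _ hy hz => hy.add_right hz) (fun c y _ hy => hy.smul_right c) (h1 m)
    rintro _ ⟨g, rfl⟩
    exact hx g
  have hall : ∀ m m' : M2 k9, m * m' = m' * m := fun m m' =>
    key m (fun g => (key (ρ g) (hc g) m).symm) m'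
  have := congrFun (congrFun (hall !![0, 1; 0, 0] !![0, 0; 1, 0]) 0) 0
  simp at this

end Vale.Agent.P027M.TW.Top
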