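import Vale.Agent.P027M.TW.TopA
import Vale.Agent.P027M.TW.Low2
import Vale.Agent.P027M.TW.New
import Vale.Agent.P027M.TW.Flg

/-! # P027 route M, block TW: the global assembly -/

set_option linter.all false

noncomputable section

namespace Vale.Agent.P027M.TW.Top

open NumberField Vale.Agent.P022

/-- the statement about the old part -/
def OLDS : Prop := ∀ (X : Mods) (N : ℕ) (ρ : GQ →* M2 O3) (a : ℕ → O3) (ε : (ZMod N)ˣ →* O3),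
  Tower X → Rho N ρ a ε → THE X N a ε → (∀ l : ℕ, l.Prime → ∃ φ, IsFrob l φ) →
  ∀ (j N' s : ℕ), s % 4 = 1 → 0 < N' → ∀ Q : Finset ℕ,
  (∀ q ∈ Q, GoodP N q ∧ q % 4 = 3 ∧ 3 ∣ q - 1) → ∀ (N₁ : ℕ) (h : N ∣ N₁) (H : Subgroup (ZMod N₁)ˣ),
  N₁ = N * ∏ q ∈ Q, q → N₁ ∣ N' → (∀ u, u ∈ H ↔ ZMod.unitsMap h u ∈ H4 N) →
  ∃ β : Fin (2 ^ Q.card) → X.A N₁ H (j + 1) →+ X.A N (H4 N) (j + 1),
    Old (TT X N (H4 N) (j + 1) N') (TT X N₁ H (j + 1) N') (DD X N₁ H (j + 1) N' s)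
      (aa a (j + 1) N') (ee ε (j + 1) N') β

theorem igu' {X : Mods} (hI : IGU X) {N M q : ℕ} (e : N = M * q) (hM : M ∣ N) (hq : q ∣ N)
    {H : Subgroup (ZMod N)ˣ} {j : ℕ} (hk : Ok N H) (hj : 1 ≤ j) (hg : GoodP M q)
    (hs : ∀ h ∈ H, ∀ u : (ZMod N)ˣ, ZMod.unitsMap hM u = 1 →
      ZMod.unitsMap hq u = ZMod.unitsMap hq h → u ∈ H)
    {P : Ideal (𝓞 Qb)} (hP : P.IsPrime) (hqP : (q : 𝓞 Qb) ∈ P) {σ : GQ} (hσ : S.Inert P σ)
    {s : (ZMod N)ˣ} (hc : IsCy N σ s) {τ : (ZMod N)ˣ} (hτ : ZMod.unitsMap hM τ = 1) :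
    (X.act N H j σ - 1) * (X.act N H j σ - X.dia N H j s) * (X.dia N H j τ - 1) = 0 := by
  subst e
  exact hI M q H j hk hj hg hs P hP hqP σ hσ s hc τ hτ

theorem spl' (hS : Spec_SPL) {N M p : ℕ} (e : N = M * p) (hM : M ∣ N) (hp : p ∣ N) (h0 : 0 < M)
    (p1 : p.Prime) (p8 : p % 8 = 1) (nd : ¬ p ∣ M) : ∀ h ∈ H4 N, ∀ u : (ZMod N)ˣ,
    ZMod.unitsMap hM u = 1 → ZMod.unitsMap hp u = ZMod.unitsMap hp h → u ∈ H4 N := by
  subst e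
  exact hS M p h0 p1 p8 nd

theorem cy_eq (hC : Spec_CY) {M : ℕ} (h0 : 0 < M) {g : GQ} {u u' : (ZMod M)ˣ} (h : IsCy M g u)
    (h' : IsCy M g u') : u = u' := by
  obtain ⟨c, -, c2, -⟩ := hC.2 M h0
  rw [c2 g u h, c2 g u' h']

theorem cy_in (hC : Spec_CY) {M l : ℕ} (h0 : 0 < M) (l1 : l.Prime) (l2 : ¬ l ∣ M)
    {P : Ideal (𝓞 Qb)} (hP : P.IsPrime) (hl : (l : 𝓞 Qb) ∈ P) {g : GQ} (hg : S.Inert P g)
    {u : (ZMod M)ˣ} (h : IsCy M g u) : u = 1 := by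
  obtain ⟨c, -, c2, -, -, c5⟩ := hC.2 M h0
  rw [c2 g u h, (c5 l l1 l2).2 P hP hl g hg]

theorem um_neg {M N : ℕ} (h : M ∣ N) : ZMod.unitsMap h (-1) = -1 :=
  Units.ext (by simp [ZMod.unitsMap_def])

theorem vis_op {Λ M : Type} [CommRing Λ] [AddCommGroup M] [Module Λ M] {x y t : Module.End Λ M}
    {c d : Λ} {φ : M} (h : (x - 1) * (x - y) * (t - 1) = 0) (hy : y φ = d • φ) (ht : t φ = c • φ)
    (hc : IsUnit (c - 1)) : ((x - 1) * (x - algebraMap Λ (Module.End Λ M) d)) φ = 0 := by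
  have h1 := DFunLike.congr_fun h φ
  have h2 : (t - 1) φ = (c - 1) • φ := by rw [LinearMap.sub_apply, ht, sub_smul, one_smul]; rfl
  rw [Module.End.mul_apply, h2, map_smul, LinearMap.zero_apply, hc.smul_eq_zero] at h1
  rw [← h1, Module.End.mul_apply, Module.End.mul_apply, LinearMap.sub_apply x y, hy]
  rfl

theorem twg_of (hCY : Spec_CY) (hRAM : Spec_RAM) (hLEV : Spec_LEV) (hSPL : Spec_SPL)
    (hLOW : LOW2) (hCU : CUSP2) (hO : OLDS) : TWG := by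
  intro hF hO3 X N ρ a ε hX hR hT B v
  obtain ⟨P3, O, p1, p2, p3⟩ := hO3
  obtain ⟨Γ, w, hΓ, hw, hΓw, r, hsel⟩ := hR.sel
  obtain ⟨b, hb⟩ := hX.b3 N _ hR.ok
  obtain ⟨j, hj⟩ := hLOW r 1 v b 4 (2 ^ r)
  obtain ⟨c, hc⟩ := hR.res
  have N0 := hR.ok.pos
  have hFr : ∀ l : ℕ, l.Prime → ∃ φ, IsFrob l φ := fun l hl => (hCY.1 l hl).2
  obtain ⟨n, hn⟩ : ∃ n, n = 2 * (j + 1) := ⟨_, rfl⟩
  obtain ⟨Q, Qc, QT, hsel⟩ := hsel n (B ∪ (6 * N).primeFactors)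
  subst Qc
  have Qg : ∀ q ∈ Q, GoodP N q ∧ q % 4 = 3 ∧ 3 ∣ q - 1 := fun q hq =>
    ⟨⟨(QT q hq).1, fun hd => (QT q hq).2.2.2 (Finset.mem_union_right _
      (Nat.mem_primeFactors.2 ⟨(QT q hq).1, hd, by omega⟩))⟩, (QT q hq).2.1,
      (dvd_pow_self 3 (by omega)).trans (QT q hq).2.2.1⟩
  obtain ⟨q, qi, qm, qs⟩ : ∃ q : Fin Q.card → ℕ, Function.Injective q ∧ (∀ i, q i ∈ Q) ∧
      ∀ x ∈ Q, ∃ i, q i = x :=
    ⟨fun i => (Q.equivFin.symm i : ℕ), fun i k h => Q.equivFin.symm.injective (Subtype.ext h),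
      fun i => (Q.equivFin.symm i).2, fun x hx => ⟨Q.equivFin ⟨x, hx⟩, by simp⟩⟩
  have qp : ∀ i, (q i).Prime := fun i => (QT _ (qm i)).1
  obtain ⟨N', eN⟩ : ∃ N', N' = N * ∏ x ∈ Q, x := ⟨_, rfl⟩
  have hN : N ∣ N' := ⟨_, eN⟩
  have hq : ∀ i, q i ∣ N' := fun i => eN ▸ (Finset.dvd_prod_of_mem _ (qm i)).mul_left N
  have N1 : 0 < N' := eN ▸ Nat.mul_pos N0 (Finset.prod_pos fun x hx => (QT x hx).1.pos)
  have dv : ∀ l : ℕ, l.Prime → l ∣ N' → l ∣ N ∨ l ∈ Q := by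
    intro l l1 l2
    rw [eN] at l2
    refine ((Nat.Prime.dvd_mul l1).1 l2).imp id fun h => ?_
    obtain ⟨x, hx, h2⟩ := (l1.prime.dvd_finset_prod_iff _).1 h
    rwa [(Nat.prime_dvd_prime_iff_eq l1 (QT x hx).1).1 h2]
  have gd : ∀ l, GoodP N l → l ∉ Q → GoodP N' l := fun l l1 l2 => ⟨l1.1, fun h =>
    ((Nat.Prime.dvd_mul l1.1).1 h).elim (fun h => l1.2 (h.mul_right N))
      fun h => (dv l l1.1 h).elim (good_nd l1) l2⟩
  have n3 : ¬ 3 ∣ N' := fun h => (dv 3 (by norm_num) h).elim hR.ok.three fun h =>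
    (Qg 3 h).1.2 ((by norm_num : 3 ∣ 6).mul_right N)
  obtain ⟨Δ, _, _, d, ds, dk, dD⟩ := hLEV N' n Q.card q hq N1 qi qp fun i => (QT _ (qm i)).2.2.1
  obtain ⟨cy, c1, -, c3, c4, c5⟩ := hCY.2 N' N1
  obtain ⟨t, ht⟩ : ∃ t, 3 ^ n = 4 * t + 1 := ⟨3 ^ n / 4, by
    have : 3 ^ n % 4 = 1 := by rw [hn, pow_mul, Nat.pow_mod]; simp
    omega⟩
  let HK : Subgroup (ZMod N')ˣ := (H4 N).comap (ZMod.unitsMap hN)
  let HL : Subgroup (ZMod N')ˣ := HK ⊓ d.ker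
  have ds1 : ∀ u, d (u ^ 3 ^ n) = 1 := fun u => (dk _).2 fun i => ⟨_, map_pow _ _ _⟩
  have k4 : ∀ u : (ZMod N')ˣ, u ^ 4 ∈ HK := fun u => ⟨_, Or.inl (map_pow _ _ _)⟩
  have l4 : ∀ u : (ZMod N')ˣ, (u ^ 3 ^ n) ^ 4 ∈ HL := fun u => ⟨k4 _, by
    show d _ = 1
    rw [map_pow, ds1, one_pow]⟩
  have okK : Ok N' HK := ⟨N1, hR.ok.four.trans hN, n3, by
    show ZMod.unitsMap hN (-1) ∈ H4 N
    rw [um_neg]; exact hR.ok.neg⟩
  have okL : Ok N' HL := ⟨N1, okK.four, n3, okK.neg, by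
    show d _ = 1
    rw [← ds1 (-1), Odd.neg_one_pow ⟨2 * t, by omega⟩]⟩
  have LK := hX.lv N' HK (j + 1) okK (by omega)
  have LL := hX.lv N' HL (j + 1) okL (by omega)
  choose sc hsc using ds
  have fK : ∀ u : (ZMod N')ˣ, u * (u ^ 3 ^ n)⁻¹ ∈ HK := fun u => by
    have e : u * (u ^ 3 ^ n)⁻¹ = (u ^ t)⁻¹ ^ 4 := by rw [ht]; group
    rw [e]; exact k4 _
  have fd : ∀ u : (ZMod N')ˣ, d (u * (u ^ 3 ^ n)⁻¹) = d u := fun u => by
    rw [map_mul, map_inv, ds1, inv_one, mul_one]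
  have key : ∀ u u' : (ZMod N')ˣ, d u = d u' → X.dia N' HL (j + 1) (u * (u ^ 3 ^ n)⁻¹) =
      X.dia N' HL (j + 1) (u' * (u' ^ 3 ^ n)⁻¹) := by
    intro u u' h
    have h1 := LL.diaH ((u * (u ^ 3 ^ n)⁻¹)⁻¹ * (u' * (u' ^ 3 ^ n)⁻¹))
      ⟨HK.mul_mem (HK.inv_mem (fK u)) (fK u'), by
        show d _ = 1
        rw [map_mul, map_inv, fd, fd, h, inv_mul_cancel]⟩
    rw [← mul_one (X.dia N' HL (j + 1) (u * (u ^ 3 ^ n)⁻¹)), ← h1, ← map_mul,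
      mul_inv_cancel_left]
  let dl : Δ →* AddMonoid.End (X.A N' HL (j + 1)) :=
    { toFun := fun δ => X.dia N' HL (j + 1) (sc δ * (sc δ ^ 3 ^ n)⁻¹)
      map_one' := by rw [key (sc 1) 1 (by rw [hsc, map_one])]; simp
      map_mul' := fun δ δ' => by
        rw [key (sc (δ * δ')) (sc δ * sc δ') (by rw [map_mul, hsc, hsc, hsc]), ← map_mul, mul_pow,
          mul_inv, mul_mul_mul_comm] }
  have hdl : ∀ u, dl (d u) = X.dia N' HL (j + 1) (u * (u ^ 3 ^ n)⁻¹) := fun u => key _ _ (hsc _)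
  have hdl2 : ∀ u ∈ HK, dl (d u) = X.dia N' HL (j + 1) u := fun u hu => by
    rw [hdl, map_mul, LL.diaH _ (inv_mem ⟨pow_mem hu _, ds1 u⟩), mul_one]
  have hd1 : ∀ u, d u = 1 → X.dia N' HL (j + 1) (u ^ 3 ^ n) = X.dia N' HL (j + 1) u := by
    intro u hu
    have h1 := hdl u
    rw [hu, map_one] at h1
    rw [← mul_one (X.dia N' HL (j + 1) (u ^ 3 ^ n)), h1, ← map_mul, mul_comm u,
      mul_inv_cancel_left]
  let ψ : GQ →* Δ := d.comp cy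
  have hψ : ∀ g, cy g = 1 → ψ g = 1 := fun g h => by
    show d (cy g) = 1
    rw [h, map_one]
  have ψo : IsOpen {g : GQ | ψ g = 1} :=
    Subgroup.isOpen_mono (H₁ := cy.ker) (H₂ := ψ.ker) hψ c3
  have gL := galH hR LL hN dvd_rfl N1 hFr dl ψ (3 ^ n) (fun δ => ⟨_, rfl⟩) l4 ψo
    fun l hl φ hφ => by
      have e : cy φ = un N' l :=
        Units.ext (((c5 l hl.1 (good_nd hl)).1 φ hφ).trans (un_coe (good_cop hl)).symm)
      show _ * dl (d (cy φ)) = _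
      rw [hdl, e, ← map_mul, mul_comm (un N' l), mul_inv_cancel_left]
  have gK := galH hR LK hN dvd_rfl N1 hFr (1 : Unit →* _) (1 : GQ →* Unit) (3 ^ n)
    (fun _ => ⟨1, (map_one _).symm⟩) (fun u => k4 _) (by simp) fun l hl φ hφ => by
      rw [MonoidHom.one_apply, mul_one, ht, pow_succ, mul_comm 4, pow_mul, map_mul,
        LK.diaH _ (k4 _), one_mul]
  have hc' := resid hc j
  obtain ⟨g1, g2, hg0⟩ := ex_comm (redRep res3 ρ) hc.span hc.two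
  obtain ⟨c9, e1, -, e3, -, e5⟩ := hCY.2 (3 ^ (j + 1)) (by positivity)
  have cm : ∀ (M : ℕ) (f : GQ →* (ZMod M)ˣ), f (g1 * g2 * g1⁻¹ * g2⁻¹) = 1 := fun M f => by
    simp only [map_mul, map_inv, mul_inv_cancel_comm, mul_inv_cancel]
  generalize g1 * g2 * g1⁻¹ * g2⁻¹ = g0 at hg0 cm
  have hg1 : resL j (1 - (redRep (toLa (j + 1)) ρ g0).trace +
      (redRep (toLa (j + 1)) ρ g0).det) ≠ 0 := by
    rw [map_add, map_sub, map_one, ← tr_red, ← det_red, red_red]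
    exact hg0
  have hex : ∀ δ : Δ, δ ^ 3 ^ n = 1 := fun δ => by rw [← hsc δ, ← map_pow, ds1]
  obtain ⟨io, i1, i2, i3⟩ := hX.dsc N' HK HL (j + 1) n Δ d dl okK okL (by omega) hex
    (fun u => Iff.rfl) (fun δ => ⟨_, fK (sc δ), by rw [fd, hsc]⟩) hdl2
  obtain ⟨d1, d2, d3⟩ := i3 g0 fun ζ hζ => by
    rw [e1 g0 ζ hζ, cm, Units.val_one, ZMod.val_one'' (Nat.one_lt_pow (by omega) (by omega)).ne',
      pow_one]
  have hσ : ∀ i, ∃ (P : Ideal (𝓞 Qb)) (σ : GQ), P.IsPrime ∧ (q i : 𝓞 Qb) ∈ P ∧ S.Inert P σ ∧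
      ∀ x, x ∈ Subgroup.zpowers (ZMod.unitsMap (hq i) (cy σ)) := by
    intro i
    haveI : Fact (q i).Prime := ⟨qp i⟩
    obtain ⟨P, h1, h2⟩ := (hCY.1 _ (qp i)).1
    obtain ⟨x, hx⟩ := IsCyclic.exists_generator (α := (ZMod (q i))ˣ)
    obtain ⟨σ, h3, h4⟩ := hRAM _ (qp i) P h1 h2 x
    exact ⟨P, σ, h1, h2, h3, by rw [cy_eq hCY (qp i).pos (c4 _ (hq i) σ) h4]; exact hx⟩
  choose P σ s1 s2 s3 s4 using hσ
  obtain ⟨β, hβ⟩ := hO X N ρ a ε hX hR hT hFr j N' (3 ^ n) (by omega) N1 Q Qg N' hN HK eN dvd_rfl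
    fun u => Iff.rfl
  obtain ⟨cN, f1, -, f3, -, f5⟩ := hCY.2 N N0
  have hdet : ∀ (l : ℕ) (P : Ideal (𝓞 Qb)) (z : GQ), l.Prime → 3 < l → P.IsPrime →
      (l : 𝓞 Qb) ∈ P → S.Inert P z → (redRep (toLa (j + 1)) ρ z).det =
        toLa (j + 1) (ε (ZMod.unitsMap hN (cy z))) := by
    intro l P z l1 l2 h1 h2 h3
    rw [cy_eq hCY N0 (c4 _ hN z) (f1 z)]
    exact det_eq hR (j + 1) cN c9 f3 e3 (fun l hl => (f5 l hl.1 (good_nd hl)).1)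
      (fun l hl => (e5 l hl.1 (good_three hl _)).1) z ((e5 l l1 fun h => by
        have := Nat.le_of_dvd (by norm_num) (l1.dvd_of_dvd_pow h)
        omega).2 P h1 h2 z h3)
  refine Exists.elim (hj (j + 1) (by omega) GQ Δ (Ix N') _ _ _ (La (j + 1)) k9 (resL j)
    (La_equiv (j + 1)) n (X.act N' HL (j + 1))
    (New.twist ((3 ^ n + 1) / 2) (X.act N' HL (j + 1)) dl ψ gL.cad) dl ψ _ _ _ _ _ _ _ _ _ _ _ io
    (X.act N' HK (j + 1) g0 - 1) (X.act N' HL (j + 1) g0 - 1) β (FlL P3 Γ w)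
    {z | ∃ (l : ℕ) (P : Ideal (𝓞 Qb)), l.Prime ∧ 3 < l ∧ l ∣ N ∧ l % 12 ≠ 7 ∧ P.IsPrime ∧
      (l : 𝓞 Qb) ∈ P ∧ S.Inert P z} c σ (coef j) hn.ge
    (dD (fun i => cy (σ i)) s4 fun i k h => cy_in hCY (qp k).pos (qp i)
      (fun h1 => h (qi ((Nat.prime_dvd_prime_iff_eq (qp i) (qp k)).1 h1))) (s1 i) (s2 i) (s3 i)
      (c4 _ (hq k) _)) gL
    ⟨LK.fin, LK.tor, gK.cTT, gK.cTD, gK.cDD, fun i => (gK.cTa i g0).sub_right (.one_right _),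
      fun i => (gK.cDa i g0).sub_right (.one_right _),
      fun i => (gL.cTa i g0).sub_right (.one_right _),
      fun i => (gL.cDa i g0).sub_right (.one_right _),
      fun δ => (gL.cad g0 δ).symm.sub_right (.one_right _), fun i y => i1 _ y i.2,
      fun i y => i2 _ y, d1, d2, d3⟩
    (hCU GQ Unit _ _ _ k9 (resL j) (j + 1) 0 _ _ _ _ _ _ _ _ _ _ _ (coef j) (fun _ => rfl) gK
      hc'.two g0 rfl hg1)
    (hCU GQ Δ _ _ _ k9 (resL j) (j + 1) n _ _ _ _ _ _ _ _ _ _ _ (coef j) hex gL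
      hc'.two g0 (hψ _ (cm _ _)) hg1) hβ (hb _ (by omega)) hc' (fun g => rfl)
    (flg hF P3 O Γ w p1 p2 p3 hΓ hw hΓw _ _ (X.act N' HL (j + 1)) _ _ (fun g hg => by
      show dl ((ψ g)⁻¹ ^ _) * _ = _
      rw [hψ g ((c5 3 (by norm_num) n3).2 P3 p1 (by exact_mod_cast p2) g hg), inv_one, one_pow,
        map_one, one_mul]) (LL.fl P3 O p1 p2 p3) (hR.fl (j + 1) P3 O p1 p2 p3)) ?_ ?_ ?_ ?_)
    fun φ ⟨hφ1, hφ2⟩ => ?_
  rotate_right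
  · refine ⟨j + 1, by omega, φ, fun l l1 l2 z => hφ1 ⟨l, gd l l2 fun h => ?_⟩ z, hφ2⟩
    exact (QT l h).2.2.2 (Finset.mem_union_left _ l1)
  · rintro z ⟨l, P, l1, l2, l3, l4', h1, h2, h3⟩
    obtain ⟨l8, l9, hv⟩ := (hR.vis l l1 l2 l3).resolve_left l4'
    obtain ⟨v1, z0, v2, v3⟩ := hv P h1 h2
    obtain ⟨M0, hM0⟩ := l3
    rw [mul_comm] at hM0
    have M1 : ¬ l ∣ M0 := fun h => l9 (by rw [hM0, sq]; exact Nat.mul_dvd_mul_right h l)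
    have lQ : ∀ x ∈ Q, ¬ l ∣ x := fun x hx h => good_nd (Qg x hx).1 (by
      rw [← (Nat.prime_dvd_prime_iff_eq l1 (QT x hx).1).1 h]; exact ⟨M0, by rw [hM0, mul_comm]⟩)
    obtain ⟨M, eM⟩ : ∃ M, M = M0 * ∏ x ∈ Q, x := ⟨_, rfl⟩
    have e2 : N' = M * l := by rw [eN, eM, hM0]; ring
    have hM : M ∣ N' := ⟨_, e2⟩
    have hl : l ∣ N' := ⟨M, by rw [e2, mul_comm]⟩
    have M2 : ¬ l ∣ M := fun h => by
      rw [eM] at h
      refine ((Nat.Prime.dvd_mul l1).1 h).elim M1 fun h => ?_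
      obtain ⟨x, hx, h2⟩ := (l1.prime.dvd_finset_prod_iff _).1 h
      exact lQ x hx h2
    have Mp : 0 < M := Nat.pos_of_dvd_of_pos hM N1
    have dM : ∀ u, ZMod.unitsMap hM u = 1 → d u = 1 := fun u hu => (dk u).2 fun i => ⟨1, by
      rw [← um_um (eM ▸ (Finset.dvd_prod_of_mem _ (qm i)).mul_left M0) hM, hu, map_one, one_pow]⟩
    have cM : ∀ y, S.Inert P y → ZMod.unitsMap hM (cy y) = 1 := fun y hy =>
      cy_in hCY Mp l1 M2 h1 h2 hy (c4 _ hM y)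
    have hM0' : M0 ∣ N := ⟨_, hM0⟩
    have hl' : l ∣ N := ⟨M0, by rw [hM0, mul_comm]⟩
    have I := igu' hX.igu e2 hM hl okL (j := j + 1) (by omega)
      ⟨l1, fun h => ((Nat.Prime.dvd_mul l1).1 h).elim (fun h => by
        have := Nat.le_of_dvd (by norm_num) h
        interval_cases l <;> omega) M2⟩
      (fun h hh u u1 u2 => ⟨spl' hSPL hM0 hM0' hl' (Nat.pos_of_dvd_of_pos hM0' N0) l1 l8 M1
        _ hh.1 _ (by
          rw [um_um hM0' hN (hM0'.trans hN), ← um_um ⟨_, eM⟩ hM, u1, map_one]) (by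
          rw [um_um hl' hN hl, um_um hl' hN hl, u2]), dM u u1⟩) h1 h2 h3 (c1 z) (cM z0 v2)
    refine ⟨dM _ (cM z h3), by rw [tr_red, det_red, v1 z h3, map_add, map_one], fun φ hφ => ?_⟩
    have I2 := congrArg (Hm.endo (La (j + 1)) _) I
    simp only [map_mul, map_sub, map_one, map_zero] at I2
    refine vis_op I2 ?_ (c := (redRep (toLa (j + 1)) ρ z0).det) ?_ (LowP.unit_of (coef j) ?_)
    · rw [hdet l P z l1 l2 h1 h2 h3, ← hd1 _ (dM _ (cM z h3))]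
      exact dia_smul hR LL hN dvd_rfl N1 l4 _ hφ
    · rw [hdet l P z0 l1 l2 h1 h2 v2, ← hd1 _ (dM _ (cM z0 v2))]
      exact dia_smul hR LL hN dvd_rfl N1 l4 _ hφ
    · rw [map_sub, map_one, det_red, resL_toLa, sub_ne_zero]
      exact v3
  · rw [red_red]
    refine hsel _ _ P3 ((LL.opn.inter ψo).inter (hR.opn _)) p1 p2 fun l l1 l2 l3 => ?_
    by_cases h : l ∣ N
    · refine Or.inr ⟨h, ?_⟩
      by_cases h7 : l % 12 = 7
      · exact Or.inl h7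
      · exact Or.inr fun P h1 h2 g h3 => ⟨l, P, l1, l2, h, h7, h1, h2, h3⟩
    · have hl : GoodP N l := ⟨l1, fun h' => ((Nat.Prime.dvd_mul l1).1 h').elim (fun h => by
        have := Nat.le_of_dvd (by norm_num) h
        interval_cases l
        · exact absurd l1 (by norm_num)
        · omega
        · exact absurd l1 (by norm_num)) h⟩
      have hl' := gd l hl l3
      refine Or.inl fun P h1 h2 g h3 => ⟨⟨LL.unr l hl' P h1 h2 g h3,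
        hψ g ((c5 l l1 (good_nd hl')).2 P h1 h2 g h3)⟩, ?_⟩
      show (toLa (j + 1)).mapMatrix (ρ g) = 1
      rw [hR.unr l hl P h1 h2 g h3, map_one]
  · intro i
    show (toLa (j + 1)).mapMatrix (ρ (σ i)) = 1
    rw [hR.unr _ (Qg _ (qm i)).1 _ (s1 i) (s2 i) _ (s3 i), map_one]
  · intro i φ _
    obtain ⟨M, eM⟩ : ∃ M, M = N * ∏ x ∈ Q.erase (q i), x := ⟨_, rfl⟩
    have e2 : N' = M * q i := by rw [eN, eM, mul_assoc, Finset.prod_erase_mul _ _ (qm i)]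
    have hM : M ∣ N' := ⟨_, e2⟩
    have M2 : ¬ q i ∣ M := fun h => by
      rw [eM] at h
      refine ((Nat.Prime.dvd_mul (qp i)).1 h).elim (good_nd (Qg _ (qm i)).1) fun h => ?_
      obtain ⟨x, hx, h2⟩ := ((qp i).prime.dvd_finset_prod_iff _).1 h
      obtain ⟨x1, x2⟩ := Finset.mem_erase.1 hx
      exact x1 ((Nat.prime_dvd_prime_iff_eq (qp i) (QT x x2).1).1 h2).symm
    have kM : ∀ u, ZMod.unitsMap hM u = 1 → u ∈ HK := fun u hu => by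
      show ZMod.unitsMap hN u ∈ H4 N
      rw [← um_um ⟨_, eM⟩ hM, hu, map_one]
      exact one_mem _
    have cM := cy_in hCY (Nat.pos_of_dvd_of_pos hM N1) (qp i) M2 (s1 i) (s2 i) (s3 i) (c4 _ hM _)
    have I := igu' hX.igu e2 hM (hq i) okL (j := j + 1) (by omega)
      ⟨qp i, fun h => ((Nat.Prime.dvd_mul (qp i)).1 h).elim
        (fun h => (Qg _ (qm i)).1.2 (h.mul_right N)) M2⟩
      (fun h hh u u1 u2 => ⟨kM u u1, (dk u).2 fun k => by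
        by_cases hk : k = i
        · subst hk
          rw [u2]
          exact (dk h).1 hh.2 k
        · refine ⟨1, ?_⟩
          rw [← um_um (eM ▸ (Finset.dvd_prod_of_mem _ (Finset.mem_erase.2
            ⟨fun h => hk (qi h), qm k⟩)).mul_left N) hM, u1, map_one, one_pow]⟩)
      (s1 i) (s2 i) (s3 i) (c1 _) cM
    have e3 : dl (ψ (σ i)) = X.dia N' HL (j + 1) (cy (σ i)) := hdl2 _ (kM _ cM)
    rw [e3, I, pow_one, map_zero, LinearMap.zero_apply]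

end Vale.Agent.P027M.TW.Top
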